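import Vale.Agent.P167.N.H167.Q.EDefs
import Vale.Agent.P167.N.Base.ArmS
import Vale.Agent.P167.N.MIX.Jun
import Vale.Agent.P167.N.H506.Q.Rm
import Vale.Agent.P167.H167.Q.JunMix

/-!
# P167, `q < 1`, block Q-MIX-J: ratio mixing at a flat junction free | wired

As in `Vale.Agent.P167.H167.Q.JunMix`; `rm_flat` is the junction mixing of `N.MIX.Jun`. The places of
one colour (`Bd3` of `N.H167.Q.EDefs`) have simple shapes.
-/

set_option autoImplicit false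

namespace Vale.Agent.P167.N.H167.Q

open Vale.Agent.P167.H167.Q Vale.Agent.P167.H167

open Finset Vale.Agent.P167.FK Vale.Agent.P167.FKA

open Vale.Agent.P145.FB (PStep PConn)

open Vale.Agent.P167.H259 (f_markov Ex_out)

open Vale.Agent.P167.H192.Q (SRSW)

open Vale.Agent.P167.H506.Q (RM mem_bq)

open Vale.Agent.P167.H635 (InRay RayOk HP)

open Relation

variable {Q : ℝ}

/-- The masked arms. -/
theorem amShp {α C : ℝ} (h : ArmM Q α C) : N.MIX.AmShp Q α C := by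
  intro x r R D hr hrR hD η hη
  exact h true x r R D η hr hrR hη hD

/-- The complement of a half plane. -/
theorem halfPl_of {H : ℤ × ℤ → Prop} (h : HP H) : HalfPl {v | ¬ H v} := by
  obtain ⟨c, h | h | h | h⟩ := h
  · exact ⟨c, Or.inr (Or.inl (Set.ext fun v => by
      show ¬ H v ↔ c ≤ v.1
      rw [h]
      exact not_lt))⟩
  · exact ⟨c, Or.inl (Set.ext fun v => by
      show ¬ H v ↔ v.1 < c
      rw [h]
      exact not_le)⟩
  · exact ⟨c, Or.inr (Or.inr (Or.inr (Set.ext fun v => by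
      show ¬ H v ↔ c ≤ v.2
      rw [h]
      exact not_lt)))⟩
  · exact ⟨c, Or.inr (Or.inr (Or.inl (Set.ext fun v => by
      show ¬ H v ↔ v.2 < c
      rw [h]
      exact not_le)))⟩

/-- The shape of the domain and the shape of the frozen squares. -/
theorem shp_conv {D : Finset (ℤ × ℤ)} {x : ℤ × ℤ} {r R : ℤ} (h : H635.Shp D x r R) :
    N.Shp ((Bq x R \ D : Finset (ℤ × ℤ)) : Set (ℤ × ℤ)) x r R := by
  have key : ∀ v ∈ Bq x R \ Bq x r, v ∈ ((Bq x R \ D : Finset (ℤ × ℤ)) : Set (ℤ × ℤ)) ↔ v ∉ D :=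
    fun v hv => by
      rw [Finset.mem_coe, Finset.mem_sdiff]
      exact ⟨fun h => h.2, fun h => ⟨(Finset.mem_sdiff.1 hv).1, h⟩⟩
  rcases h with ⟨H1, H2, h1, h2, h⟩ | ⟨l, k, h1, h⟩
  · refine Or.inl ⟨_, _, halfPl_of h1, halfPl_of h2, ?_⟩
    rcases h with h | h
    · refine Or.inr fun v hv => (key v hv).trans ?_
      rw [h v hv, not_and_or]
      exact Iff.rfl
    · refine Or.inl fun v hv => (key v hv).trans ?_
      rw [h v hv, not_or]
      exact Iff.rfl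
  · refine Or.inr ⟨l, k, h1, fun v hv => (key v hv).trans ?_⟩
    rw [h v hv, not_not]

/-- **Ratio mixing at a flat junction.** -/
theorem rm_flat (hQ : Kit Q) (_hR : RSW Q) (_hS : SRSW Q) : ∃ α C : ℝ, 0 < α ∧ 0 < C ∧
    ∀ (h b : ℤ) (pl pr : Bool) (x : ℤ × ℤ) (r R : ℤ) (K : Finset (ℤ × ℤ)) (κ : Cfg), h ≤ x.2 →
      1 ≤ r → r ≤ R → (∀ v ∈ Bq x R, v ∈ K ↔ v.2 < h) →
      (∀ v ∈ K, v ∈ Bq x R → κ v = if v.1 < b then pl else pr) →
      C * ((r : ℝ) / R) ^ α < 1 →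
      RM Q K κ (Bq x R \ K) (Bq x r \ K) ((1 / (1 - C * ((r : ℝ) / R) ^ α)) ^ 2) := by
  obtain ⟨α, C, hα, hC, h⟩ := hQ.armM
  exact ⟨α, C, hα, hC, fun a b pl pr x r R K κ _ h1 h2 h3 h4 h5 =>
    N.MIX.rm_flat_of hQ.pos hQ.le (amShp h) a b pl pr x r R K κ h1 h2 h3 h4 h5⟩

theorem MxA.of_rm (hQ : Kit Q) {D : Finset (ℤ × ℤ)} {η : Cfg} {x : ℤ × ℤ} {r R : ℤ} {e : ℝ}
    (h0 : 0 ≤ e) (h1 : e ≤ 1 / 2)
    (h : RM Q (Bq x R \ D) η (Bq x R \ (Bq x R \ D)) (Bq x r \ (Bq x R \ D)) ((1 / (1 - e)) ^ 2))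
    (hrR : r ≤ R) : MxA Q D η x r R (6 * e) := by
  have hQ0 : 0 < Q := hQ.pos
  intro ξ ξ' hξ hξ' hk hk' F hF0 hF
  have e1 : Bq x R \ (Bq x R \ D) = Bq x R ∩ D := by
    ext v
    simp only [Finset.mem_sdiff, Finset.mem_inter]
    tauto
  have e2 : Bq x r \ (Bq x R \ D) = Bq x r ∩ D := by
    ext v
    have : v ∈ Bq x r → v ∈ Bq x R := by
      intro hv
      rw [mem_bq] at hv ⊢
      omega
    simp only [Finset.mem_sdiff, Finset.mem_inter]
    tauto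
  rw [e1, e2] at h
  have h2 := h ξ ξ' hξ hξ' (fun v hv => hk v (Finset.mem_sdiff.1 hv).1 (Finset.mem_sdiff.1 hv).2)
    (fun v hv => hk' v (Finset.mem_sdiff.1 hv).1 (Finset.mem_sdiff.1 hv).2) F hF0 hF
  exact h2.trans (mul_le_mul_of_nonneg_right (sq_inv_le h0 h1) (Ex_nonneg hQ0 fun _ _ => hF0 _))

/-- **Mixing at every place where the boundary has one colour or is flat.** -/
theorem mx_all (hQ : Kit Q) (hR : RSW Q) (hS : SRSW Q) : ∃ α C : ℝ, 0 < α ∧ 0 < C ∧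
    ∀ (D : Finset (ℤ × ℤ)) (η : Cfg) (x : ℤ × ℤ) (r R : ℤ), Bd3 D η x R → 1 ≤ r → r ≤ R →
      C * ((r : ℝ) / R) ^ α ≤ 1 / 2 → MxA Q D η x r R (6 * (C * ((r : ℝ) / R) ^ α)) := by
  have hQ0 : 0 < Q := hQ.pos
  obtain ⟨α1, C1, hα1, hC1, hdec, -⟩ := hQ.armS
  obtain ⟨α2, C2, hα2, hC2, hfl⟩ := rm_flat hQ hR hS
  refine ⟨min α1 α2, max C1 C2, lt_min hα1 hα2, lt_max_of_lt_left hC1, ?_⟩
  intro D η x r R hB hr hrR hε
  have hrR' : (0 : ℝ) < r := by exact_mod_cast (by omega : 0 < r)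
  have hR' : (0 : ℝ) < R := by exact_mod_cast (by omega : 0 < R)
  have hq1 : (r : ℝ) / R ≤ 1 := by
    rw [div_le_one hR']
    exact_mod_cast hrR
  have hq0 : (0 : ℝ) < (r : ℝ) / R := by positivity
  have hb1 : C1 * ((r : ℝ) / R) ^ α1 ≤ max C1 C2 * ((r : ℝ) / R) ^ min α1 α2 :=
    mul_le_mul (le_max_left _ _) (Real.rpow_le_rpow_of_exponent_ge hq0 hq1 (min_le_left _ _))
      (by positivity) (hC1.le.trans (le_max_left _ _))
  have hb2 : C2 * ((r : ℝ) / R) ^ α2 ≤ max C1 C2 * ((r : ℝ) / R) ^ min α1 α2 :=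
    mul_le_mul (le_max_right _ _) (Real.rpow_le_rpow_of_exponent_ge hq0 hq1 (min_le_right _ _))
      (by positivity) (hC1.le.trans (le_max_left _ _))
  have h10 : 0 ≤ C1 * ((r : ℝ) / R) ^ α1 := by positivity
  have h20 : 0 ≤ C2 * ((r : ℝ) / R) ^ α2 := by positivity
  have hmono : ∀ {e e' : ℝ}, e ≤ e' → MxA Q D η x r R (6 * e) → MxA Q D η x r R (6 * e') := by
    intro e e' hee h ξ ξ' h1 h2 h3 h4 F h5 h6
    refine (h ξ ξ' h1 h2 h3 h4 F h5 h6).trans (mul_le_mul_of_nonneg_right (by linarith)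
      (Ex_nonneg hQ0 fun _ _ => h5 _))
  -- the flat side below
  have hflat : ∀ (D : Finset (ℤ × ℤ)) (η : Cfg) (x z : ℤ × ℤ) (pl pr : Bool),
      FlR 0 D η x R z pl pr → MxA Q D η x r R (6 * (C2 * ((r : ℝ) / R) ^ α2)) := by
    intro D η x z pl pr h
    refine MxA.of_rm hQ h20 (hb2.trans hε) (hfl z.2 z.1 pl pr x r R _ η h.pos hr hrR ?_ ?_
      (by linarith)) hrR
    · intro v hv
      rw [Finset.mem_sdiff]
      have h2 : v ∈ D ↔ z.2 ≤ v.2 := h.dom v hv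
      rw [h2]
      constructor
      · rintro ⟨-, h1⟩; omega
      · intro h1; exact ⟨hv, by omega⟩
    · intro v hv hvR
      rw [h.out v hvR (Finset.mem_sdiff.1 hv).2]
      by_cases h1 : v.1 < z.1
      · rw [if_pos h1, if_pos (show lsd 0 z v from h1)]
      · rw [if_neg h1, if_neg (show ¬ lsd 0 z v from h1)]
  rcases hB with ⟨hB, hs⟩ | ⟨hB, hs⟩ | ⟨i, z, pl, pr, hB⟩
  · refine hmono hb1 (MxA.of_rm hQ h10 (hb1.trans hε) (H506.Q.rm_closed hQ hdec hr hrR ?_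
      (shp_conv (hs.mono (by omega) le_rfl)) (by linarith)) hrR)
    intro v hv hvR
    exact hB v hvR (Finset.mem_sdiff.1 hv).2
  · refine hmono hb1 (MxA.of_rm hQ h10 (hb1.trans hε) (H506.Q.rm_open hQ hdec hr hrR ?_
      (shp_conv (hs.mono (by omega) le_rfl)) (by linarith)) hrR)
    intro v hv hvR
    exact hB v hvR (Finset.mem_sdiff.1 hv).2
  · refine hmono hb2 ?_
    have hsw : (fun v : ℤ × ℤ => ((v.2, v.1) : ℤ × ℤ)) ∈ syms := by simp [syms]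
    have hry : (fun v : ℤ × ℤ => ((v.1, -1 - v.2) : ℤ × ℤ)) ∈ syms := by simp [syms]
    -- the image of a flat side
    have h2 : ∀ (D : Finset (ℤ × ℤ)) (η : Cfg) (x z : ℤ × ℤ) (pl pr : Bool),
        FlR 2 D η x R z pl pr → MxA Q D η x r R (6 * (C2 * ((r : ℝ) / R) ^ α2)) := by
      intro D η x z pl pr h
      have hi : ∀ v : ℤ × ℤ, (fun v : ℤ × ℤ => ((v.1, -1 - v.2) : ℤ × ℤ))
          ((fun v : ℤ × ℤ => ((v.1, -1 - v.2) : ℤ × ℤ)) v) = v := fun v => by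
        simp
      refine MxA.sym hQ0 hry hi (x' := (x.1, -x.2)) ?_ (hflat _ _ _ (z.1, -z.2) pl pr ⟨?_, ?_, ?_⟩)
      · intro s v
        rw [mem_bq, mem_bq]
        simp only
        omega
      · have h1 : x.2 ≤ z.2 := h.pos
        show -z.2 ≤ -x.2
        omega
      · intro v hv
        have hv' : ((v.1, -1 - v.2) : ℤ × ℤ) ∈ Bq x R := by
          rw [mem_bq] at hv ⊢
          simp only at hv ⊢
          omega
        have h3 : ((v.1, -1 - v.2) : ℤ × ℤ) ∈ D ↔ -1 - v.2 < z.2 := h.dom _ hv'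
        rw [FlR.im hi]
        show ((v.1, -1 - v.2) : ℤ × ℤ) ∈ D ↔ -z.2 ≤ v.2
        rw [h3]
        omega
      · intro v hv hvD
        have hv' : ((v.1, -1 - v.2) : ℤ × ℤ) ∈ Bq x R := by
          rw [mem_bq] at hv ⊢
          simp only at hv ⊢
          omega
        exact h.out _ hv' fun h' => hvD ((FlR.im hi).2 h')
    have hsi : ∀ v : ℤ × ℤ, (fun v : ℤ × ℤ => ((v.2, v.1) : ℤ × ℤ))
        ((fun v : ℤ × ℤ => ((v.2, v.1) : ℤ × ℤ)) v) = v := fun v => by simp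
    have hsB : ∀ (x : ℤ × ℤ) (s : ℤ) (v : ℤ × ℤ), ((v.2, v.1) : ℤ × ℤ) ∈ Bq (x.2, x.1) s ↔
        v ∈ Bq x s := by
      intro x s v
      rw [mem_bq, mem_bq]
      simp only
      omega
    match i, hB with
    | 0, hB => exact hflat _ _ _ _ _ _ hB
    | 2, hB => exact h2 _ _ _ _ _ _ hB
    | 3, hB =>
      refine MxA.sym hQ0 hsw hsi (x' := (x.2, x.1)) (hsB x) (hflat _ _ _ (z.2, z.1) pl pr
        ⟨?_, ?_, ?_⟩)
      · exact hB.pos
      · intro v hv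
        have hv' : ((v.2, v.1) : ℤ × ℤ) ∈ Bq x R := (hsB x R _).1 hv
        have h3 := hB.dom _ hv'
        rw [FlR.im hsi]
        exact h3
      · intro v hv hvD
        have hv' : ((v.2, v.1) : ℤ × ℤ) ∈ Bq x R := (hsB x R _).1 hv
        exact hB.out _ hv' fun h' => hvD ((FlR.im hsi).2 h')
    | 1, hB =>
      refine MxA.sym hQ0 hsw hsi (x' := (x.2, x.1)) (hsB x) (h2 _ _ _ (z.2, z.1) pl pr
        ⟨?_, ?_, ?_⟩)
      · exact hB.pos
      · intro v hv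
        have hv' : ((v.2, v.1) : ℤ × ℤ) ∈ Bq x R := (hsB x R _).1 hv
        have h3 := hB.dom _ hv'
        rw [FlR.im hsi]
        exact h3
      · intro v hv hvD
        have hv' : ((v.2, v.1) : ℤ × ℤ) ∈ Bq x R := (hsB x R _).1 hv
        exact hB.out _ hv' fun h' => hvD ((FlR.im hsi).2 h')

/-! ### Consequences -/

variable {D D' : Finset (ℤ × ℤ)} {η η' : Cfg} {x : ℤ × ℤ} {r R : ℤ} {ε : ℝ} {F G : Cfg → ℝ}

/-- The conditional expectations of a nonnegative local function are close to the expectation. -/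
theorem MxA.near (hQ : Kit Q) (h : MxA Q D η x r R ε) (hD : Bq x R ∩ D' = Bq x R ∩ D)
    (hη' : Good η') (hηη : ∀ v ∈ Bq x R, v ∉ D → η' v = η v) (hF0 : ∀ ω, 0 ≤ F ω)
    (hF : Loc (Bq x r ∩ D) F) {ξ : Cfg} (hξ : Good ξ) (hξη : ∀ v ∈ Bq x R, v ∉ D → ξ v = η v) :
    Ex Q (Bq x R ∩ D) ξ F ≤ (1 + ε) * Ex Q D' η' F ∧
      Ex Q D' η' F ≤ (1 + ε) * Ex Q (Bq x R ∩ D) ξ F := by
  have hQ0 : 0 < Q := hQ.pos
  have hsub : Bq x R ∩ D ⊆ D' := by
    rw [← hD]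
    exact Finset.inter_subset_right
  have hcf : ∀ S : Finset (ℤ × ℤ), ∀ v ∈ Bq x R, v ∉ D → cf D' η' S v = η v := by
    intro S v hv hvD
    rw [cf_out (fun h' => hvD (Finset.mem_inter.1 (hD ▸ Finset.mem_inter.2 ⟨hv, h'⟩)).2)]
    exact hηη v hv hvD
  rw [f_markov Q _ D' η' F hQ0 hsub hη']
  constructor
  · rw [← Ex_mul_left, ← Ex_const (Q := Q) (D := D') (η := η') hQ0 (Ex Q (Bq x R ∩ D) ξ F)]
    exact Ex_mono hQ0 fun S _ => h ξ _ hξ (f_good.1 _ _ _ hη') hξη (hcf S) F hF0 hF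
  · rw [← Ex_const (Q := Q) (D := D') (η := η') hQ0 ((1 + ε) * Ex Q (Bq x R ∩ D) ξ F)]
    exact Ex_mono hQ0 fun S _ => h _ ξ (f_good.1 _ _ _ hη') hξ (hcf S) hξη F hF0 hF

/-- Two domains with the same trace on the box. -/
theorem MxA.dom (hQ : Kit Q) (hε : 0 ≤ ε) (h : MxA Q D η x r R ε)
    (hD : Bq x R ∩ D' = Bq x R ∩ D) (hη : Good η) (hη' : Good η')
    (hηη : ∀ v ∈ Bq x R, v ∉ D → η' v = η v) (hF0 : ∀ ω, 0 ≤ F ω)
    (hF : Loc (Bq x r ∩ D) F) : |Ex Q D η F - Ex Q D' η' F| ≤ ε * Ex Q D' η' F := by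
  have hQ0 : 0 < Q := hQ.pos
  have hcf : ∀ S : Finset (ℤ × ℤ), ∀ v ∈ Bq x R, v ∉ D → cf D η S v = η v := by
    intro S v _ hvD
    rw [cf_out hvD]
  have key : ∀ S, |Ex Q (Bq x R ∩ D) (cf D η S) F - Ex Q D' η' F| ≤ ε * Ex Q D' η' F := by
    intro S
    obtain ⟨h1, h2⟩ := MxA.near hQ h hD hη' hηη hF0 hF (f_good.1 D η S hη) (hcf S)
    exact close_of h1 h2 hε
  rw [f_markov Q _ D η F hQ0 Finset.inter_subset_right hη,
    ← Ex_const (Q := Q) (D := D) (η := η) hQ0 (Ex Q D' η' F), ← Ex_sub]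
  refine (abs_Ex_le hQ0 _).trans ?_
  rw [Ex_const hQ0, ← Ex_const (Q := Q) (D := D) (η := η) hQ0 (ε * Ex Q D' η' F)]
  exact Ex_mono hQ0 fun S _ => key S

/-- A function off the box times a nonnegative local function, two domains. -/
theorem MxA.mul2 (hQ : Kit Q) (hε : 0 ≤ ε) (h : MxA Q D η x r R ε)
    (hD : Bq x R ∩ D' = Bq x R ∩ D) (hη : Good η) (hη' : Good η')
    (hηη : ∀ v ∈ Bq x R, v ∉ D → η' v = η v) (hF0 : ∀ ω, 0 ≤ F ω)
    (hF : Loc (Bq x r ∩ D) F) (hG : Ind (Bq x R ∩ D) G) :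
    |Ex Q D η (fun ω => G ω * F ω) - Ex Q D η G * Ex Q D' η' F| ≤
      ε * (Ex Q D η (fun ω => |G ω|) * Ex Q D' η' F) := by
  have hQ0 : 0 < Q := hQ.pos
  have hcf : ∀ S : Finset (ℤ × ℤ), ∀ v ∈ Bq x R, v ∉ D → cf D η S v = η v := by
    intro S v _ hvD
    rw [cf_out hvD]
  have key : ∀ S, |Ex Q (Bq x R ∩ D) (cf D η S) F - Ex Q D' η' F| ≤ ε * Ex Q D' η' F := by
    intro S
    obtain ⟨h1, h2⟩ := MxA.near hQ h hD hη' hηη hF0 hF (f_good.1 D η S hη) (hcf S)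
    exact close_of h1 h2 hε
  have e0 : Ex Q D η G * Ex Q D' η' F = Ex Q D η (fun ω => Ex Q D' η' F * G ω) := by
    rw [Ex_mul_left, mul_comm]
  rw [markov f_markov hQ0 (A := Bq x R ∩ D) Finset.inter_subset_right hη hG, e0, ← Ex_sub]
  refine (abs_Ex_le hQ0 _).trans ?_
  have e : ε * (Ex Q D η (fun ω => |G ω|) * Ex Q D' η' F) =
      Ex Q D η (fun ω => (ε * Ex Q D' η' F) * |G ω|) := by
    rw [Ex_mul_left]; ring
  rw [e]
  refine Ex_mono hQ0 fun S _ => ?_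
  have e1 : G (cf D η S) * Ex Q (Bq x R ∩ D) (cf D η S) F - Ex Q D' η' F * G (cf D η S) =
      (Ex Q (Bq x R ∩ D) (cf D η S) F - Ex Q D' η' F) * G (cf D η S) := by ring
  rw [e1, abs_mul]
  exact mul_le_mul_of_nonneg_right (key S) (abs_nonneg _)

/-- **Covariance**, functions of any sign. -/
theorem MxA.cov (hQ : Kit Q) (hε : 0 ≤ ε) (h : MxA Q D η x r R ε) (hη : Good η)
    (hF : Loc (Bq x r ∩ D) F) (hG : Ind (Bq x R ∩ D) G) :
    |Ex Q D η (fun ω => G ω * F ω) - Ex Q D η G * Ex Q D η F| ≤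
      ε * (Ex Q D η (fun ω => |G ω|) * Ex Q D η (fun ω => |F ω|)) := by
  have hp : Loc (Bq x r ∩ D) (fun ω => max (F ω) 0) := fun ω ω' hw => by simp only [hF ω ω' hw]
  have hn : Loc (Bq x r ∩ D) (fun ω => max (-F ω) 0) := fun ω ω' hw => by simp only [hF ω ω' hw]
  have h1 := MxA.mul2 hQ hε h rfl hη hη (fun _ _ _ => rfl) (fun ω => le_max_right (F ω) 0) hp hG
  have h2 := MxA.mul2 hQ hε h rfl hη hη (fun _ _ _ => rfl) (fun ω => le_max_right (-F ω) 0) hn hG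
  have e1 : Ex Q D η (fun ω => G ω * F ω) = Ex Q D η (fun ω => G ω * max (F ω) 0) -
      Ex Q D η (fun ω => G ω * max (-F ω) 0) := by
    rw [← Ex_sub]
    refine Ex_congr fun S _ => ?_
    rcases le_total 0 (F (cf D η S)) with h0 | h0
    · rw [max_eq_left h0, max_eq_right (by linarith)]; ring
    · rw [max_eq_right h0, max_eq_left (by linarith)]; ring
  have e2 : Ex Q D η F = Ex Q D η (fun ω => max (F ω) 0) - Ex Q D η (fun ω => max (-F ω) 0) := by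
    rw [← Ex_sub]
    refine Ex_congr fun S _ => ?_
    rcases le_total 0 (F (cf D η S)) with h0 | h0
    · rw [max_eq_left h0, max_eq_right (by linarith)]; ring
    · rw [max_eq_right h0, max_eq_left (by linarith)]; ring
  have e3 : Ex Q D η (fun ω => |F ω|) = Ex Q D η (fun ω => max (F ω) 0) +
      Ex Q D η (fun ω => max (-F ω) 0) := by
    rw [← Ex_add]
    refine Ex_congr fun S _ => ?_
    rcases le_total 0 (F (cf D η S)) with h0 | h0
    · rw [max_eq_left h0, max_eq_right (by linarith), abs_of_nonneg h0]; ring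
    · rw [max_eq_right h0, max_eq_left (by linarith), abs_of_nonpos h0]; ring
  rw [e1, e2, e3]
  rw [abs_le] at *
  constructor
  · nlinarith [h1.1, h1.2, h2.1, h2.2]
  · nlinarith [h1.1, h1.2, h2.1, h2.2]

end Vale.Agent.P167.N.H167.Q
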