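import Vale.Agent.P167.N.H167.Q.RawA
import Vale.Agent.P167.N.H167.Q.JunMix
import Vale.Agent.P167.N.H506.Q.Arm
import Vale.Agent.P167.H167.Q.Arm

/-!
# P167, `q < 1`, block Q-ARM: pieces which cross an annulus

As in `Vale.Agent.P167.H167.Q.Arm`; the domains are regular in the sense of `N.H167.Q.Reg`.
-/

set_option autoImplicit false

namespace Vale.Agent.P167.N.H167.Q

open Vale.Agent.P167.H167.Q Vale.Agent.P167.H167

open Finset Vale.Agent.P167.FK Vale.Agent.P167.FKA Vale.Agent.P167.BR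

open Vale.Agent.P145.FB (PStep PConn)

open Vale.Agent.P167.H259 (f_markov)

open Vale.Agent.P167.H519 (ind_le_of_imp)

open Vale.Agent.P167.H562.GL (near_of_corx far_of_corx)

open Vale.Agent.P167.H192.Q (SRSW)

open Vale.Agent.P167.H506.Q (mem_bq)

open Relation

variable {Q : ℝ} {D D' : Finset (ℤ × ℤ)} {η : Cfg} {x : ℤ × ℤ} {r R r' R' : ℤ} {ω ω' : Cfg}

/-- Closed squares outside. -/
theorem pa_closed (hQ : Kit Q) {α C : ℝ} (h : ArmS Q α C) (hη : Good η)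
    (hc : ∀ v ∈ Bq x R, v ∉ D → η v = false) (hs : H635.Shp D x 0 R) (hr : 1 ≤ r) (hrR : r ≤ R) :
    Ex Q D η ((PA D x r R).indicator 1) ≤ C * ((r : ℝ) / R) ^ α := by
  have hQ0 : 0 < Q := hQ.pos
  have h1 := H506.Q.arm_cl h (x := x) hr hrR hη (fun v hv hvD => hc v (Finset.mem_sdiff.1 hv).1 hvD)
    ((shp_conv (hs.mono (by omega) le_rfl)).congr fun v hv => by
      rw [Finset.mem_coe, Finset.mem_sdiff]
      exact ⟨fun h => ⟨(Finset.mem_sdiff.1 hv).1, h⟩, fun h => h.2⟩)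
    (G := fun _ => 1) (fun _ => zero_le_one) (fun _ _ _ => rfl)
  rw [Ex_const hQ0, mul_one] at h1
  refine le_trans (Ex_mono hQ0 fun S _ => ?_) h1
  rw [one_mul]
  refine ind_le_of_imp ?_
  rintro ⟨u, v, k1, k2, k3, k4⟩
  show ArmPx x r R _
  rw [armPx_iff hrR]
  exact ⟨u, v, k1, k2, k3, rtg_mono (fun q hq => hq.2) k4⟩

/-- Open squares outside. -/
theorem da_open (hQ : Kit Q) {α C : ℝ} (h : ArmS Q α C) (hη : Good η)
    (hc : ∀ v ∈ Bq x R, v ∉ D → η v = true) (hs : H635.Shp D x 0 R) (hr : 1 ≤ r) (hrR : r ≤ R) :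
    Ex Q D η ((DA D x r R).indicator 1) ≤ C * ((r : ℝ) / R) ^ α := by
  have hQ0 : 0 < Q := hQ.pos
  have h1 := pa_closed hQ h (D := D.image H506.Q.sq) (η := du η) (x := H506.Q.sq x) (f_dual.1 _ hη)
    (fun v hv hvD => by
      have h2 : ((v.1 - 1, v.2) : ℤ × ℤ) ∈ Bq x R := by
        rw [mem_bq] at hv ⊢
        simp only [H506.Q.sq] at hv
        omega
      show (!(η (v.1 - 1, v.2))) = false
      rw [hc _ h2 fun h3 => hvD (Finset.mem_image.2 ⟨_, h3, by simp [H506.Q.sq]⟩)]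
      rfl) (hs.shift fun v => by
      rw [Finset.mem_image]
      constructor
      · rintro ⟨w, hw, rfl⟩
        simpa [H506.Q.sq] using hw
      · exact fun h3 => ⟨_, h3, by simp [H506.Q.sq]⟩) hr hrR
  rw [H519.Ex_du hQ0 D hη]
  refine le_trans (Ex_mono hQ0 fun S _ => ind_le2 ?_) h1
  show H519.dui (cf (D.image H506.Q.sq) (du η) S) ∈ DA D x r R →
    cf (D.image H506.Q.sq) (du η) S ∈ PA (D.image H506.Q.sq) (H506.Q.sq x) r R
  generalize cf (D.image H506.Q.sq) (du η) S = ω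
  rintro ⟨u, v, k1, k2, k3, k4⟩
  have hstep : ∀ a b : ℤ × ℤ, PStep {q | q ∈ D ∧ H519.dui ω q = false} a b →
      PStep {q | q ∈ D.image H506.Q.sq ∧ ω q = true} (H506.Q.sq a) (H506.Q.sq b) := by
    rintro a b ⟨g1, g2, g3, g4⟩
    refine ⟨?_, ?_, ?_, ?_⟩
    · simp only [H506.Q.sq]; omega
    · simp only [H506.Q.sq]; exact g2
    · refine Finset.mem_image.2 ⟨_, g3, ?_⟩
      simp only [H506.Q.sq]
      rw [min_add_add_right]
    · have g5 : (!(ω (min a.1 b.1 + 1, min a.2 b.2))) = false := g4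
      simp only [H506.Q.sq]
      rw [min_add_add_right]
      simpa using g5
  refine ⟨H506.Q.sq u, H506.Q.sq v, ?_, ?_, ?_, ReflTransGen.lift H506.Q.sq hstep _ _ k4⟩
  · rw [Int.even_iff] at k1 ⊢
    simp only [H506.Q.sq]
    omega
  · rw [nm_le_iff] at k2 ⊢
    simp only [H506.Q.sq, Prod.fst_sub, Prod.snd_sub] at k2 ⊢
    omega
  · rw [le_nm_iff] at k3 ⊢
    simp only [H506.Q.sq, Prod.fst_sub, Prod.snd_sub] at k3 ⊢
    omega

/-- A flat side below. -/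
theorem pa_flat0 (hQ : Kit Q) {α C : ℝ}
    (hdec : ∀ (h : ℤ) (x : ℤ × ℤ) (r R : ℤ) (D : Finset (ℤ × ℤ)) (η : Cfg) (G : Cfg → ℝ),
      h ≤ x.2 → 1 ≤ r → r ≤ R → Good η → hann h x r R ⊆ D → (∀ ω, 0 ≤ G ω) →
      Ind (hann h x r R) G →
      Ex Q D η (fun ω => G ω * (RA h x r R).indicator 1 ω) ≤ C * ((r : ℝ) / R) ^ α * Ex Q D η G)
    (hη : Good η) {z : ℤ × ℤ} {pl pr : Bool} (h : FlR 0 D η x R z pl pr) (hr : 1 ≤ r)
    (hrR : r ≤ R) : Ex Q D η ((PA D x r R).indicator 1) ≤ C * ((r : ℝ) / R) ^ α := by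
  have hQ0 : 0 < Q := hQ.pos
  have h1 := hdec z.2 x r R D η (fun _ => 1) h.pos hr hrR hη (fun v hv => by
    rw [mem_hann] at hv
    exact (h.dom v hv.1.1).2 hv.2) (fun _ => zero_le_one) (fun _ _ _ => rfl)
  rw [Ex_const hQ0, mul_one] at h1
  refine le_trans (Ex_mono hQ0 fun S _ => ?_) h1
  rw [one_mul]
  refine ind_le_of_imp ?_
  rintro ⟨u, v, k1, k2, k3, k4⟩
  show ArmPx x r R (mk z.2 _)
  rw [armPx_iff hrR, op_mk]
  obtain ⟨v', k5, hin, hp⟩ := exit k4 (show nm (u - x) ≤ R by omega) k3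
  refine ⟨u, v', k1, k2, k5.ge, ?_⟩
  clear k5 k4 k3
  induction hp with
  | refl => exact ReflTransGen.refl
  | @tail a c hab hac ih =>
    have ha : nm (a - x) ≤ R := by
      rcases ReflTransGen.cases_tail hab with h8 | ⟨d, -, hd⟩
      · rw [h8]; exact hin
      · exact hd.2
    have hm := step_mem hac.1 ha hac.2
    refine ih.tail ⟨hac.1.1, hac.1.2.1, hac.1.2.2.2, ?_⟩
    exact (h.dom _ hm).1 hac.1.2.2.1

/-- A flat side. -/
theorem pa_flat (hQ : Kit Q) {α C : ℝ}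
    (hdec : ∀ (h : ℤ) (x : ℤ × ℤ) (r R : ℤ) (D : Finset (ℤ × ℤ)) (η : Cfg) (G : Cfg → ℝ),
      h ≤ x.2 → 1 ≤ r → r ≤ R → Good η → hann h x r R ⊆ D → (∀ ω, 0 ≤ G ω) →
      Ind (hann h x r R) G →
      Ex Q D η (fun ω => G ω * (RA h x r R).indicator 1 ω) ≤ C * ((r : ℝ) / R) ^ α * Ex Q D η G)
    (hη : Good η) {i : Fin 4} {z : ℤ × ℤ} {pl pr : Bool} (hB : FlR i D η x R z pl pr) (hr : 1 ≤ r)
    (hrR : r ≤ R) : Ex Q D η ((PA D x r R).indicator 1) ≤ C * ((r : ℝ) / R) ^ α := by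
  have hQ0 : 0 < Q := hQ.pos
  have hsw : (fun v : ℤ × ℤ => ((v.2, v.1) : ℤ × ℤ)) ∈ syms := by simp [syms]
  have hry : (fun v : ℤ × ℤ => ((v.1, -1 - v.2) : ℤ × ℤ)) ∈ syms := by simp [syms]
  -- the image of a flat side
  have h2 : ∀ (D : Finset (ℤ × ℤ)) (η : Cfg) (x z : ℤ × ℤ) (pl pr : Bool), Good η →
      FlR 2 D η x R z pl pr →
      Ex Q D η ((PA D x r R).indicator 1) ≤ C * ((r : ℝ) / R) ^ α := by
    intro D η x z pl pr hη h
    have hi : ∀ v : ℤ × ℤ, (fun v : ℤ × ℤ => ((v.1, -1 - v.2) : ℤ × ℤ))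
        ((fun v : ℤ × ℤ => ((v.1, -1 - v.2) : ℤ × ℤ)) v) = v := fun v => by
      simp
    refine pa_of_sym hQ0 (σ := fun u => (u.1, -u.2)) hry hi ?_ ?_ (x' := (x.1, -x.2)) ?_ hη
      (pa_flat0 hQ hdec ((f_sym _ hry).1 _ hη) (z := (z.1, -z.2)) (pl := pl) (pr := pr)
        ⟨?_, ?_, ?_⟩ hr hrR)
    · rintro F a b ⟨g1, g2, g3⟩
      refine ⟨g1, ?_, ?_⟩
      · show -b.2 = -a.2 + 1 ∨ -b.2 = -a.2 - 1
        omega
      · show ((min a.1 b.1, -1 - min (-a.2) (-b.2)) : ℤ × ℤ) ∈ F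
        have e : -1 - min (-a.2) (-b.2) = min a.2 b.2 := by omega
        rw [e]
        exact g3
    · intro u hu
      rw [Int.even_iff] at hu ⊢
      simp only
      omega
    · intro u
      simp only [nm, Prod.fst_sub, Prod.snd_sub]
      rw [show -u.2 - -x.2 = -(u.2 - x.2) by ring, abs_neg]
    · have h1 : x.2 ≤ z.2 := h.pos
      show -z.2 ≤ -x.2
      omega
    · intro v hv
      have hv' : ((v.1, -1 - v.2) : ℤ × ℤ) ∈ Bq x R := by
        rw [mem_bq] at hv ⊢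
        simp only at hv ⊢
        omega
      have h3 : ((v.1, -1 - v.2) : ℤ × ℤ) ∈ D ↔ -1 - v.2 < z.2 := h.dom _ hv'
      rw [FlR.im hi]
      show ((v.1, -1 - v.2) : ℤ × ℤ) ∈ D ↔ -z.2 ≤ v.2
      rw [h3]
      omega
    · intro v hv hvD
      have hv' : ((v.1, -1 - v.2) : ℤ × ℤ) ∈ Bq x R := by
        rw [mem_bq] at hv ⊢
        simp only at hv ⊢
        omega
      exact h.out _ hv' fun h' => hvD ((FlR.im hi).2 h')
  have hsi : ∀ v : ℤ × ℤ, (fun v : ℤ × ℤ => ((v.2, v.1) : ℤ × ℤ))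
      ((fun v : ℤ × ℤ => ((v.2, v.1) : ℤ × ℤ)) v) = v := fun v => by simp
  have hsB : ∀ (x : ℤ × ℤ) (s : ℤ) (v : ℤ × ℤ), ((v.2, v.1) : ℤ × ℤ) ∈ Bq (x.2, x.1) s ↔
      v ∈ Bq x s := by
    intro x s v
    rw [mem_bq, mem_bq]
    simp only
    omega
  have hsw2 : ∀ (B : ℝ), Ex Q (D.image fun v => ((v.2, v.1) : ℤ × ℤ))
      (η ∘ fun v => ((v.2, v.1) : ℤ × ℤ))
      ((PA (D.image fun v => ((v.2, v.1) : ℤ × ℤ)) (x.2, x.1) r R).indicator 1) ≤ B →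
      Ex Q D η ((PA D x r R).indicator 1) ≤ B := by
    intro B hB
    refine pa_of_sym hQ0 (σ := fun u => (u.2, u.1)) hsw hsi ?_ ?_ (x' := (x.2, x.1)) ?_ hη hB
    · rintro F a b ⟨g1, g2, g3⟩
      exact ⟨g2, g1, g3⟩
    · intro u hu
      rw [Int.even_iff] at hu ⊢
      simp only
      omega
    · intro u
      simp only [nm, Prod.fst_sub, Prod.snd_sub]
      rw [max_comm]
  match i, hB with
  | 0, hB => exact pa_flat0 hQ hdec hη hB hr hrR
  | 2, hB => exact h2 _ _ _ _ _ _ hη hB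
  | 3, hB =>
    refine hsw2 _ (pa_flat0 hQ hdec ((f_sym _ hsw).1 _ hη) (z := (z.2, z.1)) (pl := pl)
      (pr := pr) ⟨?_, ?_, ?_⟩ hr hrR)
    · exact hB.pos
    · intro v hv
      have hv' : ((v.2, v.1) : ℤ × ℤ) ∈ Bq x R := (hsB x R _).1 hv
      have h3 := hB.dom _ hv'
      rw [FlR.im hsi]
      exact h3
    · intro v hv hvD
      have hv' : ((v.2, v.1) : ℤ × ℤ) ∈ Bq x R := (hsB x R _).1 hv
      exact hB.out _ hv' fun h' => hvD ((FlR.im hsi).2 h')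
  | 1, hB =>
    refine hsw2 _ (h2 _ _ _ (z.2, z.1) pl pr ((f_sym _ hsw).1 _ hη) ⟨?_, ?_, ?_⟩)
    · exact hB.pos
    · intro v hv
      have hv' : ((v.2, v.1) : ℤ × ℤ) ∈ Bq x R := (hsB x R _).1 hv
      have h3 := hB.dom _ hv'
      rw [FlR.im hsi]
      exact h3
    · intro v hv hvD
      have hv' : ((v.2, v.1) : ℤ × ℤ) ∈ Bq x R := (hsB x R _).1 hv
      exact hB.out _ hv' fun h' => hvD ((FlR.im hsi).2 h')

/-- **Pieces which cross an annulus**, in regular domains. -/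
theorem arm_all (hQ : Kit Q) (hR : RSW Q) (hS : SRSW Q) : ∃ C α : ℝ, 0 < C ∧ 0 < α ∧ α ≤ 1 ∧
    ∀ (m : ℤ) (D : Finset (ℤ × ℤ)) (η : Cfg), Reg m D η → ∀ x ∈ sites D, ∀ r R : ℤ, 1 ≤ r →
      1 ≤ R → R ≤ m → Ex Q D η ((AE D x r R).indicator 1) ≤ C * ((r : ℝ) / R) ^ α := by
  have hQ0 : 0 < Q := hQ.pos
  obtain ⟨α1, C1, hα1, hC1, hd1, -⟩ := hQ.armS
  obtain ⟨α2, C2, hα2, hC2, hd2⟩ := ra_dec hQ hR hS
  set α : ℝ := min (min α1 α2) 1 with hα
  have hα0 : 0 < α := lt_min (lt_min hα1 hα2) one_pos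
  have hαle : α ≤ 1 := min_le_right _ _
  refine ⟨8 * max C1 C2 + 8, α, by positivity, hα0, hαle, fun m D η hreg x hx r R hr hR1 hRm => ?_⟩
  have hle1 : Ex Q D η ((AE D x r R).indicator 1) ≤ 1 := by
    rw [← Ex_const (Q := Q) (D := D) (η := η) hQ0 1]
    refine Ex_mono hQ0 fun S _ => ?_
    unfold Set.indicator
    split_ifs <;> simp
  have hrR0 : (1 : ℝ) ≤ r := by exact_mod_cast hr
  have hRR0 : (1 : ℝ) ≤ R := by exact_mod_cast hR1
  have hmax : 0 < max C1 C2 := lt_max_of_lt_left hC1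
  by_cases hle : r + 1 ≤ R - 1
  · have hq0 : (0 : ℝ) < ((r + 1 : ℤ) : ℝ) / ((R - 1 : ℤ) : ℝ) := by
      have h1 : (0 : ℝ) < ((r + 1 : ℤ) : ℝ) := by exact_mod_cast (by omega : 0 < r + 1)
      have h2 : (0 : ℝ) < ((R - 1 : ℤ) : ℝ) := by exact_mod_cast (by omega : 0 < R - 1)
      positivity
    have hq1 : ((r + 1 : ℤ) : ℝ) / ((R - 1 : ℤ) : ℝ) ≤ 1 := by
      rw [div_le_one (by exact_mod_cast (by omega : 0 < R - 1))]
      exact_mod_cast hle
    have key : Ex Q D η ((AE D x r R).indicator 1) ≤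
        max C1 C2 * (((r + 1 : ℤ) : ℝ) / ((R - 1 : ℤ) : ℝ)) ^ α := by
      have e1 : C1 * (((r + 1 : ℤ) : ℝ) / ((R - 1 : ℤ) : ℝ)) ^ α1 ≤
          max C1 C2 * (((r + 1 : ℤ) : ℝ) / ((R - 1 : ℤ) : ℝ)) ^ α :=
        mul_le_mul (le_max_left _ _) (Real.rpow_le_rpow_of_exponent_ge hq0 hq1
          ((min_le_left _ _).trans (min_le_left _ _))) (by positivity) hmax.le
      have e2 : C2 * (((r + 1 : ℤ) : ℝ) / ((R - 1 : ℤ) : ℝ)) ^ α2 ≤
          max C1 C2 * (((r + 1 : ℤ) : ℝ) / ((R - 1 : ℤ) : ℝ)) ^ α :=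
        mul_le_mul (le_max_right _ _) (Real.rpow_le_rpow_of_exponent_ge hq0 hq1
          ((min_le_left _ _).trans (min_le_right _ _))) (by positivity) hmax.le
      have i1 : Ex Q D η ((AE D x r R).indicator 1) ≤
          Ex Q D η ((PA D x (r + 1) (R - 1)).indicator 1) :=
        Ex_mono hQ0 fun S _ => ind_le_of_imp fun h => pa_mono oD_sub le_rfl le_rfl h.1
      have i2 : Ex Q D η ((AE D x r R).indicator 1) ≤
          Ex Q D η ((DA D x (r + 1) (R - 1)).indicator 1) :=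
        Ex_mono hQ0 fun S _ => ind_le_of_imp fun h => da_mono oD_sub le_rfl le_rfl h.2
      rcases hreg.bd x hx (R - 1) (by omega) (by omega) with ⟨h, hs⟩ | ⟨h, hs⟩ | ⟨i, z, pl, pr, h⟩
      · exact (i1.trans (pa_closed hQ hd1 hreg.good h hs (by omega) hle)).trans e1
      · exact (i2.trans (da_open hQ hd1 hreg.good h hs (by omega) hle)).trans e1
      · exact (i1.trans (pa_flat hQ hd2 hreg.good h (by omega) hle)).trans e2
    refine key.trans ?_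
    have h3 : ((r + 1 : ℤ) : ℝ) / ((R - 1 : ℤ) : ℝ) ≤ 8 * ((r : ℝ) / R) := by
      have hR3 : (3 : ℝ) ≤ R := by exact_mod_cast (by omega : 3 ≤ R)
      push_cast
      rw [div_le_iff₀ (by linarith)]
      have e : 8 * ((r : ℝ) / R) * (R - 1) = 8 * r * ((R - 1) / R) := by ring
      rw [e]
      have h7 : (1 : ℝ) / 2 ≤ (R - 1) / R := by
        rw [div_le_div_iff₀ (by norm_num) (by linarith)]; linarith
      nlinarith
    have h4 : (((r + 1 : ℤ) : ℝ) / ((R - 1 : ℤ) : ℝ)) ^ α ≤ 8 * ((r : ℝ) / R) ^ α := by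
      calc (((r + 1 : ℤ) : ℝ) / ((R - 1 : ℤ) : ℝ)) ^ α ≤ (8 * ((r : ℝ) / R)) ^ α :=
            Real.rpow_le_rpow hq0.le h3 hα0.le
        _ = 8 ^ α * ((r : ℝ) / R) ^ α := Real.mul_rpow (by norm_num) (by positivity)
        _ ≤ 8 * ((r : ℝ) / R) ^ α := by
            refine mul_le_mul_of_nonneg_right ?_ (by positivity)
            calc (8 : ℝ) ^ α ≤ 8 ^ (1 : ℝ) :=
                  Real.rpow_le_rpow_of_exponent_le (by norm_num) hαle
              _ = 8 := Real.rpow_one 8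
    have h5 : (0 : ℝ) ≤ ((r : ℝ) / R) ^ α := by positivity
    nlinarith
  · have h1 : (R : ℝ) ≤ 3 * r := by exact_mod_cast (by omega : R ≤ 3 * r)
    have h2 : (1 : ℝ) / 3 ≤ (r : ℝ) / R := by
      rw [div_le_div_iff₀ (by norm_num) (by linarith)]; linarith
    have h3 : (1 : ℝ) / 3 ≤ ((r : ℝ) / R) ^ α := by
      calc (1 : ℝ) / 3 = (1 / 3) ^ (1 : ℝ) := (Real.rpow_one _).symm
        _ ≤ (1 / 3 : ℝ) ^ α :=
            Real.rpow_le_rpow_of_exponent_ge (by norm_num) (by norm_num) hαle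
        _ ≤ _ := Real.rpow_le_rpow (by norm_num) h2 hα0.le
    nlinarith

end Vale.Agent.P167.N.H167.Q
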