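import Vale.Agent.P167.N.Kit
import Vale.Agent.P167.N.H167.Q.Cnt
import Vale.Agent.P167.N.H167.Q.JunMix
import Vale.Agent.P167.H167.Q.Sms

/-! generated from Vale.Agent.P167.H167.Q.Sms (q < 1 port) -/

set_option autoImplicit false

namespace Vale.Agent.P167.N.H167.Q

open Vale.Agent.P167.H167.Q Vale.Agent.P167.H167

open Finset MeasureTheory Vale.Agent.P167.FK Vale.Agent.P167.BR

open Vale.Agent.P167.FKA hiding gp

open Vale.Agent.P167.H166 (bxx mem_bxx)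

open Vale.Agent.P167.H562 (Em Em_eq Em_mono LocFun)

open Vale.Agent.P167.H562.GL

open Vale.Agent.P167.H562.QM (exists_law multiU half_sq sum_center)

open Vale.Agent.P167.H562.SML (exists_J)

open Vale.Agent.P167.H192.Q (SRSW)

open Vale.Agent.P167.H45 (zz gp grid_fin cl box_of_small)

open Vale.Agent.P167.H506.Q (mem_bq)

variable {Q : ℝ} {D : Finset (ℤ × ℤ)} {η : Cfg} {N ν : Measure Cfg} {U : Finset (ℤ × ℤ)}

/-- Bias of a local variable. -/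
theorem bias_q (hQ : Kit Q) (hη : Good η) (hN : ∀ F : Cfg → ℝ, ∫ ω, F ω ∂N = Ex Q D η F)
    (hν : Nu N ν U) {X K : Cfg → ℝ} {x : ℤ × ℤ} {r R : ℤ} {ε a M : ℝ} (hε : 0 ≤ ε)
    (hmx : ε ≤ 3 → MxA Q D η x r R ε) (hU : Bq x R ∩ D ⊆ U) (hX : Loc (Bq x r ∩ D) X)
    (ha : 0 ≤ a) (hXK : ∀ ω, |X ω| ≤ a * K ω) {B : Finset (ℤ × ℤ)} (hK : Loc B K)
    (h1 : ∫ ω, K ω ∂ν ≤ M) (h2 : ∫ ω, K ω ∂N ≤ M) (hM : 0 ≤ M) :
    |∫ ω, X ω ∂ν - ∫ ω, X ω ∂N| ≤ ε * (a * M) := by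
  have hQ_pos := hQ.pos
  have hQ0 : 0 < Q := by linarith
  have hνp := hν.prob
  have hXN : Ex Q D η (fun ω => |X ω|) ≤ a * M := by
    calc Ex Q D η (fun ω => |X ω|) ≤ Ex Q D η (fun ω => a * K ω) :=
          Ex_mono hQ0 fun S _ => hXK _
      _ = a * Ex Q D η K := Ex_mul_left _ _
      _ ≤ a * M := mul_le_mul_of_nonneg_left (by rw [← hN]; exact h2) ha
  by_cases h3 : ε ≤ 3
  · obtain ⟨G, B', h0, hL, hI, hpos, hG⟩ := hν.ex
    have h4 := (Vale.Agent.P167.N.H167.Q.MxA.cov (h := (hmx h3))) hQ hε hη hX (Ind.mono hU hI)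
    rw [hG _ _ hX, hN, hN, hN]
    rw [hN] at hpos
    have e : Ex Q D η (fun ω => G ω * X ω) / Ex Q D η G - Ex Q D η X =
        (Ex Q D η (fun ω => G ω * X ω) - Ex Q D η G * Ex Q D η X) / Ex Q D η G := by
      field_simp
    rw [e, abs_div, abs_of_pos hpos, div_le_iff₀ hpos]
    refine h4.trans ?_
    have e2 : Ex Q D η (fun ω => |G ω|) = Ex Q D η G := Ex_congr fun S _ => abs_of_nonneg (h0 _)
    rw [e2]
    have h5 := mul_le_mul_of_nonneg_left hXN (mul_nonneg hε hpos.le)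
    linarith
  · push Not at h3
    have h4 : |∫ ω, X ω ∂ν| ≤ a * M := by
      refine (abs_integral_le_integral_abs).trans ?_
      calc ∫ ω, |X ω| ∂ν ≤ ∫ ω, a * K ω ∂ν :=
            integral_mono (loc_integrable hX).abs ((loc_integrable hK).const_mul a) hXK
        _ = a * ∫ ω, K ω ∂ν := integral_const_mul _ _
        _ ≤ a * M := mul_le_mul_of_nonneg_left h1 ha
    have h5 : |∫ ω, X ω ∂N| ≤ a * M := by
      rw [hN]
      exact (abs_Ex_le hQ0 _).trans hXN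
    have h6 : 0 ≤ a * M := mul_nonneg ha hM
    calc |∫ ω, X ω ∂ν - ∫ ω, X ω ∂N| ≤ |∫ ω, X ω ∂ν| + |∫ ω, X ω ∂N| := abs_sub _ _
      _ ≤ a * M + a * M := add_le_add h4 h5
      _ ≤ ε * (a * M) := by nlinarith

/-- **Linear statistics of the small pieces, up to the boundary.** -/
theorem sms (hQ : Kit Q) (hR : RSW Q) (hS : SRSW Q) : ∃ B : ℝ, 0 ≤ B ∧
    ∀ (m : ℤ) (D : Finset (ℤ × ℤ)) (η : Cfg), Reg m D η →
    ∀ (x : ℤ × ℤ) (R : ℤ) (ρ : ℝ) (φ : Finset Ed → ℝ) (a t : ℝ), 1 ≤ ρ → 8 * ρ ≤ m → 0 ≤ R →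
    (R : ℝ) ≤ ρ → 0 < a →
    (∀ (j : ℕ) (ω : Cfg), 1 ≤ ρ / 2 ^ j → ∀ A ∈ pcs ω D, Small (ρ / 2 ^ j) A →
      |φ A| ≤ a * (1 / 4) ^ j) → |t| * a ≤ 1 →
    Ex Q D η (fun ω => Real.exp (t * (∑ A ∈ sm D x R ρ ω, φ A -
      Ex Q D η (fun ω' => ∑ A ∈ sm D x R ρ ω', φ A)))) ≤ Real.exp B := by
  have hQ_pos := hQ.pos
  classical
  have hQ0 : 0 < Q := by linarith
  obtain ⟨α, C0, hα, hC0, hmx⟩ := mx_all hQ hR hS
  set s1 : ℝ := 576 with hs1
  obtain ⟨M0, hM0, hbg⟩ := ex_bg hQ hR 6 (s := s1 + 1) (by rw [hs1]; norm_num)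
  set M : ℝ := Real.log M0 with hM
  have hM00 : 0 < M0 := by linarith
  have hMn : 0 ≤ M := Real.log_nonneg hM0
  have heM : Real.exp M = M0 := Real.exp_log hM00
  set x0 : ℝ := (1 / 2) ^ α with hx
  have hx0 : 0 < x0 := by positivity
  have hx1 : x0 < 1 := Real.rpow_lt_one (by norm_num) (by norm_num) hα
  set Gc : ℝ := 2 * Real.exp M * Real.exp ((s1 + 1) * Real.exp M) with hGc
  have hGc0 : 0 ≤ Gc := by positivity
  have hx2 : 0 ≤ 2 / (1 - x0) := div_nonneg (by norm_num) (by linarith)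
  refine ⟨64 * (((9 : ℕ) : ℝ) * (96 * C0 * M0) * (2 / (1 - x0)) +
    12 * Gc * ((9 : ℕ) : ℝ) ^ 2 * 16 ^ 2), by positivity,
    fun m D η hreg x R ρ φ a t hρ hρm hR0 hRρ ha hφ ht => ?_⟩
  obtain ⟨N, hNp, hN⟩ := exists_lawE hQ0 D η
  have hη := hreg.good
  have hρ0 : 0 < ρ := by linarith
  obtain ⟨W, hW⟩ := grid_sup x hR0 hRρ
  obtain ⟨J, hJ, hJ'⟩ := exists_J one_pos hρ
  simp only [one_mul] at hJ hJ'
  set Lj : ℕ → ℤ := fun j => ⌈ρ / 2 ^ j⌉ with hLj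
  have hL1 : ∀ j < J, 1 ≤ Lj j := fun j hj => Int.one_le_ceil_iff.2 (by linarith [hJ' j hj])
  have hL2 : ∀ j < J, (Lj j : ℝ) ≤ 2 * (ρ / 2 ^ j) := fun j hj => by
    have h1 := hJ' j hj
    have h2 := Int.ceil_lt_add_one (ρ / 2 ^ j)
    show ((⌈ρ / 2 ^ j⌉ : ℤ) : ℝ) ≤ _
    linarith
  set K : ℕ → ℤ × ℤ → Cfg → ℝ := fun j z ω =>
    ((Bg D (gp (Lj j) z) (2 * Lj j) (max (ρ / 2 ^ (j + 1)) 1) ω).card : ℝ) with hK
  have hKl : ∀ j z, Loc D (K j z) := fun j z => card_loc _ _ _ _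
  have hXl : ∀ j < J, ∀ w ∈ W j, ∀ z ∈ sS j w,
      Loc (Bq (gp (Lj j) z) (2 * Lj j)) (YY D x R ρ φ j z) := by
    intro j hj w _ z _
    refine YY_locD D x R ρ φ j z fun v hv _ => ?_
    obtain ⟨h1, h2, h3, h4⟩ := hv
    have := hL1 j hj
    rw [mem_bq]
    simp only [hLj, gp] at this ⊢
    refine ⟨⟨?_, ?_⟩, ?_, ?_⟩ <;> linarith
  have hXK : ∀ j < J, ∀ w ∈ W j, ∀ z ∈ sS j w, ∀ ω, |YY D x R ρ φ j z ω| ≤
      a * (1 / 4) ^ j * K j z ω := fun j hj w _ z _ ω =>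
    YY_le (by positivity) (hφ j ω (hJ' j hj)) z
  have hMK : ∀ j < J, ∀ w ∈ W j, ∀ z ∈ sS j w, ∀ ν, Nu N ν (sU (Lj j) j w) →
      Em ν (fun ω => (s1 + 1) * K j z ω) ≤ ENNReal.ofReal M0 ∧ ∫ ω, K j z ω ∂ν ≤ M0 := by
    intro j hj w _ z hz ν hν
    have h1 := hL1 j hj
    have h2 := hL2 j hj
    have h3 : ρ / 2 ^ (j + 1) = ρ / 2 ^ j / 2 := by rw [pow_succ]; field_simp
    have h4 := hJ' j hj
    have h5 : ρ / 2 ^ j ≤ ρ := div_le_self hρ0.le (one_le_pow₀ (by norm_num))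
    have h6 := le_max_left (ρ / 2 ^ (j + 1)) (1 : ℝ)
    have h7 := le_max_right (ρ / 2 ^ (j + 1)) (1 : ℝ)
    have h8 : ((2 * Lj j : ℤ) : ℝ) = 2 * (Lj j : ℝ) := by push_cast; ring
    have h8' : (Lj j : ℝ) < ρ / 2 ^ j + 1 := Int.ceil_lt_add_one _
    have h9 : max (ρ / 2 ^ (j + 1)) (1 : ℝ) ≤ ρ := max_le (by rw [h3]; linarith) hρ
    have h10 : max (ρ / 2 ^ (j + 1)) (1 : ℝ) ≤ 2 * (Lj j : ℝ) := by
      have h11 : (1 : ℝ) ≤ Lj j := by exact_mod_cast h1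
      have h12 : ρ / 2 ^ j ≤ Lj j := Int.le_ceil _
      refine max_le (by rw [h3]; linarith) (by linarith)
    refine em_nu hN hν (hKl j z) (fun ω => by positivity) (by rw [hs1]; norm_num)
      fun G hG0 hGI => ?_
    refine hbg m D η hreg.old (gp (Lj j) z) (2 * Lj j) (max (ρ / 2 ^ (j + 1)) 1) h7 (by omega)
      (by rw [h8]; push_cast; rw [h3] at h6 h7 ⊢; linarith) (by push_cast; linarith) G hG0 ?_
    intro ω ω' hw
    refine hGI ω ω' fun v hv => hw v fun hv' => hv ?_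
    have h11 : nm (v - gp (Lj j) z) ≤ 4 * Lj j := by
      have : (nm (v - gp (Lj j) z) : ℝ) ≤ ((4 * Lj j : ℤ) : ℝ) := by
        rw [h8] at hv'
        push_cast
        linarith [hv'.2]
      exact_mod_cast this
    have hNj := sN_pos j
    rw [H45.nm_le] at h11
    simp only [gp, Prod.fst_sub, Prod.snd_sub, abs_le] at h11
    have h12 : 4 * Lj j ≤ sN j * Lj j := mul_le_mul_of_nonneg_right hNj (by omega)
    refine sub_sU h1 hz ⟨?_, ?_, ?_, ?_⟩ <;>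
      linarith [h11.1.1, h11.1.2, h11.2.1, h11.2.2]
  set b : ℕ → ℝ := fun j => (6 * C0 * x0 ^ (j / 2)) * (a * (1 / 4) ^ j * M0) with hb
  have hbias : ∀ j < J, ∀ w ∈ W j, ∀ z ∈ sS j w, ∀ ν, Nu N ν (sU (Lj j) j w) →
      |∫ ω, YY D x R ρ φ j z ω ∂ν - ∫ ω, YY D x R ρ φ j z ω ∂N| ≤ b j := by
    intro j hj w hw z hz ν hν
    have hνp := hν.prob
    have h1 := hL1 j hj
    have h2 := hL2 j hj
    have hNj := sN_pos j
    by_cases hc : ∃ v ∈ H45.Bq ⌈ρ / 2 ^ j⌉ z, v ∈ D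
    · obtain ⟨x', hx', hxD⟩ := hc
      have hxs : x' ∈ sites D := by
        rw [mem_sites]
        exact ⟨x', hxD, Or.inl rfl, Or.inl rfl⟩
      obtain ⟨c1, c2, c3, c4⟩ := hx'
      -- the radii
      have hsN : (sN j : ℝ) = 4 * 2 ^ (j / 2) := by unfold sN; push_cast; rfl
      have hD1 : (1 : ℝ) ≤ 2 ^ (j / 2) := one_le_pow₀ (by norm_num)
      have hD2 : (2 : ℝ) ^ (j / 2) ≤ 2 ^ j := pow_le_pow_right₀ (by norm_num) (Nat.div_le_self _ _)
      have hLR : (1 : ℝ) ≤ Lj j := by exact_mod_cast h1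
      have hr : 1 ≤ 2 * Lj j := by omega
      have hrR : 2 * Lj j ≤ (sN j - 2) * Lj j := mul_le_mul_of_nonneg_right (by omega) (by omega)
      have hRm : (sN j - 2) * Lj j ≤ m := by
        have h3 : (((sN j - 2) * Lj j : ℤ) : ℝ) ≤ m := by
          push_cast
          rw [hsN]
          have h4 : (2 : ℝ) ^ (j / 2) * (ρ / 2 ^ j) ≤ ρ := by
            rw [mul_div_assoc', div_le_iff₀ (by positivity), mul_comm ρ]
            exact mul_le_mul_of_nonneg_right hD2 hρ0.le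
          have h5 : (4 * (2 : ℝ) ^ (j / 2) - 2) * (Lj j : ℝ) ≤
              4 * (2 : ℝ) ^ (j / 2) * (2 * (ρ / 2 ^ j)) := by
            refine mul_le_mul (by linarith) h2 (by linarith) (by positivity)
          nlinarith
        exact_mod_cast h3
      set q : ℝ := ((2 * Lj j : ℤ) : ℝ) / (((sN j - 2) * Lj j : ℤ) : ℝ) with hq
      have hq0 : 0 ≤ q := by
        have : (0 : ℝ) ≤ ((2 * Lj j : ℤ) : ℝ) := by exact_mod_cast (by omega : 0 ≤ 2 * Lj j)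
        have : (0 : ℝ) ≤ (((sN j - 2) * Lj j : ℤ) : ℝ) := by
          exact_mod_cast (by omega : 0 ≤ (sN j - 2) * Lj j)
        positivity
      have hqle : q ≤ (1 / 2) ^ (j / 2) := by
        rw [hq]
        push_cast
        rw [hsN]
        have e1 : 2 * (Lj j : ℝ) / ((4 * 2 ^ (j / 2) - 2) * (Lj j : ℝ)) =
            1 / (2 * 2 ^ (j / 2) - 1) := by
          have h3 : (2 * 2 ^ (j / 2) - 1 : ℝ) ≠ 0 := by linarith
          have h4 : (4 * 2 ^ (j / 2) - 2 : ℝ) ≠ 0 := by linarith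
          have h5 : (Lj j : ℝ) ≠ 0 := by linarith
          field_simp
          ring
        rw [e1, one_div_pow]
        exact one_div_le_one_div_of_le (by positivity) (by linarith)
      have hqα : C0 * q ^ α ≤ C0 * x0 ^ (j / 2) := by
        refine mul_le_mul_of_nonneg_left ?_ hC0.le
        calc q ^ α ≤ ((1 / 2) ^ (j / 2)) ^ α := Real.rpow_le_rpow hq0 hqle hα.le
          _ = x0 ^ (j / 2) := by
              rw [hx, ← Real.rpow_natCast, ← Real.rpow_natCast, ← Real.rpow_mul (by norm_num),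
                ← Real.rpow_mul (by norm_num), mul_comm]
      have hmain : |∫ ω, YY D x R ρ φ j z ω ∂ν - ∫ ω, YY D x R ρ φ j z ω ∂N| ≤
          (6 * (C0 * q ^ α)) * (a * (1 / 4) ^ j * M0) := by
        refine bias_q (x := x') (r := 2 * Lj j) (R := (sN j - 2) * Lj j) hQ hη hN hν
          (by positivity) (fun h3 => ?_) ?_ ?_ (by positivity) (hXK j hj w hw z hz) (hKl j z)
          (hMK j hj w hw z hz ν hν).2 (hMK j hj w hw z hz N (nu_self _)).2 hM00.le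
        · exact hmx D η x' _ _ (hreg.bd x' hxs _ (by omega) hRm) hr hrR (by linarith)
        · intro v hv
          have hv1 := (Finset.mem_inter.1 hv).1
          rw [mem_bq] at hv1
          simp only [hLj] at hv1 h1 ⊢
          refine sub_sU h1 hz ?_
          have e2 : (sN j - 2) * ⌈ρ / 2 ^ j⌉ = sN j * ⌈ρ / 2 ^ j⌉ - 2 * ⌈ρ / 2 ^ j⌉ := by ring
          rw [e2] at hv1
          refine ⟨?_, ?_, ?_, ?_⟩ <;> linarith [hv1.1.1, hv1.1.2, hv1.2.1, hv1.2.2]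
        · refine YY_locD D x R ρ φ j z fun v hv hvD => Finset.mem_inter.2 ⟨?_, hvD⟩
          obtain ⟨d1, d2, d3, d4⟩ := hv
          rw [mem_bq]
          simp only [hLj] at h1 ⊢
          refine ⟨⟨?_, ?_⟩, ?_, ?_⟩ <;> linarith
      refine hmain.trans ?_
      simp only [hb]
      refine mul_le_mul_of_nonneg_right ?_ (by positivity)
      linarith
    · push Not at hc
      have h3 : Loc ∅ (YY D x R ρ φ j z) :=
        YY_locD D x R ρ φ j z fun v hv hvD => absurd hvD (hc v hv)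
      have h4 : ∀ ω, YY D x R ρ φ j z ω = YY D x R ρ φ j z η := fun ω =>
        h3 _ _ fun v hv => absurd hv (Finset.notMem_empty v)
      simp only [h4, integral_const, probReal_univ, sub_self, abs_zero]
      simp only [hb]
      positivity
  have hna : ∀ j < J, (sn j : ℝ) * (a * (1 / 4) ^ j) ≤ 16 * a * (1 / 2) ^ j := by
    intro j _
    have h1 := four_half j
    have e1 : ((1 : ℝ) / 4) ^ j = (1 / 2) ^ j * (1 / 2) ^ j := by rw [← mul_pow]; norm_num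
    have e2 : (2 : ℝ) ^ j * (1 / 2) ^ j = 1 := by rw [← mul_pow]; norm_num
    unfold sn
    push_cast
    rw [e1]
    have h2 : (0 : ℝ) < (1 / 2) ^ j := by positivity
    have h3 : (4 : ℝ) ^ (j / 2) * (1 / 2) ^ j ≤ 1 :=
      (mul_le_mul_of_nonneg_right h1 h2.le).trans e2.le
    calc 16 * (4 : ℝ) ^ (j / 2) * (a * ((1 / 2) ^ j * (1 / 2) ^ j))
        = 16 * a * (1 / 2) ^ j * ((4 : ℝ) ^ (j / 2) * (1 / 2) ^ j) := by ring
      _ ≤ 16 * a * (1 / 2) ^ j * 1 := mul_le_mul_of_nonneg_left h3 (by positivity)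
      _ = _ := by ring
  have hmain := multiU (P := N) (N := N) J 9 (by norm_num) W code3 sS
    (X := fun j z ω => YY D x R ρ φ j z ω) (K := K)
    (A := fun j z => Bq (gp (Lj j) z) (2 * Lj j)) (U := fun j w => sU (Lj j) j w)
    hXl (fun j _ w _ z _ => Loc.meas (hKl j z)) (fun j _ w _ z _ ω => by
      simp only [hK]
      positivity)
    (fun j hj w _ w' _ hne hcol z hz => by
      refine Finset.disjoint_of_subset_left ?_ (sU_disj (hL1 j hj) hne hcol)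
      refine Finset.Subset.trans ?_ (Bq_sub_sU (hL1 j hj) hz)
      have hNj := sN_pos j
      have hLpos := hL1 j hj
      have h1 : 2 * Lj j ≤ sN j * Lj j := by nlinarith
      intro v hv
      simp only [Bq, Finset.mem_product, Finset.mem_Ico] at hv ⊢
      refine ⟨⟨?_, ?_⟩, ?_, ?_⟩ <;> linarith [hv.1.1, hv.1.2, hv.2.1, hv.2.2])
    (s := s1) (M := M) (A0 := 16 * a) (B0 := a * (96 * C0 * M0)) (β := 64) (Γ := 2 / (1 - x0))
    (t := t) (a := fun j => a * (1 / 4) ^ j) (b := b) (g := fun j => x0 ^ (j / 2)) (n := sn)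
    (by rw [hs1]; norm_num) hMn (fun j => by unfold sn; positivity) (fun j _ w _ => (sS_card j w).le)
    (fun j => by simp only [hb]; positivity) (fun j => by positivity) (by positivity)
    (by positivity) (by norm_num) (fun j => by positivity) hXK
    (fun j hj w hw z hz ν hν => by rw [heM]; exact (hMK j hj w hw z hz ν hν).1)
    (fun j hj w hw z hz ν hν => hbias j hj w hw z hz ν hν) hna
    (fun j hj => by
      have h1 := hna j hj
      simp only [hb]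
      have h2 : 0 ≤ 6 * C0 * x0 ^ (j / 2) * M0 := by positivity
      have h3 := mul_le_mul_of_nonneg_right h1 h2
      linarith)
    (fun j hj => (hW j (hJ' j hj)).1) (geom_two hx0.le hx1 J)
    (by
      rw [hs1]
      calc 4 * ((9 : ℕ) : ℝ) * (16 * a) * |t| = 576 * (|t| * a) := by push_cast; ring
        _ ≤ 576 * 1 := mul_le_mul_of_nonneg_left ht (by norm_num)
        _ = _ := by ring)
  have hdec : ∀ ω, ∑ A ∈ sm D x R ρ ω, φ A = ∑ j ∈ Finset.range J, ∑ w ∈ W j,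
      ∑ z ∈ sS j w, YY D x R ρ φ j z ω := by
    intro ω
    rw [H167.decomp hJ hJ' (Ig := fun j => (W j).biUnion (sS j)) (fun j hj A z hA => by
      obtain ⟨w, hw, hz⟩ := (hW j hj).2 A z hA
      exact Finset.mem_biUnion.2 ⟨w, hw, hz⟩) φ ω]
    refine Finset.sum_congr rfl fun j _ => ?_
    rw [Finset.sum_biUnion]
    intro w _ w' _ hne
    exact sS_disj hne
  have heq : (fun ω => t * (∑ A ∈ sm D x R ρ ω, φ A - ∫ ω', ∑ A ∈ sm D x R ρ ω', φ A ∂N)) =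
      fun ω => t * ∑ j ∈ Finset.range J, ∑ w ∈ W j, ∑ z ∈ sS j w,
        (YY D x R ρ φ j z ω - ∫ x_1, YY D x R ρ φ j z x_1 ∂N) :=
    funext fun ω => congrArg (t * ·) (sum_center (fun j hj w hw z hz =>
      loc_integrable (hXl j hj w hw z hz)) hdec ω)
  rw [← heq] at hmain
  have hL : Loc D (fun ω => Real.exp (t * (∑ A ∈ sm D x R ρ ω, φ A -
      ∫ ω', ∑ A ∈ sm D x R ρ ω', φ A ∂N))) := by
    intro ω ω' hw
    show Real.exp (t * (∑ A ∈ sm D x R ρ ω, φ A - ∫ ω', ∑ A ∈ sm D x R ρ ω', φ A ∂N)) =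
      Real.exp (t * (∑ A ∈ sm D x R ρ ω', φ A - ∫ ω', ∑ A ∈ sm D x R ρ ω', φ A ∂N))
    unfold sm
    rw [BR.pcs_congr hw]
  rw [Em_eq (loc_integrable hL), ENNReal.ofReal_le_ofReal_iff (Real.exp_pos _).le, hN, hN] at hmain
  refine hmain.trans (Real.exp_le_exp.2 ?_)
  have p1 : |t| * a ≤ 1 := ht
  have p2 : t ^ 2 * a ^ 2 ≤ 1 := by
    have e : t ^ 2 * a ^ 2 = (|t| * a) ^ 2 := by rw [mul_pow, sq_abs]
    rw [e]
    exact pow_le_one₀ (by positivity) p1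
  refine mul_le_mul_of_nonneg_left ?_ (by norm_num)
  refine add_le_add ?_ ?_
  · calc ((9 : ℕ) : ℝ) * |t| * (a * (96 * C0 * M0)) * (2 / (1 - x0))
        = ((9 : ℕ) : ℝ) * (96 * C0 * M0) * (2 / (1 - x0)) * (|t| * a) := by ring
      _ ≤ ((9 : ℕ) : ℝ) * (96 * C0 * M0) * (2 / (1 - x0)) * 1 :=
          mul_le_mul_of_nonneg_left p1 (by positivity)
      _ = _ := by ring
  · calc 12 * (2 * Real.exp M * Real.exp ((s1 + 1) * Real.exp M)) * ((9 : ℕ) : ℝ) ^ 2 * t ^ 2 *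
          (16 * a) ^ 2 = 12 * Gc * ((9 : ℕ) : ℝ) ^ 2 * 16 ^ 2 * (t ^ 2 * a ^ 2) := by
          rw [hGc]; ring
      _ ≤ 12 * Gc * ((9 : ℕ) : ℝ) ^ 2 * 16 ^ 2 * 1 :=
          mul_le_mul_of_nonneg_left p2 (by positivity)
      _ = _ := by ring

/-- The fourth moment of `1 - e ^ (- (S - E S))`. -/
theorem sml_q (hQ : Kit Q) (hR : RSW Q) (hS : SRSW Q) : ∃ C : ℝ, 0 < C ∧
    ∀ (m : ℤ) (D : Finset (ℤ × ℤ)) (η : Cfg), Reg m D η →
    ∀ (x : ℤ × ℤ) (R : ℤ) (ρ : ℝ) (φ : Finset Ed → ℝ) (a : ℝ), 1 ≤ ρ → 8 * ρ ≤ m → 0 ≤ R →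
    (R : ℝ) ≤ ρ → 0 < a → a ≤ 1 / 8 →
    (∀ (j : ℕ) (ω : Cfg), 1 ≤ ρ / 2 ^ j → ∀ A ∈ pcs ω D, Small (ρ / 2 ^ j) A →
      |φ A| ≤ a * (1 / 4) ^ j) →
    Ex Q D η (fun ω => (1 - Real.exp (-(∑ A ∈ sm D x R ρ ω, φ A -
      Ex Q D η (fun ω' => ∑ A ∈ sm D x R ρ ω', φ A)))) ^ 4) ≤ C * a ^ 4 := by
  have hQ_pos := hQ.pos
  have hQ0 : 0 < Q := by linarith
  obtain ⟨B, hB, h⟩ := sms hQ hR hS
  refine ⟨768 * Real.exp B, by positivity,
    fun m D η hreg x R ρ φ a hρ hρm hR0 hRρ ha ha8 hφ => ?_⟩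
  set κ := Ex Q D η (fun ω' => ∑ A ∈ sm D x R ρ ω', φ A) with hκ
  have hlam : 8 ≤ 1 / a := by
    rw [le_div_iff₀ ha]
    linarith
  have h1 := h m D η hreg x R ρ φ a (1 / a) hρ hρm hR0 hRρ ha hφ (by
    rw [abs_of_pos (by positivity), one_div, inv_mul_cancel₀ ha.ne'])
  have h2 := h m D η hreg x R ρ φ a (-(1 / a)) hρ hρm hR0 hRρ ha hφ (by
    rw [abs_neg, abs_of_pos (by positivity), one_div, inv_mul_cancel₀ ha.ne'])
  rw [← hκ] at h1 h2
  calc Ex Q D η (fun ω => (1 - Real.exp (-(∑ A ∈ sm D x R ρ ω, φ A - κ))) ^ 4)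
      ≤ Ex Q D η (fun ω => 384 / (1 / a) ^ 4 * (Real.exp (1 / a * (∑ A ∈ sm D x R ρ ω, φ A - κ)) +
          Real.exp (-(1 / a) * (∑ A ∈ sm D x R ρ ω, φ A - κ)))) := by
        refine Ex_mono hQ0 fun S _ => ?_
        rw [neg_mul]
        exact one_sub_exp_pow hlam
    _ = 384 / (1 / a) ^ 4 * (Ex Q D η (fun ω => Real.exp (1 / a * (∑ A ∈ sm D x R ρ ω, φ A - κ))) +
          Ex Q D η (fun ω => Real.exp (-(1 / a) * (∑ A ∈ sm D x R ρ ω, φ A - κ)))) := by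
        rw [Ex_mul_left, Ex_add]
    _ ≤ 384 / (1 / a) ^ 4 * (Real.exp B + Real.exp B) :=
        mul_le_mul_of_nonneg_left (add_le_add h1 h2) (by positivity)
    _ = _ := by field_simp; ring

end Vale.Agent.P167.N.H167.Q
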