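import Vale.Agent.P167.N.Kit
import Vale.Agent.P167.N.H167.Q.Arm
import Vale.Agent.P167.N.H167.Q.JunMix
import Vale.Agent.P167.N.H167.Q.Sms
import Vale.Agent.P167.N.H542.Q.Pc
import Vale.Agent.P167.H167.Q.LcQ

/-! generated from Vale.Agent.P167.H167.Q.LcQ (q < 1 port) -/

set_option autoImplicit false

namespace Vale.Agent.P167.N.H167.Q

open Vale.Agent.P167.H167.Q Vale.Agent.P167.H167

open Finset Vale.Agent.P167.FK Vale.Agent.P167.BR

open Vale.Agent.P167.FKA hiding gp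

open Vale.Agent.P167.H192.Q (SRSW)

open Vale.Agent.P167.H506.Q (mem_bq)

open Vale.Agent.P167.H542.Q (XR wR Phs)

open Vale.Agent.P167.H542.Q.PT (wR_lip wR_zero abs_wR_le)

variable {Q : ℝ} {D : Finset (ℤ × ℤ)} {η : Cfg} {p : ℤ × ℤ} {th : Finset Ed → ℝ} {f : ℤ × ℤ → ℝ}
  {ω ω' : Cfg} {A : Finset Ed} {μ0 c : ℝ}

/-- The weight of a small piece is almost one. -/
theorem wq_near {K m : ℤ} (hG : Geo K m D p) (hth : Vale.Agent.P167.N.H542.Q.Phs μ0 c D th) (hAp : A ∈ pcs ω D) {d : ℝ}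
    (hd : 1 ≤ d) (hdm : d ≤ m) (hA : Small d A) (htot : tot D f = 0) {a : ℝ}
    (hf : ∀ z, |f z| ≤ a) : |wq th D p f A - 1| ≤ c⁻¹ * (9 * K ^ 2 * a * d ^ 2) := by
  have h1 := wR_lip hth.c0 (hth.cs A) (mass D p f A) 0
  rw [wR_zero (hth.c0.trans_le (hth.cs A)).ne', sub_zero] at h1
  exact h1.trans (mul_le_mul_of_nonneg_left (hG.mass_small hAp hd hdm hA htot hf)
    (inv_nonneg.2 hth.c0.le))

theorem wq_small {K m : ℤ} (hG : Geo K m D p) (hth : Vale.Agent.P167.N.H542.Q.Phs μ0 c D th) {a : ℝ}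
    (hf : ∀ z, |f z| ≤ a) (htot : tot D f = 0) {R : ℤ} (hR : 1 ≤ R) (hRm : 2 * R ≤ m) (j : ℕ)
    (hj : 1 ≤ (2 * R : ℝ) / 2 ^ j) (hA : A ∈ pcs ω D) (hsm : Small ((2 * R : ℝ) / 2 ^ j) A) :
    |wq th D p f A - 1| ≤ 36 * c⁻¹ * (a * K ^ 2 * R ^ 2) * (1 / 4) ^ j := by
  have hR1 : (1 : ℝ) ≤ R := by exact_mod_cast hR
  have hρm : (2 * R : ℝ) ≤ m := by exact_mod_cast hRm
  have h1 : (2 * R : ℝ) / 2 ^ j ≤ m :=
    (div_le_self (by linarith) (one_le_pow₀ (by norm_num))).trans hρm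
  have h2 := wq_near hG hth hA hj h1 hsm htot hf
  refine h2.trans (le_of_eq ?_)
  have h3 : ((1 : ℝ) / 4) ^ j = 1 / (2 ^ j) ^ 2 := by
    rw [← pow_mul, mul_comm j 2, pow_mul, one_div, inv_pow]; norm_num
  rw [h3]
  field_simp
  ring

theorem lwq_small {K m : ℤ} (hG : Geo K m D p) (hth : Vale.Agent.P167.N.H542.Q.Phs μ0 c D th) {a : ℝ}
    (hf : ∀ z, |f z| ≤ a) (htot : tot D f = 0) {R : ℤ} (hR : 1 ≤ R) (hRm : 2 * R ≤ m)
    (hq : 72 * c⁻¹ * (a * K ^ 2 * R ^ 2) ≤ 1) (j : ℕ) (hj : 1 ≤ (2 * R : ℝ) / 2 ^ j)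
    (hA : A ∈ pcs ω D) (hsm : Small ((2 * R : ℝ) / 2 ^ j) A) :
    |Real.log (wq th D p f A)| ≤ 72 * c⁻¹ * (a * K ^ 2 * R ^ 2) * (1 / 4) ^ j := by
  have ha : 0 ≤ a := (abs_nonneg _).trans (hf 0)
  have hq0 : 0 ≤ c⁻¹ * (a * K ^ 2 * R ^ 2) := by
    have := inv_nonneg.2 hth.c0.le
    positivity
  have h1 := wq_small hG hth hf htot hR hRm j hj hA hsm
  have h2 : 36 * c⁻¹ * (a * K ^ 2 * R ^ 2) * (1 / 4) ^ j ≤ 1 / 2 := by
    have h4 : ((1 : ℝ) / 4) ^ j ≤ 1 := pow_le_one₀ (by norm_num) (by norm_num)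
    have h3 : 0 ≤ ((1 : ℝ) / 4) ^ j := by positivity
    nlinarith
  have h3 := abs_log_le (h1.trans h2)
  calc |Real.log (wq th D p f A)| ≤ 2 * |wq th D p f A - 1| := h3
    _ ≤ _ := by linarith

/-- The pointwise bound. -/
theorem Zq_pt {K m : ℤ} (hG : Geo K m D p) (hth : Vale.Agent.P167.N.H542.Q.Phs μ0 c D th) {a : ℝ} (hf : ∀ z, |f z| ≤ a)
    (htot : tot D f = 0) {x : ℤ × ℤ} {L R : ℤ} (hL : 1 ≤ L) (hLR : L < R) (hRm : 2 * R ≤ m)
    (hq : 72 * c⁻¹ * (a * K ^ 2 * R ^ 2) ≤ 1) (κ : ℝ) (ω : Cfg) :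
    (XR th D p f ω - Zq' th D p f x L R κ ω) ^ 2 ≤ XR th D p f ω ^ 2 * (AE D x L R).indicator 1 ω +
      XR th D p f ω ^ 2 * (1 - Real.exp (-(Fq th D p f x L R ω - κ))) ^ 2 := by
  classical
  have hR1 : (1 : ℝ) ≤ R := by exact_mod_cast (by omega : (1 : ℤ) ≤ R)
  by_cases hω : ω ∈ AE D x L R
  · have h0 : (AE D x L R).indicator (1 : Cfg → ℝ) ω = 1 := Set.indicator_of_mem hω _
    have h1 : Zq' th D p f x L R κ ω = 0 := by unfold Zq'; rw [h0]; ring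
    rw [h1, h0, sub_zero, mul_one]
    have : 0 ≤ XR th D p f ω ^ 2 * (1 - Real.exp (-(Fq th D p f x L R ω - κ))) ^ 2 := by positivity
    linarith
  · have h0 : (AE D x L R).indicator (1 : Cfg → ℝ) ω = 0 := Set.indicator_of_notMem hω _
    have h1 : (pcs ω D).filter (fun A => Vis' x L A) = sm D x L (2 * R) ω := by
      ext A
      rw [Finset.mem_filter, mem_sm]
      constructor
      · rintro ⟨h2, h3⟩
        exact ⟨h2, h3, small_of_not_AE hLR h2 h3 hω⟩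
      · rintro ⟨h2, h3, -⟩
        exact ⟨h2, h3⟩
    have h2 : XR th D p f ω = Real.exp (Fq th D p f x L R ω) * Xq th D p f x L ω := by
      have h3 : XR th D p f ω = (∏ A ∈ (pcs ω D).filter (fun A => Vis' x L A),
          wq th D p f A) * Xq th D p f x L ω :=
        (Finset.prod_filter_mul_prod_filter_not _ _ _).symm
      rw [h3, h1]
      congr 1
      unfold Fq
      rw [Real.exp_sum]
      refine Finset.prod_congr rfl fun A hA => ?_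
      obtain ⟨h4, -, h5⟩ := mem_sm.1 hA
      have h6 := wq_small hG hth hf htot (by omega) hRm 0 (by rw [pow_zero, div_one]; linarith) h4
        (by rw [pow_zero, div_one]; exact h5)
      rw [pow_zero, mul_one] at h6
      rw [Real.exp_log]
      have := (abs_le.1 h6).1
      linarith
    have h3 : Zq' th D p f x L R κ ω =
        XR th D p f ω * Real.exp (-(Fq th D p f x L R ω - κ)) := by
      unfold Zq'
      rw [h0, h2]
      rw [show Real.exp (Fq th D p f x L R ω) * Xq th D p f x L ω *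
          Real.exp (-(Fq th D p f x L R ω - κ)) =
        (Real.exp (Fq th D p f x L R ω) * Real.exp (-(Fq th D p f x L R ω - κ))) *
          Xq th D p f x L ω by ring, ← Real.exp_add]
      rw [show Fq th D p f x L R ω + -(Fq th D p f x L R ω - κ) = κ by ring]
      ring
    rw [h3, h0, mul_zero, zero_add, ← mul_pow]
    refine le_of_eq ?_
    congr 1
    ring

/-- `sml_q` without `0 < a`. -/
theorem sml_q' (hQ : Kit Q) (hR : RSW Q) (hS : SRSW Q) : ∃ C : ℝ, 0 < C ∧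
    ∀ (m : ℤ) (D : Finset (ℤ × ℤ)) (η : Cfg), Reg m D η →
    ∀ (x : ℤ × ℤ) (R : ℤ) (ρ : ℝ) (φ : Finset Ed → ℝ) (a : ℝ), 1 ≤ ρ → 8 * ρ ≤ m → 0 ≤ R →
    (R : ℝ) ≤ ρ → 0 ≤ a → a ≤ 1 / 8 →
    (∀ (j : ℕ) (ω : Cfg), 1 ≤ ρ / 2 ^ j → ∀ A ∈ pcs ω D, Small (ρ / 2 ^ j) A →
      |φ A| ≤ a * (1 / 4) ^ j) →
    Ex Q D η (fun ω => (1 - Real.exp (-(∑ A ∈ sm D x R ρ ω, φ A -
      Ex Q D η (fun ω' => ∑ A ∈ sm D x R ρ ω', φ A)))) ^ 4) ≤ C * a ^ 4 := by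
  have hQ_pos := hQ.pos
  have hQ0 : 0 < Q := by linarith
  obtain ⟨C, hC, h⟩ := sml_q hQ hR hS
  refine ⟨C, hC, fun m D η hreg x R ρ φ a hρ hρm hR0 hRρ ha ha8 hφ => ?_⟩
  rcases ha.eq_or_lt with h0 | h0
  · have h1 : ∀ ω, ∑ A ∈ sm D x R ρ ω, φ A = 0 := fun ω => Finset.sum_eq_zero fun A hA => by
      obtain ⟨h2, -, h3⟩ := mem_sm.1 hA
      have h4 := hφ 0 ω (by simpa using hρ) A h2 (by simpa using h3)
      rw [← h0, zero_mul] at h4
      exact abs_nonpos_iff.1 h4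
    simp only [h1, Ex_const hQ0]
    simp [← h0]
  · exact h m D η hreg x R ρ φ a hρ hρm hR0 hRρ h0 ha8 hφ

/-- The covariance, from mixing between two boxes and the moments of the error. -/
theorem lc_step (hQ : Kit Q) {K m : ℤ} (hreg : Reg m D η) (hG : Geo K m D p)
    (hth : Vale.Agent.P167.N.H542.Q.Phs μ0 c D th) {a : ℝ} (hf : ∀ z, |f z| ≤ a) (htot : tot D f = 0) {x : ℤ × ℤ}
    {L L1 R : ℤ} (hL1 : 1 ≤ L1) (hLR : L1 < R) (hRm : 2 * R ≤ m)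
    (hq : 72 * c⁻¹ * (a * K ^ 2 * R ^ 2) ≤ 1) {κ ε s e B b : ℝ} (hε : 0 ≤ ε) (hs0 : 0 ≤ s)
    (he0 : 0 ≤ e) (hB : 0 ≤ B) (hb : 0 ≤ b) (hmix : MxA Q D η x (L + 1) L1 ε)
    (hXB : Ex Q D η (fun ω => XR th D p f ω ^ 4) ≤ B ^ 4)
    (harm : Ex Q D η ((AE D x L1 R).indicator 1) ≤ (s ^ 2) ^ 2)
    (hE4 : Ex Q D η (fun ω => (1 - Real.exp (-(Fq th D p f x L1 R ω - κ))) ^ 4) ≤ (e ^ 2) ^ 2)
    {N : Cfg → ℝ} (hN : Loc (Bq x (L + 1) ∩ D) N) (hNb : Ex Q D η (fun ω => N ω ^ 2) ≤ b ^ 2) :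
    |Ex Q D η (fun ω => XR th D p f ω * N ω) - Ex Q D η (XR th D p f) * Ex Q D η N| ≤
      2 * (B * (s + e) * b) + ε * (B * (1 + (s + e)) * b) := by
  have hQ_pos := hQ.pos
  have hQ0 : 0 < Q := by linarith
  have hX2 := sq_of_four hQ0 hXB
  have hXabs := ex_le hQ0 hB hX2
  have hNabs := ex_le hQ0 hb hNb
  have b3 := second_momentQ (D := D) (η := η) hQ0 (X := XR th D p f)
    (Z := Zq' th D p f x L1 R κ) (G := AE D x L1 R)
    (E := fun ω => 1 - Real.exp (-(Fq th D p f x L1 R ω - κ))) hs0 he0 hXB harm hE4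
    (Zq_pt hG hth hf htot hL1 hLR hRm hq κ)
  have hse : 0 ≤ s + e := add_nonneg hs0 he0
  have hXZ := ex_le hQ0 (mul_nonneg hB hse) b3
  have hZabs : Ex Q D η (fun ω => |Zq' th D p f x L1 R κ ω|) ≤ B * (1 + (s + e)) := by
    calc Ex Q D η (fun ω => |Zq' th D p f x L1 R κ ω|)
        ≤ Ex Q D η (fun ω => |XR th D p f ω| + |XR th D p f ω - Zq' th D p f x L1 R κ ω|) :=
          Ex_mono hQ0 fun S _ => by
            have h1 := abs_sub (XR th D p f (cf D η S))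
              (XR th D p f (cf D η S) - Zq' th D p f x L1 R κ (cf D η S))
            rwa [sub_sub_cancel] at h1
      _ = Ex Q D η (fun ω => |XR th D p f ω|) +
          Ex Q D η (fun ω => |XR th D p f ω - Zq' th D p f x L1 R κ ω|) := Ex_add _ _
      _ ≤ B + B * (s + e) := add_le_add hXabs hXZ
      _ = _ := by ring
  have hcovZ := Vale.Agent.P167.N.H167.Q.MxA.cov (h := hmix) hQ hε hreg.good hN
    (G := Zq' th D p f x L1 R κ) (Ind.mono Finset.inter_subset_left (Zq_ind x L1 R κ))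
  have hN0 : 0 ≤ Ex Q D η (fun ω => |N ω|) := Ex_nonneg hQ0 fun _ _ => abs_nonneg _
  have hδ : |Ex Q D η (fun ω => Zq' th D p f x L1 R κ ω * N ω) -
      Ex Q D η (Zq' th D p f x L1 R κ) * Ex Q D η N| ≤ ε * (B * (1 + (s + e)) * b) := by
    refine hcovZ.trans (mul_le_mul_of_nonneg_left ?_ hε)
    exact mul_le_mul hZabs hNabs hN0 (by positivity)
  exact cov_leQ hQ0 (mul_nonneg hB hse) hb b3 hNb hδ

/-- **The functional is asymptotically independent of every local function**, up to the boundary of a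
regular domain. -/
theorem local_covQ (hQ : Kit Q) (hR : RSW Q) (hS : SRSW Q) {c : ℝ} (hc : 0 < c) :
    ∃ c1 C β : ℝ, 0 < c1 ∧ 0 < C ∧ 0 < β ∧ β ≤ 1 ∧
    ∀ (K m : ℤ) (D : Finset (ℤ × ℤ)) (η : Cfg) (p : ℤ × ℤ) (μ0 : ℝ) (th : Finset Ed → ℝ),
    Reg m D η → Geo K m D p → Vale.Agent.P167.N.H542.Q.Phs μ0 c D th → ∀ (f : ℤ × ℤ → ℝ) (a : ℝ),
    (∀ z, |f z| ≤ a) → tot D f = 0 → ∀ x ∈ sites D, ∀ L R : ℤ, 1 ≤ L → L < R → 16 * R ≤ m →
    a * K ^ 2 * R ^ 2 ≤ c1 → ∀ N : Cfg → ℝ, Loc (Bq x (L + 1) ∩ D) N →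
    ∀ B b : ℝ, 0 ≤ B → 0 ≤ b → Ex Q D η (fun ω => XR th D p f ω ^ 4) ≤ B ^ 4 →
    Ex Q D η (fun ω => N ω ^ 2) ≤ b ^ 2 →
    |Ex Q D η (fun ω => XR th D p f ω * N ω) - Ex Q D η (XR th D p f) * Ex Q D η N| ≤
      C * B * b * (((L : ℝ) / R) ^ β + a * K ^ 2 * R ^ 2) := by
  have hQ_pos := hQ.pos
  have hQ0 : 0 < Q := by linarith
  obtain ⟨C4, hC4, hs⟩ := sml_q' hQ hR hS
  obtain ⟨Ca, αa, hCa, hαa, hαa1, harm⟩ := arm_all hQ hR hS
  obtain ⟨α0, C0, hα0, hC0, hmx⟩ := mx_all hQ hR hS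
  obtain ⟨k0, hk0⟩ : ∃ k0 : ℝ, k0 = 72 * c⁻¹ := ⟨_, rfl⟩
  have hk00 : 0 < k0 := by rw [hk0]; positivity
  -- the exponent
  obtain ⟨β', hβ'⟩ : ∃ β' : ℝ, β' = min (min α0 (αa / 4)) 1 := ⟨_, rfl⟩
  have hβ0 : 0 < β' := by rw [hβ']; positivity
  have hβ1 : β' ≤ 1 := by rw [hβ']; exact min_le_right _ _
  have hβα : β' ≤ α0 := by rw [hβ']; exact (min_le_left _ _).trans (min_le_left _ _)
  have hβa : β' ≤ αa / 4 := by rw [hβ']; exact (min_le_left _ _).trans (min_le_right _ _)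
  clear hβ'
  obtain ⟨M0, hM0⟩ : ∃ M0 : ℝ, M0 = 4 ^ α0 * C0 := ⟨_, rfl⟩
  have hM00 : 0 < M0 := by rw [hM0]; positivity
  refine ⟨1 / (8 * k0), 2 * (Real.sqrt (Real.sqrt Ca) + Real.sqrt (Real.sqrt C4) * k0) +
    6 * M0 * (1 + Real.sqrt (Real.sqrt Ca) + Real.sqrt (Real.sqrt C4)) + 8 + 4 * M0 + 1, β' / 2,
    by positivity, by positivity, by positivity, by linarith,
    fun K m D η p μ0 th hreg hG hth f a hf htot x hx L R hL hLR hRm hc2 N hN B b hB hb hXB hNb => ?_⟩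
  have ha : 0 ≤ a := (abs_nonneg _).trans (hf 0)
  have hq0 : 0 ≤ a * K ^ 2 * R ^ 2 := by positivity
  have hq8 : k0 * (a * K ^ 2 * R ^ 2) ≤ 1 / 8 := by
    rw [le_div_iff₀ (by positivity)] at hc2
    linarith
  have hq1 : 72 * c⁻¹ * (a * K ^ 2 * R ^ 2) ≤ 1 := by
    rw [← hk0]; linarith
  have hLr : (1 : ℝ) ≤ L := by exact_mod_cast hL
  have hLRr : (L : ℝ) < R := by exact_mod_cast hLR
  have hR0 : (0 : ℝ) < R := by linarith
  obtain ⟨L1, hL1a, hL1b, hL1c, hL1d⟩ := exists_mid hL hLR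
  obtain ⟨u, hu⟩ : ∃ u : ℝ, u = Real.sqrt ((L : ℝ) / R) := ⟨_, rfl⟩
  rw [← hu] at hL1c hL1d
  have hLR0 : (0 : ℝ) < (L : ℝ) / R := by positivity
  have hu0 : 0 < u := by rw [hu]; exact Real.sqrt_pos.2 hLR0
  have hu1 : u ≤ 1 := by
    rw [hu]
    refine Real.sqrt_le_one.2 ?_
    rw [div_le_one hR0]
    exact hLRr.le
  have hub : ((L : ℝ) / R) ^ (β' / 2) = u ^ β' := by
    rw [hu, Real.sqrt_eq_rpow, ← Real.rpow_mul hLR0.le]
    congr 1
    ring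
  rw [hub]
  have hg0 : 0 < u ^ β' := by positivity
  have hg1 : u ^ β' ≤ 1 := Real.rpow_le_one hu0.le hu1 hβ0.le
  have hug : u ^ α0 ≤ u ^ β' := Real.rpow_le_rpow_of_exponent_ge hu0 hu1 hβα
  by_cases hcase : 4 * u ≤ 1 ∧ M0 * u ^ α0 ≤ 1 / 2
  · obtain ⟨hc1, hc3⟩ := hcase
    have hL1pos : (0 : ℝ) < L1 := by exact_mod_cast (by omega : 0 < L1)
    have hLL : L + 1 ≤ L1 := by
      have h1 : ((L + 1 : ℤ) : ℝ) / L1 ≤ 1 := hL1d.trans hc1
      rw [div_le_one hL1pos] at h1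
      exact_mod_cast h1
    have hL0 : (0 : ℝ) ≤ ((L + 1 : ℤ) : ℝ) := by exact_mod_cast (by omega : 0 ≤ L + 1)
    have hrate : C0 * (((L + 1 : ℤ) : ℝ) / L1) ^ α0 ≤ M0 * u ^ α0 := by
      calc C0 * (((L + 1 : ℤ) : ℝ) / L1) ^ α0 ≤ C0 * (4 * u) ^ α0 := by
            refine mul_le_mul_of_nonneg_left (Real.rpow_le_rpow ?_ hL1d hα0.le) hC0.le
            positivity
        _ = M0 * u ^ α0 := by
            rw [Real.mul_rpow (by norm_num) hu0.le, hM0]; ring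
    have hmix := hmx D η x (L + 1) L1 (hreg.bd x hx L1 (by omega) (by omega)) (by omega) hLL
      (hrate.trans hc3)
    have hs4 := hs m D η hreg x L1 (2 * R) (fun A => Real.log (wq th D p f A))
      (72 * c⁻¹ * (a * K ^ 2 * R ^ 2)) (by linarith) (by
        have : (16 * R : ℝ) ≤ m := by exact_mod_cast hRm
        linarith) (by omega) (by
        have : (L1 : ℝ) ≤ R := by exact_mod_cast hL1b.le
        linarith) (by positivity) (by rw [← hk0]; exact hq8)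
      (fun j ω hj A hA hsm => lwq_small hG hth hf htot (by omega) (by omega) hq1 j hj hA hsm)
    have hs2 : ((Real.sqrt (Real.sqrt (Ca * ((L1 : ℝ) / R) ^ αa))) ^ 2) ^ 2 =
        Ca * ((L1 : ℝ) / R) ^ αa := by
      rw [Real.sq_sqrt (Real.sqrt_nonneg _), Real.sq_sqrt (by positivity)]
    have he2 : ((Real.sqrt (Real.sqrt C4) * (k0 * (a * K ^ 2 * R ^ 2))) ^ 2) ^ 2 =
        C4 * (k0 * (a * K ^ 2 * R ^ 2)) ^ 4 := by
      have h1 : ((Real.sqrt (Real.sqrt C4)) ^ 2) ^ 2 = C4 := by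
        rw [Real.sq_sqrt (Real.sqrt_nonneg _), Real.sq_sqrt hC4.le]
      have h2 : ((Real.sqrt (Real.sqrt C4) * (k0 * (a * K ^ 2 * R ^ 2))) ^ 2) ^ 2 =
        ((Real.sqrt (Real.sqrt C4)) ^ 2) ^ 2 * (k0 * (a * K ^ 2 * R ^ 2)) ^ 4 := by ring
      rw [h2, h1]
    have hsle : Real.sqrt (Real.sqrt (Ca * ((L1 : ℝ) / R) ^ αa)) ≤
        Real.sqrt (Real.sqrt Ca) * u ^ β' := by
      have h1 : Real.sqrt (Real.sqrt (Ca * ((L1 : ℝ) / R) ^ αa)) ≤
          Real.sqrt (Real.sqrt (Ca * u ^ αa)) :=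
        Real.sqrt_le_sqrt (Real.sqrt_le_sqrt (mul_le_mul_of_nonneg_left
          (Real.rpow_le_rpow (by positivity) hL1c hαa.le) hCa.le))
      refine h1.trans ?_
      rw [Real.sqrt_mul hCa.le, Real.sqrt_mul (Real.sqrt_nonneg _)]
      refine mul_le_mul_of_nonneg_left ?_ (Real.sqrt_nonneg _)
      rw [Real.sqrt_eq_rpow, Real.sqrt_eq_rpow, ← Real.rpow_mul (Real.rpow_nonneg hu0.le _),
        ← Real.rpow_mul hu0.le]
      exact Real.rpow_le_rpow_of_exponent_ge hu0 hu1 (by linarith)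
    have hstep := lc_step (B := B) (b := b) hQ hreg hG hth hf htot (x := x) (L := L) (L1 := L1)
      (R := R) (by omega) hL1b (by omega) hq1
      (κ := Ex Q D η (fun ω' => ∑ A ∈ sm D x L1 (2 * R) ω', Real.log (wq th D p f A)))
      (s := Real.sqrt (Real.sqrt (Ca * ((L1 : ℝ) / R) ^ αa)))
      (e := Real.sqrt (Real.sqrt C4) * (k0 * (a * K ^ 2 * R ^ 2))) (by positivity)
      (Real.sqrt_nonneg _) (by positivity) hB hb hmix hXB
      (by rw [hs2]; exact harm m D η hreg x hx L1 R (by omega) (by omega) (by omega))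
      (by rw [he2, hk0]; exact hs4) hN hNb
    refine hstep.trans (lc_arith hB hb (Real.sqrt_nonneg _) (Real.sqrt_nonneg _) hk00.le hM00.le
      hg0.le hg1 hq0 hq8 (Real.sqrt_nonneg _) hsle rfl ?_)
    refine mul_le_mul_of_nonneg_left (hrate.trans ?_) (by norm_num)
    exact mul_le_mul_of_nonneg_left hug hM00.le
  · -- the trivial case
    have hX2 := sq_of_four hQ0 hXB
    have hXabs := ex_le hQ0 hB hX2
    have hNabs := ex_le hQ0 hb hNb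
    refine lc_triv hB hb (Real.sqrt_nonneg _) (Real.sqrt_nonneg _) hk00.le hM00.le hg0.le hq0
      ?_ ?_
    · have h1 : |Ex Q D η (fun ω => XR th D p f ω * N ω)| ≤ B * b :=
        (abs_Ex_le hQ0 _).trans (cs_ex hQ0 hB hb hX2 hNb)
      have h2 : |Ex Q D η (XR th D p f) * Ex Q D η N| ≤ B * b := by
        rw [abs_mul]
        exact mul_le_mul ((abs_Ex_le hQ0 _).trans hXabs) ((abs_Ex_le hQ0 _).trans hNabs)
          (abs_nonneg _) hB
      refine (abs_sub _ _).trans ?_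
      linarith
    · by_cases h2 : 4 * u ≤ 1
      · have h3 : ¬ M0 * u ^ α0 ≤ 1 / 2 := fun h4 => hcase ⟨h2, h4⟩
        push Not at h3
        have h5 := mul_le_mul_of_nonneg_left hug hM00.le
        nlinarith
      · push Not at h2
        have h4 : u ≤ u ^ β' := by
          calc u = u ^ (1 : ℝ) := (Real.rpow_one _).symm
            _ ≤ u ^ β' := Real.rpow_le_rpow_of_exponent_ge hu0 hu1 hβ1
        nlinarith [mul_nonneg hM00.le hg0.le]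

end Vale.Agent.P167.N.H167.Q
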