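import Vale.Agent.P167.N.Kit
import Vale.Agent.P167.N.H167.Q.Cnt
import Vale.Agent.P167.N.H167.Q.LcQ
import Vale.Agent.P167.N.H542.Q.Pc
import Vale.Agent.P167.H167.Q.ScQ

/-! generated from Vale.Agent.P167.H167.Q.ScQ (q < 1 port) -/

set_option autoImplicit false

namespace Vale.Agent.P167.N.H167.Q

open Vale.Agent.P167.H167.Q Vale.Agent.P167.H167

open Finset Vale.Agent.P167.FK Vale.Agent.P167.BR

open Vale.Agent.P167.FKA hiding gp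

open Vale.Agent.P167.H192.Q (SRSW)

open Vale.Agent.P167.H506.Q (mem_bq)

open Vale.Agent.P167.H542.Q (XR wR wR' XTR Phs)

open Vale.Agent.P167.H542.Q.PT (wR_lip wR_zero abs_wR_le)

variable {Q : ℝ} {D : Finset (ℤ × ℤ)} {η : Cfg} {p : ℤ × ℤ} {th : Finset Ed → ℝ} {f : ℤ × ℤ → ℝ}
  {ω ω' : Cfg} {A : Finset Ed} {μ0 c : ℝ}

theorem card_fourQ (hQ : Kit Q) (h : RSW Q) (Λ : ℕ) : ∃ C : ℝ, 1 ≤ C ∧
    ∀ (m : ℤ) (D : Finset (ℤ × ℤ)) (η : Cfg), Reg m D η → ∀ (x : ℤ × ℤ) (L : ℤ) (d : ℝ), 1 ≤ d →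
      0 ≤ L → (L : ℝ) ≤ Λ * d → (Λ + 2) * d ≤ m →
      Ex Q D η (fun ω => ((Bg D x L d ω).card : ℝ) ^ 4) ≤ C ^ 4 ∧
      Ex Q D η (fun ω => ((Bg D x L d ω).card : ℝ) ^ 2) ≤ C ^ 2 := by
  have hQ_pos := hQ.pos
  have hQ0 : 0 < Q := by linarith
  obtain ⟨M, hM, hb⟩ := ex_bg hQ h Λ (s := 1) zero_le_one
  refine ⟨24 * M, by linarith, fun m D η hreg x L d hd hL0 hL hm => ?_⟩
  have h1 := hb m D η hreg.old x L d hd hL0 hL hm (fun _ => 1) (fun _ => zero_le_one)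
    fun _ _ _ => rfl
  simp only [one_mul] at h1
  rw [Ex_const hQ0, mul_one] at h1
  have h2 : Ex Q D η (fun ω => ((Bg D x L d ω).card : ℝ) ^ 4) ≤ 24 * M := by
    calc Ex Q D η (fun ω => ((Bg D x L d ω).card : ℝ) ^ 4)
        ≤ Ex Q D η (fun ω => 24 * Real.exp ((Bg D x L d ω).card : ℝ)) :=
          Ex_mono hQ0 fun S _ => four_le_exp (Nat.cast_nonneg _)
      _ = 24 * Ex Q D η (fun ω => Real.exp ((Bg D x L d ω).card : ℝ)) := Ex_mul_left _ _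
      _ ≤ 24 * M := mul_le_mul_of_nonneg_left h1 (by norm_num)
  have h3 : 24 * M ≤ (24 * M) ^ 4 := by
    calc 24 * M = (24 * M) ^ 1 := (pow_one _).symm
      _ ≤ (24 * M) ^ 4 := pow_le_pow_right₀ (by linarith) (by norm_num)
  exact ⟨h2.trans h3, sq_of_four hQ0 (h2.trans h3)⟩

theorem abs_bw_le (hth : Vale.Agent.P167.N.H542.Q.Phs μ0 c D th) (h : |wq th D p f A - 1| ≤ 1 / 2) :
    |bw th D p f A| ≤ 2 * c⁻¹ := by
  have h1 := (abs_le.1 h).1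
  have h2 : 1 / 2 ≤ |wq th D p f A| := by
    rw [abs_of_pos (by linarith)]; linarith
  unfold bw
  rw [abs_div, div_le_iff₀ (by linarith)]
  have := abs_wR'_le hth.c0 (hth.cs A) (mass D p f A)
  have h3 : 0 < c⁻¹ := inv_pos.2 hth.c0
  nlinarith

theorem wq_zero (hth : Vale.Agent.P167.N.H542.Q.Phs μ0 c D th) (A : Finset Ed) : wq th D p 0 A = 1 := by
  unfold wq
  rw [mass_zero, wR_zero (hth.c0.trans_le (hth.cs A)).ne']

theorem bw_lip (hth : Vale.Agent.P167.N.H542.Q.Phs μ0 c D th) (h : |wq th D p f A - 1| ≤ 1 / 2) :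
    |bw th D p f A - bw th D p 0 A| ≤ 2 * (c⁻¹ * (1 + c⁻¹)) * |mass D p f A| := by
  have h1 := (abs_le.1 h).1
  have h2 : 1 / 2 ≤ wq th D p f A := by linarith
  unfold bw
  rw [wq_zero hth, div_one, mass_zero]
  have h3 : wR' (th A) (mass D p f A) / wq th D p f A - wR' (th A) 0 =
      ((wR' (th A) (mass D p f A) - wR' (th A) 0) + wR' (th A) 0 * (1 - wq th D p f A)) /
        wq th D p f A := by
    field_simp; ring
  rw [h3, abs_div, abs_of_pos (by linarith : 0 < wq th D p f A), div_le_iff₀ (by linarith)]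
  have h4 := wR'_lip hth.c0 (hth.cs A) (mass D p f A) 0
  have h5 := wR_lip hth.c0 (hth.cs A) (mass D p f A) 0
  rw [sub_zero] at h4 h5
  rw [wR_zero (hth.c0.trans_le (hth.cs A)).ne'] at h5
  have h6 := abs_wR'_le hth.c0 (hth.cs A) 0
  have hci : 0 < c⁻¹ := inv_pos.2 hth.c0
  have h7 : |wR' (th A) 0 * (1 - wq th D p f A)| ≤ c⁻¹ * (c⁻¹ * |mass D p f A|) := by
    rw [abs_mul, abs_sub_comm]
    exact mul_le_mul h6 h5 (abs_nonneg _) hci.le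
  have h8 := abs_add_le (wR' (th A) (mass D p f A) - wR' (th A) 0)
    (wR' (th A) 0 * (1 - wq th D p f A))
  have h9 : 0 ≤ c⁻¹ * (1 + c⁻¹) * |mass D p f A| := by positivity
  nlinarith

theorem wq_le {K : ℕ} {m T : ℤ} {a c1 : ℝ} (h : Sc K m T D p f a c1) (hth : Vale.Agent.P167.N.H542.Q.Phs μ0 c D th)
    (hc : 18 * c⁻¹ * c1 ≤ 1) {j : ℕ} (hj : 8 * ((K : ℤ) + 1) * 2 ^ j ≤ T) (hA : A ∈ pcs ω D)
    (hs : Small (2 ^ (j + 1)) A) : |wq th D p f A - 1| ≤ 1 / 2 := by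
  have hT0 := T_pos hj
  have h1 := wR_lip hth.c0 (hth.cs A) (mass D p f A) 0
  rw [wR_zero (hth.c0.trans_le (hth.cs A)).ne', sub_zero] at h1
  have h2 := h.mass_le hj hA hs
  have hx1 : (2 : ℝ) ^ (j + 1) / T ≤ 1 := by rw [div_le_one hT0]; exact two_pow_le hj
  have hx0 : 0 ≤ (2 : ℝ) ^ (j + 1) / T := by positivity
  have h3 : ((2 : ℝ) ^ (j + 1) / T) ^ 2 ≤ 1 := pow_le_one₀ hx0 hx1
  have h5 : 0 ≤ c1 := by
    have := h.hc
    have h6 := h.ha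
    have : 0 ≤ a * K ^ 2 * T ^ 2 := by positivity
    linarith [h.hc]
  have hci : 0 < c⁻¹ := inv_pos.2 hth.c0
  have h6 : |mass D p f A| ≤ 9 * c1 := by
    refine h2.trans ?_
    nlinarith
  calc |wq th D p f A - 1| ≤ c⁻¹ * |mass D p f A| := h1
    _ ≤ c⁻¹ * (9 * c1) := mul_le_mul_of_nonneg_left h6 hci.le
    _ ≤ 1 / 2 := by linarith

theorem cn_sqQ (hQ : Kit Q) (h : RSW Q) (K : ℕ) : ∃ C : ℝ, 1 ≤ C ∧
    ∀ (m : ℤ) (D : Finset (ℤ × ℤ)) (η : Cfg), Reg m D η → ∀ (x : ℤ × ℤ) (j : ℕ),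
      8 * ((K : ℤ) + 1) * 2 ^ j ≤ m → Ex Q D η (fun ω => cn K D x j ω ^ 2) ≤ C ^ 2 := by
  have hQ_pos := hQ.pos
  obtain ⟨C4, hC4, hcard⟩ := card_fourQ hQ h (2 * (K + 1))
  refine ⟨C4, hC4, fun m D η hreg x j hj => ?_⟩
  refine (hcard m D η hreg x _ (2 ^ j) (one_le_pow₀ (by norm_num)) (by positivity) ?_ ?_).2
  · push_cast
    rw [pow_succ]
    linarith
  · have h1 : (8 * ((K : ℝ) + 1)) * 2 ^ j ≤ m := by exact_mod_cast hj
    have h2 : (0 : ℝ) ≤ K := Nat.cast_nonneg _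
    have h3 : (0 : ℝ) < 2 ^ j := by positivity
    push_cast
    nlinarith

theorem NW_pt {K : ℕ} {m T : ℤ} {a c1 : ℝ} (h : Sc K m T D p f a c1) (hth : Vale.Agent.P167.N.H542.Q.Phs μ0 c D th)
    (hc : 18 * c⁻¹ * c1 ≤ 1) {j : ℕ} (hj : 8 * ((K : ℤ) + 1) * 2 ^ j ≤ T) {x : ℤ × ℤ}
    {P : Finset Ed → Prop} (hP : QS K j x P) {τ : Finset Ed → ℝ} (hτ : ∀ A, |τ A| ≤ 1) (ω : Cfg) :
    |NW th D p f P τ ω| ≤ 2 * c⁻¹ * cn K D x j ω := by
  classical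
  have hci : 0 < c⁻¹ := inv_pos.2 hth.c0
  unfold NW
  refine (Finset.abs_sum_le_sum_abs _ _).trans ?_
  calc ∑ A ∈ (pcs ω D).filter P, |τ A * bw th D p f A|
      ≤ ∑ _A ∈ (pcs ω D).filter P, 2 * c⁻¹ := Finset.sum_le_sum fun A hA => by
        obtain ⟨h1, h2⟩ := Finset.mem_filter.1 hA
        have h3 := abs_bw_le hth (wq_le h hth hc hj h1 (hP A h2).2.1)
        rw [abs_mul]
        calc |τ A| * |bw th D p f A| ≤ 1 * (2 * c⁻¹) :=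
              mul_le_mul (hτ A) h3 (abs_nonneg _) zero_le_one
          _ = _ := one_mul _
    _ = (((pcs ω D).filter P).card : ℝ) * (2 * c⁻¹) := by rw [Finset.sum_const, nsmul_eq_mul]
    _ ≤ _ := by
        rw [mul_comm]
        exact mul_le_mul_of_nonneg_left (card_le_cn (D := D) hP ω) (by positivity)

/-- Second moment. -/
theorem NW_sq (hQ : 0 < Q) {K : ℕ} {m T : ℤ} {a c1 : ℝ} (h : Sc K m T D p f a c1)
    (hth : Vale.Agent.P167.N.H542.Q.Phs μ0 c D th) (hc : 18 * c⁻¹ * c1 ≤ 1) {j : ℕ} (hj : 8 * ((K : ℤ) + 1) * 2 ^ j ≤ T)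
    {x : ℤ × ℤ} {P : Finset Ed → Prop} (hP : QS K j x P) {τ : Finset Ed → ℝ}
    (hτ : ∀ A, |τ A| ≤ 1) {C : ℝ} (hC : Ex Q D η (fun ω => cn K D x j ω ^ 2) ≤ C ^ 2) :
    Ex Q D η (fun ω => NW th D p f P τ ω ^ 2) ≤ (2 * c⁻¹ * C) ^ 2 := by
  calc Ex Q D η (fun ω => NW th D p f P τ ω ^ 2)
      ≤ Ex Q D η (fun ω => (2 * c⁻¹) ^ 2 * cn K D x j ω ^ 2) := by
        refine Ex_mono hQ fun S _ => ?_
        have h1 := NW_pt h hth hc hj hP hτ (cf D η S)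
        calc NW th D p f P τ (cf D η S) ^ 2 = |NW th D p f P τ (cf D η S)| ^ 2 := (sq_abs _).symm
          _ ≤ (2 * c⁻¹ * cn K D x j (cf D η S)) ^ 2 := pow_le_pow_left₀ (abs_nonneg _) h1 2
          _ = _ := by ring
    _ = (2 * c⁻¹) ^ 2 * Ex Q D η (fun ω => cn K D x j ω ^ 2) := Ex_mul_left _ _
    _ ≤ (2 * c⁻¹) ^ 2 * C ^ 2 := mul_le_mul_of_nonneg_left hC (by positivity)
    _ = _ := by ring

/-- Dependence of the mean on the charge. -/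
theorem NW_diff (hQ : 0 < Q) {K : ℕ} {m T : ℤ} {a c1 : ℝ} (h : Sc K m T D p f a c1)
    (hth : Vale.Agent.P167.N.H542.Q.Phs μ0 c D th) (hc : 18 * c⁻¹ * c1 ≤ 1) (hc1 : c1 ≤ 1) {j : ℕ}
    (hj : 8 * ((K : ℤ) + 1) * 2 ^ j ≤ T) {x : ℤ × ℤ} {P : Finset Ed → Prop} (hP : QS K j x P)
    {τ : Finset Ed → ℝ} (hτ : ∀ A, |τ A| ≤ 1) {C : ℝ} (hC0 : 0 ≤ C)
    (hC : Ex Q D η (fun ω => cn K D x j ω ^ 2) ≤ C ^ 2) :
    |Ex Q D η (NW th D p f P τ) - Ex Q D η (NW th D p 0 P τ)| ≤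
      C * (72 * (c⁻¹ * (1 + c⁻¹))) * ((2 : ℝ) ^ j / T) := by
  classical
  have hci : 0 < c⁻¹ := inv_pos.2 hth.c0
  have hT0 := T_pos hj
  have hy0 : 0 ≤ (2 : ℝ) ^ j / T := by positivity
  have hy1 : (2 : ℝ) ^ j / T ≤ 1 := by
    rw [div_le_one hT0]
    exact (pow_le_pow_right₀ (by norm_num) (Nat.le_succ j)).trans (two_pow_le hj)
  have hterm : ∀ ω, ∀ A ∈ (pcs ω D).filter P,
      |τ A * bw th D p f A - τ A * bw th D p 0 A| ≤
        72 * (c⁻¹ * (1 + c⁻¹)) * ((2 : ℝ) ^ j / T) := by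
    intro ω A hA
    obtain ⟨g1, g2⟩ := Finset.mem_filter.1 hA
    rw [← mul_sub, abs_mul]
    have g3 := bw_lip hth (wq_le h hth hc hj g1 (hP A g2).2.1)
    have g4 := h.mass_le hj g1 (hP A g2).2.1
    have g5 : ((2 : ℝ) ^ (j + 1) / T) ^ 2 ≤ 4 * ((2 : ℝ) ^ j / T) := by
      have e1 : (2 : ℝ) ^ (j + 1) / T = 2 * ((2 : ℝ) ^ j / T) := by rw [pow_succ]; ring
      rw [e1]
      nlinarith
    have g8 : 0 ≤ ((2 : ℝ) ^ (j + 1) / T) ^ 2 := by positivity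
    have g7 : |mass D p f A| ≤ 36 * ((2 : ℝ) ^ j / T) := by
      refine g4.trans ?_
      nlinarith
    calc |τ A| * |bw th D p f A - bw th D p 0 A| ≤
          1 * (2 * (c⁻¹ * (1 + c⁻¹)) * |mass D p f A|) :=
          mul_le_mul (hτ A) g3 (abs_nonneg _) zero_le_one
      _ = 2 * (c⁻¹ * (1 + c⁻¹)) * |mass D p f A| := one_mul _
      _ ≤ 2 * (c⁻¹ * (1 + c⁻¹)) * (36 * ((2 : ℝ) ^ j / T)) :=
          mul_le_mul_of_nonneg_left g7 (by positivity)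
      _ = _ := by ring
  have h3 : ∀ ω, |NW th D p f P τ ω - NW th D p 0 P τ ω| ≤
      72 * (c⁻¹ * (1 + c⁻¹)) * ((2 : ℝ) ^ j / T) * cn K D x j ω := by
    intro ω
    unfold NW
    rw [← Finset.sum_sub_distrib]
    refine (Finset.abs_sum_le_sum_abs _ _).trans ?_
    calc ∑ A ∈ (pcs ω D).filter P, |τ A * bw th D p f A - τ A * bw th D p 0 A|
        ≤ ∑ _A ∈ (pcs ω D).filter P, 72 * (c⁻¹ * (1 + c⁻¹)) * ((2 : ℝ) ^ j / T) :=
          Finset.sum_le_sum fun A hA => hterm ω A hA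
      _ = (((pcs ω D).filter P).card : ℝ) * (72 * (c⁻¹ * (1 + c⁻¹)) * ((2 : ℝ) ^ j / T)) := by
          rw [Finset.sum_const, nsmul_eq_mul]
      _ ≤ _ := by
          rw [mul_comm]
          exact mul_le_mul_of_nonneg_left (card_le_cn (D := D) hP ω) (by positivity)
  have h4 : Ex Q D η (cn K D x j) ≤ C :=
    (Ex_mono hQ fun S _ => le_abs_self _).trans (ex_le hQ hC0 hC)
  rw [← Ex_sub]
  calc |Ex Q D η (fun ω => NW th D p f P τ ω - NW th D p 0 P τ ω)|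
      ≤ Ex Q D η (fun ω => |NW th D p f P τ ω - NW th D p 0 P τ ω|) := abs_Ex_le hQ _
    _ ≤ Ex Q D η (fun ω => 72 * (c⁻¹ * (1 + c⁻¹)) * ((2 : ℝ) ^ j / T) * cn K D x j ω) :=
        Ex_mono hQ fun S _ => h3 _
    _ = 72 * (c⁻¹ * (1 + c⁻¹)) * ((2 : ℝ) ^ j / T) * Ex Q D η (cn K D x j) := Ex_mul_left _ _
    _ ≤ 72 * (c⁻¹ * (1 + c⁻¹)) * ((2 : ℝ) ^ j / T) * C :=
        mul_le_mul_of_nonneg_left h4 (by positivity)
    _ = _ := by ring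

/-- **One scale.** -/
theorem per_scaleQ (hQ : Kit Q) (hR : RSW Q) (hS : SRSW Q) {c : ℝ} (hc : 0 < c) (K : ℕ) :
    ∃ c1 C β : ℝ, 0 < c1 ∧ 18 * c⁻¹ * c1 ≤ 1 ∧ 0 < C ∧ 0 < β ∧ β ≤ 1 ∧
    ∀ (m T : ℤ) (D : Finset (ℤ × ℤ)) (η : Cfg) (p : ℤ × ℤ) (μ0 : ℝ) (th : Finset Ed → ℝ)
    (f : ℤ × ℤ → ℝ) (a : ℝ), Reg m D η → Vale.Agent.P167.N.H542.Q.Phs μ0 c D th → 16 * T ≤ m → Sc K m T D p f a c1 →
    ∀ B : ℝ, 0 ≤ B → Ex Q D η (fun ω => XR th D p f ω ^ 4) ≤ B ^ 4 → ∀ (j : ℕ), ∀ x ∈ sites D,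
    8 * ((K : ℤ) + 1) * 2 ^ j ≤ T → ∀ (P : Finset Ed → Prop) (τ : Finset Ed → ℝ),
    QS K j x P → (∀ A, |τ A| ≤ 1) →
    |Ex Q D η (fun ω => XR th D p f ω * NW th D p f P τ ω) -
      Ex Q D η (XR th D p f) * Ex Q D η (NW th D p 0 P τ)| ≤ C * B * ((2 : ℝ) ^ j / T) ^ β := by
  have hQ_pos := hQ.pos
  have hQ0 : 0 < Q := by linarith
  obtain ⟨c0, C0, β, hc0, hC0, hβ, hβ1, hcov⟩ := local_covQ hQ hR hS hc
  obtain ⟨C4, hC4, hcard⟩ := cn_sqQ hQ hR K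
  have hci : 0 < c⁻¹ := inv_pos.2 hc
  set k1 : ℝ := 2 * ((K : ℝ) + 1) with hk1
  have hk1p : 2 ≤ k1 := by
    have : (0 : ℝ) ≤ K := Nat.cast_nonneg _
    rw [hk1]; linarith
  have hmin : 18 * c⁻¹ * min c0 (min 1 (c / 18)) ≤ 1 := by
    calc 18 * c⁻¹ * min c0 (min 1 (c / 18)) ≤ 18 * c⁻¹ * (c / 18) :=
          mul_le_mul_of_nonneg_left ((min_le_right _ _).trans (min_le_right _ _)) (by positivity)
      _ = 1 := by field_simp
  refine ⟨min c0 (min 1 (c / 18)), C0 * (2 * c⁻¹ * C4) * (k1 + 4 * c0 * k1) +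
    C4 * (72 * (c⁻¹ * (1 + c⁻¹))), β / 2,
    by positivity, hmin, by positivity, by positivity, by linarith,
    fun m T D η p μ0 th f a hreg hth hTm h B hB hXB j x hx hj P τ hP hτ => ?_⟩
  have ha : 0 ≤ a := h.ha
  have hc1 : a * K ^ 2 * T ^ 2 ≤ c0 := h.hc.trans (min_le_left _ _)
  have hc2 : min c0 (min 1 (c / 18)) ≤ 1 := (min_le_right _ _).trans (min_le_left _ _)
  have hT0 := T_pos hj
  set L : ℤ := ((K : ℤ) + 1) * 2 ^ (j + 1) with hL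
  have hL1 : 1 ≤ L := by
    have h2j : (1 : ℤ) ≤ 2 ^ j := one_le_pow₀ (by norm_num)
    rw [hL, pow_succ]; nlinarith [h.geo.one_le]
  have hLT : 4 * L ≤ T := by
    rw [hL, pow_succ]; linarith
  have hLR : (L : ℝ) / T = k1 * ((2 : ℝ) ^ j / T) := by
    rw [hL, hk1]; push_cast; rw [pow_succ]; ring
  obtain ⟨R, hR1, hR2, hR3, hR4⟩ := exists_R hL1 hLT
  have hR0 : (0 : ℝ) ≤ R := by exact_mod_cast (by omega : (0 : ℤ) ≤ R)
  have hRq : a * K ^ 2 * R ^ 2 ≤ 4 * c0 * ((L : ℝ) / T) := by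
    calc a * K ^ 2 * R ^ 2 ≤ a * K ^ 2 * (4 * (L * T)) :=
          mul_le_mul_of_nonneg_left hR4 (by positivity)
      _ = 4 * (a * K ^ 2 * T ^ 2) * ((L : ℝ) / T) := by field_simp
      _ ≤ 4 * c0 * ((L : ℝ) / T) := by
          have : (0 : ℝ) ≤ (L : ℝ) / T := by rw [hLR]; positivity
          exact mul_le_mul_of_nonneg_right (by linarith) this
  have hRc : a * ((K : ℤ) : ℝ) ^ 2 * R ^ 2 ≤ c0 := by
    have hRT : (R : ℝ) ≤ T := by exact_mod_cast hR2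
    have h1 : (R : ℝ) ^ 2 ≤ (T : ℝ) ^ 2 := pow_le_pow_left₀ hR0 hRT 2
    push_cast
    calc a * (K : ℝ) ^ 2 * R ^ 2 ≤ a * (K : ℝ) ^ 2 * T ^ 2 :=
          mul_le_mul_of_nonneg_left h1 (by positivity)
      _ ≤ c0 := hc1
  have hcd := hcard m D η hreg x j (by
    have : T ≤ m := by
      have h1 : (0 : ℤ) < T := by exact_mod_cast hT0
      linarith
    linarith)
  have hN2 := NW_sq hQ0 (η := η) h hth hmin hj hP hτ hcd
  have h1 := hcov K m D η p μ0 th hreg h.geo hth f a h.hf h.htot x hx L R hL1 hR1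
    (by linarith) hRc (NW th D p f P τ) (NW_loc fun A hA => (hP A hA).1) B (2 * c⁻¹ * C4) hB
    (by positivity) hXB hN2
  push_cast at h1
  have hV : |Ex Q D η (XR th D p f)| ≤ B :=
    (abs_Ex_le hQ0 _).trans (ex_le hQ0 hB (sq_of_four hQ0 hXB))
  have hdiff := NW_diff hQ0 (η := η) h hth hmin hc2 hj hP hτ (by linarith) hcd
  have hy0 : 0 < (2 : ℝ) ^ j / T := by positivity
  have hy1 : (2 : ℝ) ^ j / T ≤ 1 := by
    rw [div_le_one hT0]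
    exact (pow_le_pow_right₀ (by norm_num) (Nat.le_succ j)).trans (two_pow_le hj)
  have hL1R : (0 : ℝ) ≤ L := by exact_mod_cast (by omega : (0 : ℤ) ≤ L)
  obtain ⟨h5, hpow⟩ := pow_bound (r := (L : ℝ) / R) hβ hβ1 (by linarith) hc0.le hy0 hy1 hLR
    (by positivity) hR3 hRq
  set y : ℝ := ((2 : ℝ) ^ j / T) ^ (β / 2) with hy
  calc |Ex Q D η (fun ω => XR th D p f ω * NW th D p f P τ ω) -
        Ex Q D η (XR th D p f) * Ex Q D η (NW th D p 0 P τ)|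
      = |(Ex Q D η (fun ω => XR th D p f ω * NW th D p f P τ ω) -
            Ex Q D η (XR th D p f) * Ex Q D η (NW th D p f P τ)) +
          Ex Q D η (XR th D p f) * (Ex Q D η (NW th D p f P τ) -
            Ex Q D η (NW th D p 0 P τ))| := by
        congr 1; ring
    _ ≤ |Ex Q D η (fun ω => XR th D p f ω * NW th D p f P τ ω) -
            Ex Q D η (XR th D p f) * Ex Q D η (NW th D p f P τ)| +
          |Ex Q D η (XR th D p f) * (Ex Q D η (NW th D p f P τ) -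
            Ex Q D η (NW th D p 0 P τ))| := abs_add_le _ _
    _ ≤ C0 * B * (2 * c⁻¹ * C4) * ((k1 + 4 * c0 * k1) * y) +
          B * (C4 * (72 * (c⁻¹ * (1 + c⁻¹))) * y) := by
        refine add_le_add (h1.trans ?_) ?_
        · exact mul_le_mul_of_nonneg_left h5 (by positivity)
        · rw [abs_mul]
          refine mul_le_mul hV (hdiff.trans ?_) (abs_nonneg _) hB
          exact mul_le_mul_of_nonneg_left hpow (by positivity)
    _ = _ := by ring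

end Vale.Agent.P167.N.H167.Q
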