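import Vale.Agent.P167.N.Kit
import Vale.Agent.P167.N.H167.Q.ScQ
import Vale.Agent.P167.N.H542.Q.Pc
import Vale.Agent.P167.H167.Q.HoQ

/-! generated from Vale.Agent.P167.H167.Q.HoQ (q < 1 port) -/

set_option autoImplicit false

namespace Vale.Agent.P167.N.H167.Q

open Vale.Agent.P167.H167.Q Vale.Agent.P167.H167

open Finset Vale.Agent.P167.FK Vale.Agent.P167.BR

open Vale.Agent.P167.FKA hiding gp

open Vale.Agent.P167.H519 (ind_le_of_imp)

open Vale.Agent.P167.H542.Q (XR wR wR' XTR Phs)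

open Vale.Agent.P167.H542.Q.PT (wR_lip wR_zero abs_wR_le)

variable {Q : ℝ} {D : Finset (ℤ × ℤ)} {η : Cfg} {p z z' : ℤ × ℤ} {th : Finset Ed → ℝ}
  {f : ℤ × ℤ → ℝ} {ω ω' : Cfg} {A : Finset Ed} {μ0 c : ℝ}

theorem XR_zero (hth : Vale.Agent.P167.N.H542.Q.Phs μ0 c D th) (ω : Cfg) : XR th D p 0 ω = 1 := by
  unfold XR
  exact Finset.prod_eq_one fun A _ => wq_zero hth A

/-- The difference as a sum over the scales. -/
theorem XTR_decomp {K : ℕ} {m T : ℤ} {a c1 : ℝ} (h : Sc K m T D p f a c1) (hth : Vale.Agent.P167.N.H542.Q.Phs μ0 c D th)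
    (hc : 18 * c⁻¹ * c1 ≤ 1) (hz : z ∈ sites D) (hz' : z' ∈ sites D) {J : ℕ}
    (hJ : ∀ j < J, 8 * ((K : ℤ) + 1) * 2 ^ j ≤ T) (hJm : (2 : ℤ) ^ J ≤ m) (ω : Cfg) :
    XTR th D p f z ω - XTR th D p f z' ω =
      ∑ j ∈ Finset.range J, (XR th D p f ω * NW th D p f (Q1 K z j) (sgm D p z z') ω +
        XR th D p f ω * NW th D p f (Q2 K z z' j) (sgm D p z z') ω) + Rw th D p f z z' J ω := by
  classical
  rw [XTR_sub, ← Finset.sum_filter_add_sum_filter_not (pcs ω D) (Small (2 ^ J))]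
  unfold Rw
  congr 1
  have h1 : ∑ A ∈ (pcs ω D).filter (Small (2 ^ J)), sgm D p z z' A * trw th D p f A (pcs ω D) =
      XR th D p f ω * ∑ A ∈ (pcs ω D).filter (Small (2 ^ J)),
        sgm D p z z' A * bw th D p f A := by
    rw [Finset.mul_sum]
    refine Finset.sum_congr rfl fun A hA => ?_
    obtain ⟨h2, h3⟩ := Finset.mem_filter.1 hA
    obtain ⟨h4, h5, h6⟩ := cls_spec h2 h3
    have h7 := wq_le h hth hc (hJ _ h4) h2 h5
    rw [trw_small h2 (by
      intro h0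
      rw [h0] at h7
      norm_num at h7)]
    ring
  have h2 : ∑ A ∈ (pcs ω D).filter (Small (2 ^ J)), sgm D p z z' A * bw th D p f A =
      ∑ j ∈ Finset.range J, ∑ A ∈ ((pcs ω D).filter (Small (2 ^ J))).filter (fun A => cls A = j),
        sgm D p z z' A * bw th D p f A := by
    rw [Finset.sum_fiberwise_of_maps_to]
    intro A hA
    obtain ⟨h2, h3⟩ := Finset.mem_filter.1 hA
    exact Finset.mem_range.2 (cls_spec h2 h3).1
  rw [h1, h2, Finset.mul_sum]
  refine Finset.sum_congr rfl fun j hj => ?_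
  rw [sum_scaleQ h.geo hz hz' hJm (Finset.mem_range.1 hj), mul_add]

theorem momQ_zero (hQ : 0 < Q) (hth : Vale.Agent.P167.N.H542.Q.Phs μ0 c D th) : MomQ Q D η th p 0 1 := by
  classical
  refine ⟨fun _ => 1, fun ω => ?_, fun ω A hA => ?_, by simp [Ex_const hQ]⟩
  · rw [XR_zero hth]; simp
  · have h1 : ∏ B ∈ (pcs ω D).erase A, wR (th B) (mass D p 0 B) = 1 :=
      Finset.prod_eq_one fun B _ => wq_zero hth B
    rw [h1]; simp

/-- The large part is small. -/
theorem Rw_le (hQ : 0 < Q) {K : ℕ} {m : ℤ} (hG : Geo K m D p) (hth : Vale.Agent.P167.N.H542.Q.Phs μ0 c D th)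
    (hz : z ∈ sites D) (hz' : z' ∈ sites D) {r : ℤ} (hr1 : 1 ≤ r) (hrm : r ≤ m)
    (hzz : nm (z - z') ≤ r) {J : ℕ} (hJ1 : 1 ≤ J) (hJ : K * r < 2 ^ (J - 1)) {B C4 P : ℝ}
    (hB : 0 ≤ B) (hC4 : 0 ≤ C4) (hP : 0 ≤ P) (hM : MomQ Q D η th p f B)
    (hcard : Ex Q D η (fun ω => ((Bg D z (K * r) (2 ^ J) ω).card : ℝ) ^ 4) ≤ C4 ^ 4)
    (harm : Ex Q D η ((AE D z (K * r) (2 ^ (J - 1))).indicator 1) ≤ P) :
    |Ex Q D η (Rw th D p f z z' J)| ≤ c⁻¹ * (C4 * B * Real.sqrt P) := by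
  classical
  have hci : 0 < c⁻¹ := inv_pos.2 hth.c0
  obtain ⟨M, hM1, hM2, hM4⟩ := hM
  set N : Cfg → ℝ := fun ω => ((Bg D z (K * r) (2 ^ J) ω).card : ℝ) with hN
  set G := AE D z (K * r) (2 ^ (J - 1)) with hGd
  have hG0 : ∀ ω, 0 ≤ G.indicator (1 : Cfg → ℝ) ω := fun ω =>
    Set.indicator_nonneg (fun _ _ => zero_le_one) ω
  have hpt : ∀ ω, |Rw th D p f z z' J ω| ≤ c⁻¹ * |N ω * M ω * G.indicator 1 ω| := by
    intro ω
    have hM0 : 0 ≤ M ω := (abs_nonneg _).trans (hM1 ω)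
    unfold Rw
    refine (Finset.abs_sum_le_sum_abs _ _).trans ?_
    have hterm : ∀ A ∈ (pcs ω D).filter (fun A => ¬ Small (2 ^ J) A),
        |sgm D p z z' A * trw th D p f A (pcs ω D)| ≤
          if A ∈ Bg D z (K * r) (2 ^ J) ω then c⁻¹ * (M ω * G.indicator 1 ω) else 0 := by
      intro A hA
      obtain ⟨h1, h2⟩ := Finset.mem_filter.1 hA
      by_cases hne : sgm D p z z' A = 0
      · rw [hne, zero_mul, abs_zero]
        split_ifs
        · have := hG0 ω
          positivity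
        · exact le_rfl
      · obtain ⟨e, he, h3⟩ := hG.sgm_visit hr1 hrm hz hz' hzz hne
        have hmem : A ∈ Bg D z (K * r) (2 ^ J) ω := by
          unfold Bg
          exact Finset.mem_filter.2 ⟨h1, ⟨e, he, h3⟩, h2⟩
        obtain ⟨b, hb, h4⟩ := exists_far_head h2 z
        have h5 : (2 : ℤ) ^ (J - 1) ≤ nm (hdv b - z) := by
          have h6 : ((2 : ℝ) ^ J) / 2 = 2 ^ (J - 1) := by
            obtain ⟨i, rfl⟩ : ∃ i, J = i + 1 := ⟨J - 1, by omega⟩
            rw [Nat.add_sub_cancel, pow_succ]; field_simp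
          rw [h6] at h4
          exact_mod_cast h4
        have hω : ω ∈ G := arm_of_pc h1 hJ he hb h3 h5
        have hω1 : G.indicator (1 : Cfg → ℝ) ω = 1 := Set.indicator_of_mem hω _
        rw [if_pos hmem, hω1, mul_one, abs_mul]
        have h6 := abs_sgm_le D p z z' A
        have h7 : |trw th D p f A (pcs ω D)| ≤ c⁻¹ * M ω := by
          unfold trw
          rw [abs_mul]
          exact mul_le_mul (abs_wR'_le hth.c0 (hth.cs A) _) (hM2 ω A h1) (abs_nonneg _) hci.le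
        calc |sgm D p z z' A| * |trw th D p f A (pcs ω D)| ≤ 1 * (c⁻¹ * M ω) :=
              mul_le_mul h6 h7 (abs_nonneg _) zero_le_one
          _ = _ := one_mul _
    refine (Finset.sum_le_sum hterm).trans ?_
    rw [← Finset.sum_filter, Finset.sum_const, nsmul_eq_mul]
    have h1 : ((((pcs ω D).filter (fun A => ¬ Small (2 ^ J) A)).filter
        (fun A => A ∈ Bg D z (K * r) (2 ^ J) ω)).card : ℝ) ≤ N ω := by
      have : ((pcs ω D).filter (fun A => ¬ Small (2 ^ J) A)).filter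
        (fun A => A ∈ Bg D z (K * r) (2 ^ J) ω) ⊆ Bg D z (K * r) (2 ^ J) ω :=
        fun A hA => (Finset.mem_filter.1 hA).2
      exact Nat.cast_le.2 (Finset.card_le_card this)
    have h2 : 0 ≤ c⁻¹ * (M ω * G.indicator 1 ω) := by
      have := hG0 ω
      positivity
    have h3 : 0 ≤ N ω * M ω * G.indicator 1 ω :=
      mul_nonneg (mul_nonneg (Nat.cast_nonneg _) hM0) (hG0 ω)
    rw [abs_of_nonneg h3]
    calc _ ≤ N ω * (c⁻¹ * (M ω * G.indicator 1 ω)) := mul_le_mul_of_nonneg_right h1 h2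
      _ = _ := by ring
  have h2 : Ex Q D η (fun ω => (N ω * M ω) ^ 2) ≤ (C4 * B) ^ 2 := by
    have h3 := cs_ex (D := D) (η := η) hQ (X := fun ω => N ω ^ 2) (Y := fun ω => M ω ^ 2)
      (a := C4 ^ 2) (b := B ^ 2) (by positivity) (by positivity) (by
        calc Ex Q D η (fun ω => (N ω ^ 2) ^ 2) = Ex Q D η (fun ω => N ω ^ 4) :=
              Ex_congr fun S _ => by ring
          _ ≤ C4 ^ 4 := hcard
          _ = _ := by ring) (by
        calc Ex Q D η (fun ω => (M ω ^ 2) ^ 2) = Ex Q D η (fun ω => M ω ^ 4) :=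
              Ex_congr fun S _ => by ring
          _ ≤ B ^ 4 := hM4
          _ = _ := by ring)
    calc Ex Q D η (fun ω => (N ω * M ω) ^ 2) ≤ Ex Q D η (fun ω => |N ω ^ 2 * M ω ^ 2|) :=
          Ex_mono hQ fun S _ => by
            rw [mul_pow]
            exact le_abs_self _
      _ ≤ C4 ^ 2 * B ^ 2 := h3
      _ = _ := by ring
  have hind : ∀ ω : Cfg, (G.indicator (1 : Cfg → ℝ) ω) ^ 2 = G.indicator 1 ω := fun ω => by
    by_cases h : ω ∈ G
    · simp [Set.indicator_of_mem h]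
    · simp [Set.indicator_of_notMem h]
  have h3 := cs_ex (D := D) (η := η) hQ (X := fun ω => N ω * M ω) (Y := G.indicator 1)
    (a := C4 * B) (b := Real.sqrt P) (by positivity) (Real.sqrt_nonneg _) h2 (by
      rw [Real.sq_sqrt hP]
      calc Ex Q D η (fun ω => (G.indicator (1 : Cfg → ℝ) ω) ^ 2) = Ex Q D η (G.indicator 1) :=
            Ex_congr fun S _ => hind _
        _ ≤ P := harm)
  calc |Ex Q D η (Rw th D p f z z' J)| ≤ Ex Q D η (fun ω => |Rw th D p f z z' J ω|) :=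
        abs_Ex_le hQ _
    _ ≤ Ex Q D η (fun ω => c⁻¹ * |N ω * M ω * G.indicator 1 ω|) := Ex_mono hQ fun S _ => hpt _
    _ = c⁻¹ * Ex Q D η (fun ω => |N ω * M ω * G.indicator 1 ω|) := Ex_mul_left _ _
    _ ≤ c⁻¹ * (C4 * B * Real.sqrt P) := mul_le_mul_of_nonneg_left h3 hci.le

/-- The difference of the field as a sum over the scales. -/
theorem WQ_sub {K : ℕ} {m T : ℤ} {a c1 : ℝ} (h : Sc K m T D p f a c1) (hth : Vale.Agent.P167.N.H542.Q.Phs μ0 c D th)
    (hc : 18 * c⁻¹ * c1 ≤ 1) (hz : z ∈ sites D) (hz' : z' ∈ sites D) {J : ℕ}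
    (hJ : ∀ j < J, 8 * ((K : ℤ) + 1) * 2 ^ j ≤ T) (hJm : (2 : ℤ) ^ J ≤ m) :
    WQ Q D η th p f z - WQ Q D η th p f z' =
      ∑ j ∈ Finset.range J,
        ((Ex Q D η (fun ω => XR th D p f ω * NW th D p f (Q1 K z j) (sgm D p z z') ω) -
          Ex Q D η (XR th D p f) * Ex Q D η (NW th D p 0 (Q1 K z j) (sgm D p z z'))) +
        (Ex Q D η (fun ω => XR th D p f ω * NW th D p f (Q2 K z z' j) (sgm D p z z') ω) -
          Ex Q D η (XR th D p f) * Ex Q D η (NW th D p 0 (Q2 K z z' j) (sgm D p z z')))) +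
      (Ex Q D η (Rw th D p f z z' J) - Ex Q D η (XR th D p f) *
        Ex Q D η (Rw th D p 0 z z' J)) := by
  have h0 : Sc K m T D p 0 0 c1 := ⟨h.geo, h.hTm, fun z => by simp, by unfold tot; simp, by
    have h1 := h.ha
    have h2 : 0 ≤ a * K ^ 2 * T ^ 2 := by positivity
    linarith [h.hc]⟩
  have key : ∀ (g : ℤ × ℤ → ℝ) (b : ℝ), Sc K m T D p g b c1 →
      Ex Q D η (XTR th D p g z) - Ex Q D η (XTR th D p g z') =
      ∑ j ∈ Finset.range J,
        (Ex Q D η (fun ω => XR th D p g ω * NW th D p g (Q1 K z j) (sgm D p z z') ω) +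
        Ex Q D η (fun ω => XR th D p g ω * NW th D p g (Q2 K z z' j) (sgm D p z z') ω)) +
      Ex Q D η (Rw th D p g z z' J) := by
    intro g b hg
    rw [← Ex_sub]
    have e1 : Ex Q D η (fun ω => XTR th D p g z ω - XTR th D p g z' ω) =
        Ex Q D η (fun ω => ∑ j ∈ Finset.range J,
        (XR th D p g ω * NW th D p g (Q1 K z j) (sgm D p z z') ω +
        XR th D p g ω * NW th D p g (Q2 K z z' j) (sgm D p z z') ω) + Rw th D p g z z' J ω) :=
      Ex_congr fun S _ => XTR_decomp hg hth hc hz hz' hJ hJm _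
    rw [e1, Ex_add, Ex_sum]
    congr 1
    exact Finset.sum_congr rfl fun j _ => Ex_add _ _
  have k1 := key f a h
  have k2 := key 0 0 h0
  simp only [XR_zero hth, one_mul] at k2
  unfold WQ
  have e2 : (Ex Q D η (XTR th D p f z) - Ex Q D η (XR th D p f) * Ex Q D η (XTR th D p 0 z)) -
      (Ex Q D η (XTR th D p f z') - Ex Q D η (XR th D p f) * Ex Q D η (XTR th D p 0 z')) =
      (Ex Q D η (XTR th D p f z) - Ex Q D η (XTR th D p f z')) - Ex Q D η (XR th D p f) *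
        (Ex Q D η (XTR th D p 0 z) - Ex Q D η (XTR th D p 0 z')) := by ring
  rw [e2, k1, k2, mul_add, Finset.mul_sum]
  rw [show ∀ a b c d : ℝ, a + b - (c + d) = (a - c) + (b - d) by intros; ring,
    ← Finset.sum_sub_distrib]
  congr 1
  refine Finset.sum_congr rfl fun j _ => ?_
  ring

end Vale.Agent.P167.N.H167.Q
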