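import Vale.Agent.P167.N.Kit
import Vale.Agent.P167.N.H167.Q.Arm
import Vale.Agent.P167.N.H167.Q.HoQ
import Vale.Agent.P167.N.H167.Q.ScQ
import Vale.Agent.P167.N.H542.Q.Pc
import Vale.Agent.P167.H167.Q.EqQ

/-! generated from Vale.Agent.P167.H167.Q.EqQ (q < 1 port) -/

set_option autoImplicit false

namespace Vale.Agent.P167.N.H167.Q

open Vale.Agent.P167.H167.Q Vale.Agent.P167.H167

open Finset Vale.Agent.P167.FK Vale.Agent.P167.BR

open Vale.Agent.P167.FKA hiding gp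

open Vale.Agent.P167.H192.Q (SRSW)

open Vale.Agent.P167.H542.Q (XR wR wR' XTR Phs)

variable {Q : ℝ}

/-- **Uniform Hoelder continuity of the derivative field.** -/
theorem equiQ (hQ : Kit Q) (hR : RSW Q) (hS : SRSW Q) {c : ℝ} (hc : 0 < c) (K : ℕ) :
    ∃ c1 δ C γ : ℝ, 0 < c1 ∧ 0 < δ ∧ 0 < C ∧ 0 < γ ∧
    ∀ (m T : ℤ) (D : Finset (ℤ × ℤ)) (η : Cfg) (p : ℤ × ℤ) (μ0 : ℝ) (th : Finset Ed → ℝ),
    Reg m D η → Geo K m D p → Vale.Agent.P167.N.H542.Q.Phs μ0 c D th → 16 * T ≤ m →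
    ∀ (f : ℤ × ℤ → ℝ) (a : ℝ), (∀ z, |f z| ≤ a) → tot D f = 0 → a * K ^ 2 * T ^ 2 ≤ c1 →
    ∀ B : ℝ, 0 ≤ B → MomQ Q D η th p f B → ∀ z ∈ sites D, ∀ z' ∈ sites D,
    (nm (z - z') : ℝ) ≤ δ * T →
    |WQ Q D η th p f z - WQ Q D η th p f z'| ≤ C * B * ((nm (z - z') : ℝ) / T) ^ γ := by
  have hQ_pos := hQ.pos
  have hQ0 : 0 < Q := by linarith
  have hci : 0 < c⁻¹ := inv_pos.2 hc
  obtain ⟨c0, C, β, hc0, hc18, hC, hβ, hβ1, hps⟩ := per_scaleQ hQ hR hS hc K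
  obtain ⟨Ca, α, hCa, hα, hα1, harm⟩ := arm_all hQ hR hS
  obtain ⟨C4, hC4, hcard⟩ := card_fourQ hQ hR 1
  have h2β : (0 : ℝ) < 2 ^ β - 1 := by
    have := Real.one_lt_rpow (by norm_num : (1 : ℝ) < 2) hβ
    linarith
  refine ⟨c0, 1 / (64 * ((K : ℝ) + 1) ^ 2),
    4 * C * (1 / (2 ^ β - 1)) + 8 * (c⁻¹ / 2 * C4) * Real.sqrt Ca * ((K : ℝ) + 1),
    min (β / 2) (α / 4), hc0, by positivity, by positivity, by positivity,
    fun m T D η p μ0 th hreg hG hth hTm f a hf htot hcc B hB hM z hz z' hz' hzz => ?_⟩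
  have hKpos : (0 : ℝ) ≤ K := Nat.cast_nonneg _
  have hzz0 : (0 : ℝ) ≤ nm (z - z') := by exact_mod_cast H45.nm_nonneg _
  have hT0' : (0 : ℝ) ≤ T := by
    have h1 : (0 : ℝ) < 1 / (64 * ((K : ℝ) + 1) ^ 2) := by positivity
    have h2 : 0 ≤ 1 / (64 * ((K : ℝ) + 1) ^ 2) * T := hzz0.trans hzz
    exact nonneg_of_mul_nonneg_right h2 h1
  have hT0z : 0 ≤ T := by exact_mod_cast hT0'
  have h : Sc K m T D p f a c0 := ⟨hG, by linarith, hf, htot, hcc⟩
  obtain ⟨r, hr⟩ : ∃ r : ℤ, r = nm (z - z') := ⟨_, rfl⟩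
  rw [← hr] at hzz ⊢
  by_cases hr0 : r ≤ 0
  · -- `z = z'`
    have h1 : z = z' := by
      have h2 : nm (z - z') ≤ 0 := by rw [← hr]; exact hr0
      rw [H45.nm_le] at h2
      obtain ⟨h3, h4⟩ := h2
      have h5 := abs_nonpos_iff.1 h3
      have h6 := abs_nonpos_iff.1 h4
      rw [Prod.fst_sub, sub_eq_zero] at h5
      rw [Prod.snd_sub, sub_eq_zero] at h6
      exact Prod.ext h5 h6
    have hr00 : r = 0 := by rw [hr, h1, sub_self]; rfl
    rw [h1, sub_self, abs_zero, hr00]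
    have : (0 : ℝ) ≤ (((0 : ℤ) : ℝ) / T) ^ (min (β / 2) (α / 4)) := by
      rw [Int.cast_zero, zero_div]
      exact Real.rpow_nonneg le_rfl _
    positivity
  · push Not at hr0
    have hr1 : 1 ≤ r := hr0
    obtain ⟨J, hJ1, hJ2, hJ3, hJ4, hJ5, hJ6⟩ := choose_J hr1 hzz
    have hrR : (1 : ℝ) ≤ r := by exact_mod_cast hr1
    have hK1 : (1 : ℝ) ≤ K := by exact_mod_cast hG.one_le
    have hTR : (0 : ℝ) < T := by
      have h1 : (0 : ℤ) < T := lt_of_lt_of_le (by positivity) hJ3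
      exact_mod_cast h1
    have hδ1 : 1 / (64 * ((K : ℝ) + 1) ^ 2) ≤ 1 := by
      rw [div_le_one (by positivity)]; nlinarith
    have hrT : (r : ℝ) ≤ T := by nlinarith
    have hrT' : r ≤ T := by exact_mod_cast hrT
    have hq : 0 < (r : ℝ) / T := by positivity
    have hq1 : (r : ℝ) / T ≤ 1 := by rw [div_le_one hTR]; exact hrT
    have hXB := hM.xr hQ0
    have hV : |Ex Q D η (XR th D p f)| ≤ B :=
      (abs_Ex_le hQ0 _).trans (ex_le hQ0 hB (sq_of_four hQ0 hXB))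
    -- the sum over the scales
    have hsum : |∑ j ∈ Finset.range J,
        ((Ex Q D η (fun ω => XR th D p f ω * NW th D p f (Q1 K z j) (sgm D p z z') ω) -
          Ex Q D η (XR th D p f) * Ex Q D η (NW th D p 0 (Q1 K z j) (sgm D p z z'))) +
        (Ex Q D η (fun ω => XR th D p f ω * NW th D p f (Q2 K z z' j) (sgm D p z z') ω) -
          Ex Q D η (XR th D p f) * Ex Q D η (NW th D p 0 (Q2 K z z' j) (sgm D p z z'))))| ≤
        2 * (C * B) * (1 / (2 ^ β - 1) * (2 * Real.sqrt ((r : ℝ) / T)) ^ β) := by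
      refine (Finset.abs_sum_le_sum_abs _ _).trans ?_
      calc _ ≤ ∑ j ∈ Finset.range J, 2 * (C * B) * ((2 : ℝ) ^ j / T) ^ β := by
            refine Finset.sum_le_sum fun j hj => ?_
            have hj' := hJ2 j (Finset.mem_range.1 hj)
            have b1 := hps m T D η p μ0 th f a hreg hth hTm h B hB hXB j z hz hj' _ _
              (qs1 K z j) (abs_sgm_le D p z z')
            have b2 := hps m T D η p μ0 th f a hreg hth hTm h B hB hXB j z' hz' hj' _ _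
              (qs2 K z z' j) (abs_sgm_le D p z z')
            refine (abs_add_le _ _).trans ?_
            linarith
        _ = 2 * (C * B) * ∑ j ∈ Finset.range J, ((2 : ℝ) ^ j / T) ^ β := by rw [Finset.mul_sum]
        _ ≤ 2 * (C * B) * (1 / (2 ^ β - 1) * ((2 : ℝ) ^ J / T) ^ β) :=
            mul_le_mul_of_nonneg_left (geom_rpow hβ hTR J) (by positivity)
        _ ≤ _ := by
            refine mul_le_mul_of_nonneg_left (mul_le_mul_of_nonneg_left ?_ (by positivity))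
              (by positivity)
            exact Real.rpow_le_rpow (by positivity) hJ5 hβ.le
    -- the large part
    have hKr1 : 1 ≤ (K : ℤ) * r := by
      have : (1 : ℤ) ≤ K := hG.one_le
      nlinarith
    have hJm : (2 : ℤ) ^ J ≤ m := by linarith
    have hJ1m : (2 : ℤ) ^ (J - 1) ≤ m :=
      (pow_le_pow_right₀ (by norm_num) (Nat.sub_le J 1)).trans hJm
    have hcd := (hcard m D η hreg z ((K : ℤ) * r) (2 ^ J) (one_le_pow₀ (by norm_num))
      (by linarith) (by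
      have h1 : ((K : ℤ) * r : ℤ) ≤ 2 ^ J :=
        hJ4.le.trans (pow_le_pow_right₀ (by norm_num) (Nat.sub_le J 1))
      have h2 : (((K : ℤ) * r : ℤ) : ℝ) ≤ 2 ^ J := by exact_mod_cast h1
      rw [Nat.cast_one, one_mul]
      exact h2) (by
      have h1 : (2 : ℝ) ^ J ≤ T := by exact_mod_cast hJ3
      have h2 : (16 : ℝ) * T ≤ m := by exact_mod_cast hTm
      rw [Nat.cast_one]
      linarith)).1
    have h2J : (1 : ℤ) ≤ 2 ^ (J - 1) := one_le_pow₀ (by norm_num)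
    have hP0 : 0 ≤ Ca * (2 * K * Real.sqrt ((r : ℝ) / T)) ^ α := by positivity
    have hKr0 : (0 : ℝ) ≤ (((K : ℤ) * r : ℤ) : ℝ) / ((2 ^ (J - 1) : ℤ) : ℝ) := by
      have h1 : (0 : ℝ) ≤ (((K : ℤ) * r : ℤ) : ℝ) := by exact_mod_cast (by linarith : (0 : ℤ) ≤ K * r)
      have h2 : (0 : ℝ) ≤ ((2 ^ (J - 1) : ℤ) : ℝ) := by
        exact_mod_cast (by linarith : (0 : ℤ) ≤ 2 ^ (J - 1))
      positivity
    have harm' : Ex Q D η ((AE D z ((K : ℤ) * r) (2 ^ (J - 1))).indicator 1) ≤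
        Ca * (2 * K * Real.sqrt ((r : ℝ) / T)) ^ α := by
      refine (harm m D η hreg z hz _ _ hKr1 h2J hJ1m).trans ?_
      exact mul_le_mul_of_nonneg_left (Real.rpow_le_rpow hKr0 hJ6 hα.le) hCa.le
    have hrm : r ≤ m := by linarith
    have l1 := Rw_le hQ0 hG hth hz hz' hr1 hrm hr.ge hJ1 hJ4 hB (by linarith : (0 : ℝ) ≤ C4) hP0 hM
      hcd harm'
    have l2 := Rw_le hQ0 hG hth hz hz' hr1 hrm hr.ge hJ1 hJ4 zero_le_one
      (by linarith : (0 : ℝ) ≤ C4) hP0 (momQ_zero hQ0 hth) hcd harm'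
    have hL : |Ex Q D η (Rw th D p f z z' J) - Ex Q D η (XR th D p f) *
        Ex Q D η (Rw th D p 0 z z' J)| ≤
        4 * (c⁻¹ / 2 * C4 * B *
          Real.sqrt (Ca * (2 * ((K : ℝ) + 1) * Real.sqrt ((r : ℝ) / T)) ^ α)) := by
      have hs : Real.sqrt (Ca * (2 * K * Real.sqrt ((r : ℝ) / T)) ^ α) ≤
          Real.sqrt (Ca * (2 * ((K : ℝ) + 1) * Real.sqrt ((r : ℝ) / T)) ^ α) := by
        refine Real.sqrt_le_sqrt (mul_le_mul_of_nonneg_left ?_ hCa.le)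
        refine Real.rpow_le_rpow (by positivity) ?_ hα.le
        refine mul_le_mul_of_nonneg_right (by linarith) (Real.sqrt_nonneg _)
      have l3 : |Ex Q D η (XR th D p f) * Ex Q D η (Rw th D p 0 z z' J)| ≤
          B * (c⁻¹ * (C4 * 1 * Real.sqrt (Ca * (2 * K * Real.sqrt ((r : ℝ) / T)) ^ α))) := by
        rw [abs_mul]
        exact mul_le_mul hV l2 (abs_nonneg _) hB
      have l4 : c⁻¹ * (C4 * B * Real.sqrt (Ca * (2 * K * Real.sqrt ((r : ℝ) / T)) ^ α)) ≤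
          c⁻¹ * (C4 * B * Real.sqrt (Ca * (2 * ((K : ℝ) + 1) * Real.sqrt ((r : ℝ) / T)) ^ α)) :=
        mul_le_mul_of_nonneg_left (mul_le_mul_of_nonneg_left hs (by positivity)) hci.le
      refine (abs_sub _ _).trans ?_
      linarith
    rw [WQ_sub h hth hc18 hz hz' hJ2 hJm]
    refine (abs_add_le _ _).trans ?_
    exact final_bound hq hq1 hβ1 hα1 (min_le_left _ _) (min_le_right _ _) hC.le
      (by positivity) (by positivity) hCa.le (by linarith) hB hsum hL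

end Vale.Agent.P167.N.H167.Q
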