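import Vale.Agent.P167.N.Kit
import Vale.Agent.P167.N.H167.Q.EqQ
import Vale.Agent.P167.N.H542.Q.Fam
import Vale.Agent.P167.N.H542.Q.FamB
import Vale.Agent.P167.N.H542.Q.M2
import Vale.Agent.P167.N.H542.Q.Pc
import Vale.Agent.P167.H167.Q.EqF

/-! generated from Vale.Agent.P167.H167.Q.EqF (q < 1 port) -/

set_option autoImplicit false

namespace Vale.Agent.P167.N.H167.Q

open Vale.Agent.P167.H167.Q Vale.Agent.P167.H167

open Finset Filter Vale.Agent.P167.FK Vale.Agent.P167.BR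

open Vale.Agent.P167.FKA hiding gp

open Vale.Agent.P167.E6 (IsPolygon Encloses)

open Vale.Agent.P167.H718 (Dob Ex_eq)

open Vale.Agent.P167.H192.Q (SRSW)

open Vale.Agent.P167.H542 (Fc Fc_bd massC_ofReal)

open Vale.Agent.P167.H542.Q (XR wR wR' wC XTR Phs BD Bas bas_poly cB cB_pos phs_thB thB maj_datQ
  wC_ofReal VQ_ofReal)

open Vale.Agent.P167.H436 (geo_dat)

variable {Q : ℝ} {D : Finset (ℤ × ℤ)} {η η' : Cfg} {p : ℤ × ℤ} {th : Finset Ed → ℝ}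
  {f : ℤ × ℤ → ℝ}

/-- Dominated moments. -/
theorem momQ_dat {m : ℝ} {c : ℝ} (hQ1 : Kit Q) (hRSW : RSW Q) (hm0 : 0 ≤ m)
    (hm1 : Ang m) (S : CA.Dat) {f : ℂ → ℝ} (hf : S.FF f) :
    ∃ B : ℝ, 0 ≤ B ∧ ∀ᶠ n : ℕ in atTop, ∀ η : Cfg, Good η → ∀ p, Bas (S.D n) p →
      ∀ th, Vale.Agent.P167.N.H542.Q.Phs m c (S.D n) th → MomQ Q (S.D n) η th p (CA.cms f (1 / n)) B := by
  have hQ1_pos := hQ1.pos
  have hm1_lt := hm1.lt
  classical
  have hQ0 : 0 < Q := by linarith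
  obtain ⟨κ, M, R, K, hκ, hM, hR, h1, h2⟩ := Vale.Agent.P167.N.H542.Q.maj_datQ c hQ1 hRSW hm0 hm1 S f f hf hf 1
  obtain ⟨C, hC, h3⟩ := h2 4 (by norm_num)
  refine ⟨16 * C + 1, by linarith, ?_⟩
  filter_upwards [h1, h3] with n h4 h5 η hη p hp th hth
  have hF : Fc f f n 1 0 = fun z => (CA.cms f (1 / n) z : ℂ) := by
    funext z
    unfold Fc
    simp
  have hw : ∀ A, ‖wC (th A) (H542.massC (S.D n) p (Fc f f n 1 0) A)‖ =
      |wR (th A) (mass (S.D n) p (CA.cms f (1 / n)) A)| := by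
    intro A
    rw [hF, massC_ofReal, wC_ofReal, Complex.norm_real, Real.norm_eq_abs]
  set Y : Cfg → ℝ := H542.Q.Ym m (K n) (S.D n) M (κ * n) (R * n) (Fc f f n 1 0) with hY
  have h6 := fun ω => h4 p hp th hth 1 (by simp) 0 (by simp) ω
  have hXR : ∀ ω, |XR th (S.D n) p (CA.cms f (1 / n)) ω| ≤ Y ω := fun ω => by
    have h7 := h6 ω (pcs ω (S.D n)) (Finset.Subset.refl _)
    rw [Finset.sdiff_self, Finset.card_empty, pow_zero, one_mul] at h7
    unfold XR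
    rw [Finset.abs_prod]
    simpa only [hw] using h7
  have hY0 : ∀ ω, 0 ≤ Y ω := fun ω => (abs_nonneg _).trans (hXR ω)
  refine ⟨fun ω => 2 * Y ω, fun ω => (hXR ω).trans (by linarith [hY0 ω]), fun ω A hA => ?_, ?_⟩
  · have h7 := h6 ω ((pcs ω (S.D n)).erase A) (Finset.erase_subset _ _)
    have h8 : (pcs ω (S.D n)) \ ((pcs ω (S.D n)).erase A) = {A} := by
      rw [Finset.sdiff_erase_self hA]
    rw [h8, Finset.card_singleton, pow_one] at h7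
    rw [Finset.abs_prod]
    simpa only [hw] using h7
  · have h9 := h5 η hη 1 (by simp) 0 (by simp)
    have h10 : Ex Q (S.D n) η (fun ω => (2 * Y ω) ^ 4) ≤ 16 * C := by
      calc Ex Q (S.D n) η (fun ω => (2 * Y ω) ^ 4)
          = Ex Q (S.D n) η (fun ω => 16 * (Y ω ^ (4 : ℝ))) := Ex_congr fun S' _ => by
            have e : Y (cf (S.D n) η S') ^ (4 : ℝ) = Y (cf (S.D n) η S') ^ (4 : ℕ) := by
              rw [← Real.rpow_natCast]
              norm_num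
            rw [e]
            ring
        _ = 16 * Ex Q (S.D n) η (fun ω => Y ω ^ (4 : ℝ)) := Ex_mul_left _ _
        _ ≤ 16 * C := mul_le_mul_of_nonneg_left h9 (by norm_num)
    refine h10.trans ?_
    calc 16 * C ≤ (16 * C + 1) ^ 1 := by rw [pow_one]; linarith
      _ ≤ (16 * C + 1) ^ 4 := pow_le_pow_right₀ (by linarith) (by norm_num)

/-- **[Q-EQUI]**: the field `EQ` for the Dobrushin families. -/
theorem famB_EQ {θ β : ℝ} (h0 : 0 < θ) (h1 : Ang θ)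
    (hβ : Real.cos (θ / 2 + β) = Real.sin θ) (hR : RSW (2 * Real.cos θ))
    (hS : SRSW (2 * Real.cos θ)) {S : CA.Dat} (X : BD S θ β) (hp : ∀ᶠ n in X.L, X.q n 0 = S.b n)
    (hreg : ∃ c0 : ℝ, 0 < c0 ∧ ∀ᶠ n in X.L, ∃ η₁ : Cfg, Dob η₁ (S.D n) (X.q n) (X.k n) ∧
      Reg ⌊c0 * (n : ℝ)⌋ (S.D n) η₁) : (Vale.Agent.P167.N.H542.Q.BD.famB X h0 h1 hβ).EQ := by
  have h1_lt := h1.lt
  have hQ1 : Kit (2 * Real.cos θ) := h1.kit
  have hQ0 : 0 < 2 * Real.cos θ := h1.kit.pos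
  obtain ⟨c, δ, C, γ, hc, hδ, hC, hγ, heq⟩ := equiQ hQ1 hR hS (Vale.Agent.P167.N.H542.Q.cB_pos h0 h1) 2
  obtain ⟨c0, hc0, hreg⟩ := hreg
  intro f hf
  obtain ⟨Cf, hCf, hf1⟩ := exists_sup hf.1
  obtain ⟨B, hBp, hB⟩ := momQ_dat (c := cB θ) hQ1 hR h0.le h1 S hf
  obtain ⟨J, hJ⟩ := chain_dat S
  -- the scale
  set c' : ℝ := min c0 (1 / 16) with hc'
  have hc'0 : 0 < c' := by positivity
  have hc'1 : c' ≤ 1 / 16 := min_le_right _ _
  have hc'2 : c' ≤ c0 := min_le_left _ _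
  set ε : ℝ := min (c' / 32) (c / (4 * Cf)) with hε
  have hε0 : 0 < ε := by positivity
  have hε1 : 32 * ε ≤ c' := by
    have : ε ≤ c' / 32 := min_le_left _ _
    linarith
  have hε2 : 4 * Cf * ε ≤ c := by
    have h1 : ε ≤ c / (4 * Cf) := min_le_right _ _
    rw [le_div_iff₀ (by positivity)] at h1
    linarith
  set k : ℕ := ⌈4 / (δ * ε)⌉₊ with hk
  have hk1 : 4 / (δ * ε) ≤ k := Nat.le_ceil _
  set M0 : ℝ := C * B * δ ^ γ with hM0
  have hM0p : 0 ≤ M0 := by positivity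
  refine ⟨C * B * (2 / ε) ^ γ + J * (k * M0) * (2 / (δ * ε)) ^ γ, γ, hγ, ?_⟩
  have hN1 : ∀ᶠ n : ℕ in atTop, 2 / ε ≤ n :=
    Filter.eventually_atTop.2 ⟨⌈2 / ε⌉₊, fun n hn => (Nat.le_ceil _).trans (by exact_mod_cast hn)⟩
  have hN2 : ∀ᶠ n : ℕ in atTop, 4 / (δ * ε) ≤ n :=
    Filter.eventually_atTop.2 ⟨⌈4 / (δ * ε)⌉₊, fun n hn =>
      (Nat.le_ceil _).trans (by exact_mod_cast hn)⟩
  have hL : X.L ≤ atTop := X.le
  show ∀ᶠ n in X.L, _
  filter_upwards [hL hB, hL hN1, hL hN2, hL (eventually_ge_atTop 16), hp, hreg, X.poly, X.enc,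
    X.kle, X.dob] with n hMn hn1 hn2 hn3 hpn hregn hqn hen hkn hdn z hz z' hz'
  obtain ⟨η₁, hd1, hr1⟩ := hregn
  have hn0 : 0 < n := by omega
  have hnR : (0 : ℝ) < n := by exact_mod_cast hn0
  have hεn : 2 ≤ ε * n := by
    rw [div_le_iff₀ hε0] at hn1; linarith
  set T : ℤ := ⌊ε * n⌋ with hT
  have hT1 : (T : ℝ) ≤ ε * n := Int.floor_le _
  have hT2 : ε * n / 2 ≤ T := by
    have h1 : ε * n - 1 < T := Int.sub_one_lt_floor _
    linarith
  have hT0 : (0 : ℝ) < T := lt_of_lt_of_le (by positivity) hT2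
  -- the scale of regularity
  set m : ℤ := ⌊c' * n⌋ with hm
  have hm1 : (m : ℝ) ≤ c' * n := Int.floor_le _
  have hm2 : c' * n < m + 1 := Int.lt_floor_add_one _
  have hmn : 16 * m ≤ n := by
    have h1 : 16 * (m : ℝ) ≤ n := by nlinarith
    exact_mod_cast h1
  have hTm : 16 * T ≤ m := by
    have h1 : 32 * (ε * n) ≤ c' * n := by nlinarith
    have h2 : (16 : ℝ) * T ≤ m := by linarith
    exact_mod_cast h2
  have hmpos : 1 ≤ m := by
    have h1 : (1 : ℝ) ≤ m := by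
      have h3 : 32 * (ε * n) ≤ c' * n := by nlinarith
      linarith
    exact_mod_cast h1
  have hregm : Reg m (S.D n) η₁ := hr1.mono (Int.floor_le_floor
    (mul_le_mul_of_nonneg_right hc'2 hnR.le))
  have hG : Geo 2 m (S.D n) (X.q n 0) := by
    rw [hpn]
    exact geo_dat S (n := n) (m := m) hmpos hmn
  have hth : Vale.Agent.P167.N.H542.Q.Phs θ (cB θ) (S.D n) (thB θ β (X.q n) (S.D n) (X.k n)) := Vale.Agent.P167.N.H542.Q.phs_thB h0 h1 hβ
  have ha : Cf / (n : ℝ) ^ 2 * ((2 : ℕ) : ℝ) ^ 2 * (T : ℝ) ^ 2 ≤ c := by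
    have h1 : (T : ℝ) ^ 2 ≤ (ε * n) ^ 2 := pow_le_pow_left₀ hT0.le hT1 2
    calc Cf / (n : ℝ) ^ 2 * ((2 : ℕ) : ℝ) ^ 2 * (T : ℝ) ^ 2 ≤
        Cf / (n : ℝ) ^ 2 * ((2 : ℕ) : ℝ) ^ 2 * (ε * n) ^ 2 :=
          mul_le_mul_of_nonneg_left h1 (by positivity)
      _ = 4 * Cf * ε * ε := by push_cast; field_simp; ring
      _ ≤ 4 * Cf * ε * 1 := mul_le_mul_of_nonneg_left (by linarith) (by positivity)
      _ ≤ c := by linarith
  -- the field
  have hW : ∀ y, (Vale.Agent.P167.N.H542.Q.BD.famB X h0 h1 hβ).W n f y = WQ (2 * Real.cos θ) (S.D n) η₁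
      (thB θ β (X.q n) (S.D n) (X.k n)) (X.q n 0) (CA.cms f (1 / n)) y := by
    intro y
    have e1 : (Vale.Agent.P167.N.H542.Q.BD.famB X h0 h1 hβ).W n f y = (Vale.Agent.P167.N.H542.Q.BD.famB X h0 h1 hβ).H n f y -
        (Vale.Agent.P167.N.H542.Q.BD.famB X h0 h1 hβ).V n f * (Vale.Agent.P167.N.H542.Q.BD.famB X h0 h1 hβ).H n (fun _ => 0) y := rfl
    have e2 : (Vale.Agent.P167.N.H542.Q.BD.famB X h0 h1 hβ).V n f = Ex (2 * Real.cos θ) (S.D n) (X.η n)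
        (XR (thB θ β (X.q n) (S.D n) (X.k n)) (S.D n) (X.q n 0) (CA.cms f (1 / n))) := by
      show (H542.Q.VQ (2 * Real.cos θ) (S.D n) (X.η n) (thB θ β (X.q n) (S.D n) (X.k n)) (X.q n 0)
        fun z => (CA.cms f (1 / n) z : ℂ)).re = _
      rw [VQ_ofReal, Complex.ofReal_re]
    have e0 : CA.cms (fun _ => 0) (1 / n) = 0 := by
      funext s; exact CA.cms_zero _ s
    rw [e1, e2, Vale.Agent.P167.N.H542.Q.BD.famB_H, Vale.Agent.P167.N.H542.Q.BD.famB_H, e0]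
    unfold WQ
    rw [ex_dobE hqn hen hkn hdn hd1 hQ0 (XTR_loc _ _ _ _ _),
      ex_dobE hqn hen hkn hdn hd1 hQ0 (XR_loc _ _ _ _),
      ex_dobE hqn hen hkn hdn hd1 hQ0 (XTR_loc _ _ _ _ _)]
  have hmom := hMn η₁ hregm.good (X.q n 0) (bas_poly hqn hen) _ hth
  have hloc : ∀ z ∈ sites (S.D n), ∀ z' ∈ sites (S.D n), (nm (z - z') : ℝ) ≤ δ * T →
      |(Vale.Agent.P167.N.H542.Q.BD.famB X h0 h1 hβ).W n f z - (Vale.Agent.P167.N.H542.Q.BD.famB X h0 h1 hβ).W n f z'| ≤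
        C * B * ((nm (z - z') : ℝ) / T) ^ γ := by
    intro z hz z' hz' hzz
    rw [hW, hW]
    exact heq m T _ _ _ θ _ hregm hG hth hTm _ _ (cms_le hf1 hn0) (tot_dat S hf hn0) ha B hBp
      hmom z hz z' hz' hzz
  have hδT : 2 ≤ δ * T := by
    rw [div_le_iff₀ (by positivity)] at hn2
    have := mul_le_mul_of_nonneg_left hT2 hδ.le
    linarith
  set R : ℤ := ⌊δ * T⌋ with hR
  have hR1 : (R : ℝ) ≤ δ * T := Int.floor_le _
  have hR2 : δ * T / 2 ≤ R := by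
    have h1 : δ * T - 1 < R := Int.sub_one_lt_floor _
    linarith
  have hR3 : 1 ≤ R := by
    have h1 : (1 : ℝ) ≤ R := by linarith
    exact_mod_cast h1
  have hkR : (n : ℤ) ≤ k * R := by
    have h1 : δ * ε * n / 4 ≤ R := by
      have := mul_le_mul_of_nonneg_left hT2 hδ.le
      linarith
    have h2 : (n : ℝ) ≤ k * R := by
      calc (n : ℝ) = 4 / (δ * ε) * (δ * ε * n / 4) := by field_simp
        _ ≤ k * R := mul_le_mul hk1 h1 (by positivity) (Nat.cast_nonneg _)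
    exact_mod_cast h2
  have hglob := hJ n R k (fun z => (Vale.Agent.P167.N.H542.Q.BD.famB X h0 h1 hβ).W n f z) M0 hn0 hR3 hkR hM0p
    (fun z hz z' hz' hzz => by
      have h1 : (nm (z - z') : ℝ) ≤ δ * T := by
        have : (nm (z - z') : ℝ) ≤ R := by exact_mod_cast hzz
        linarith
      refine (hloc z hz z' hz' h1).trans ?_
      refine mul_le_mul_of_nonneg_left (Real.rpow_le_rpow ?_ ?_ hγ.le) (by positivity)
      · have : (0 : ℝ) ≤ nm (z - z') := by exact_mod_cast H45.nm_nonneg _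
        positivity
      · rw [div_le_iff₀ hT0]; exact h1) z hz z' hz'
  exact hold_glob (by exact_mod_cast H45.nm_nonneg _) (nm_le_norm z z') hnR hε0 hδ hγ hT2
    (by positivity) (by positivity) (hloc z hz z' hz') hglob

end Vale.Agent.P167.N.H167.Q
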