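import Vale.Agent.P167.N.H167.Q.EDefs
import Vale.Agent.P167.H601.LG.Idx
import Vale.Agent.P167.H825.Reg.Tr

/-!
# P167, `q < 1`: the shapes of polygon domains in small boxes

In a box which is small compared with the distance of the corners, the domain of a polygon is the
intersection or the union of two coordinate half planes: `shp_geo`, `shp_enl`.
-/

set_option autoImplicit false

namespace Vale.Agent.P167.N.H167.Q

open Finset Filter Vale.Agent.P167.FK

open Vale.Agent.P167.E6 (IsPolygon Encloses dir face)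

open Vale.Agent.P167.H635 (Shp HP mem_Bq ann_box shp_and shp_or shp_half shp_full shp_none Ann)

open Vale.Agent.P167.H601.LG (GeoN)

open Vale.Agent.P167.H871 (Bd)

open Vale.Agent.P167.Top (vec dx dy)

variable {D : Finset (ℤ × ℤ)} {x : ℤ × ℤ} {R : ℤ}

/-- If the boundary edges of `D` in the box are on one vertical and one horizontal line, and `D` is
not a checkerboard at the crossing, then `D` is a simple shape in the box. -/
theorem shp_of_lines (a b : ℤ)
    (h1 : ∀ c y, (c - 1, y) ∈ Bq x R → (c, y) ∈ Bq x R → c ≠ a → ((c - 1, y) ∈ D ↔ (c, y) ∈ D))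
    (h2 : ∀ y c, (y, c - 1) ∈ Bq x R → (y, c) ∈ Bq x R → c ≠ b → ((y, c - 1) ∈ D ↔ (y, c) ∈ D))
    (h3 : (a - 1, b - 1) ∈ D → (a, b) ∈ D → (a - 1, b) ∉ D → (a, b - 1) ∉ D → False)
    (h4 : (a - 1, b - 1) ∉ D → (a, b) ∉ D → (a - 1, b) ∈ D → (a, b - 1) ∈ D → False) :
    Shp D x 0 R := by
  -- rows
  have row : ∀ (n : ℕ) (c y : ℤ), (c, y) ∈ Bq x R → (c + n, y) ∈ Bq x R →
      (a ≤ c ∨ c + n < a) → ((c, y) ∈ D ↔ (c + n, y) ∈ D) := by
    intro n
    induction n with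
    | zero => intro c y _ _ _; simp
    | succ n ih =>
      intro c y g1 g2 g3
      have e : c + ((n + 1 : ℕ) : ℤ) = c + n + 1 := by push_cast; ring
      rw [e] at g2 ⊢
      have g4 : (c + n, y) ∈ Bq x R := by
        rw [mem_Bq] at g1 g2 ⊢
        dsimp only at *
        omega
      refine (ih c y g1 g4 (by omega)).trans ?_
      have := h1 (c + n + 1) y (by rw [add_sub_cancel_right]; exact g4) g2 (by omega)
      rwa [add_sub_cancel_right] at this
  have col : ∀ (n : ℕ) (y c : ℤ), (y, c) ∈ Bq x R → (y, c + n) ∈ Bq x R →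
      (b ≤ c ∨ c + n < b) → ((y, c) ∈ D ↔ (y, c + n) ∈ D) := by
    intro n
    induction n with
    | zero => intro y c _ _ _; simp
    | succ n ih =>
      intro y c g1 g2 g3
      have e : c + ((n + 1 : ℕ) : ℤ) = c + n + 1 := by push_cast; ring
      rw [e] at g2 ⊢
      have g4 : (y, c + n) ∈ Bq x R := by
        rw [mem_Bq] at g1 g2 ⊢
        dsimp only at *
        omega
      refine (ih y c g1 g4 (by omega)).trans ?_
      have := h2 y (c + n + 1) (by rw [add_sub_cancel_right]; exact g4) g2 (by omega)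
      rwa [add_sub_cancel_right] at this
  have row' : ∀ c c' y : ℤ, (c, y) ∈ Bq x R → (c', y) ∈ Bq x R → (c < a ↔ c' < a) →
      ((c, y) ∈ D ↔ (c', y) ∈ D) := by
    intro c c' y g1 g2 g3
    rcases le_total c c' with h | h
    · obtain ⟨n, hn⟩ := Int.eq_ofNat_of_zero_le (sub_nonneg.2 h)
      have e : c' = c + n := by omega
      rw [e] at g2 g3 ⊢
      exact row n c y g1 g2 (by omega)
    · obtain ⟨n, hn⟩ := Int.eq_ofNat_of_zero_le (sub_nonneg.2 h)
      have e : c = c' + n := by omega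
      rw [e] at g1 g3 ⊢
      exact (row n c' y g2 g1 (by omega)).symm
  have col' : ∀ y c c' : ℤ, (y, c) ∈ Bq x R → (y, c') ∈ Bq x R → (c < b ↔ c' < b) →
      ((y, c) ∈ D ↔ (y, c') ∈ D) := by
    intro y c c' g1 g2 g3
    rcases le_total c c' with h | h
    · obtain ⟨n, hn⟩ := Int.eq_ofNat_of_zero_le (sub_nonneg.2 h)
      have e : c' = c + n := by omega
      rw [e] at g2 g3 ⊢
      exact col n y c g1 g2 (by omega)
    · obtain ⟨n, hn⟩ := Int.eq_ofNat_of_zero_le (sub_nonneg.2 h)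
      have e : c = c' + n := by omega
      rw [e] at g1 g3 ⊢
      exact (col n y c' g2 g1 (by omega)).symm
  have key : ∀ v w : ℤ × ℤ, v ∈ Bq x R → w ∈ Bq x R → (v.1 < a ↔ w.1 < a) →
      (v.2 < b ↔ w.2 < b) → (v ∈ D ↔ w ∈ D) := by
    rintro ⟨v1, v2⟩ ⟨w1, w2⟩ g1 g2 g3 g4
    have g5 : (w1, v2) ∈ Bq x R := by
      rw [mem_Bq] at g1 g2 ⊢
      dsimp only at *
      omega
    exact (row' v1 w1 v2 g1 g5 g3).trans (col' w1 v2 w2 g5 g2 g4)
  -- the four quadrants
  have quad : ∀ s t : Prop, (∀ v ∈ Bq x R, (v.1 < a ↔ s) → (v.2 < b ↔ t) → v ∈ D) ∨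
      ((∀ v ∈ Bq x R, (v.1 < a ↔ s) → (v.2 < b ↔ t) → v ∉ D) ∧
        ∃ v ∈ Bq x R, (v.1 < a ↔ s) ∧ (v.2 < b ↔ t)) := by
    intro s t
    by_cases h : ∀ v ∈ Bq x R, (v.1 < a ↔ s) → (v.2 < b ↔ t) → v ∈ D
    · exact Or.inl h
    · push Not at h
      obtain ⟨v, g1, g2, g3, g4⟩ := h
      exact Or.inr ⟨fun w k1 k2 k3 k4 => g4 ((key v w g1 k1 (g2.trans k2.symm)
        (g3.trans k3.symm)).2 k4), v, g1, g2, g3⟩
  have mem : ∀ {v w : ℤ × ℤ}, v ∈ Bq x R → w ∈ Bq x R → v.1 < a → a ≤ w.1 →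
      ((v.2 < b ∧ b ≤ w.2) ∨ (w.2 < b ∧ b ≤ v.2)) →
      (a - 1, b - 1) ∈ Bq x R ∧ (a, b) ∈ Bq x R ∧ (a - 1, b) ∈ Bq x R ∧ (a, b - 1) ∈ Bq x R := by
    intro v w g1 g2 g3 g4 g5
    simp only [mem_Bq] at g1 g2 ⊢
    omega
  have hA : HP fun v => v.1 < a := ⟨a, Or.inl fun _ => Iff.rfl⟩
  have hA' : HP fun v => a ≤ v.1 := ⟨a, Or.inr (Or.inl fun _ => Iff.rfl)⟩
  have hB : HP fun v => v.2 < b := ⟨b, Or.inr (Or.inr (Or.inl fun _ => Iff.rfl))⟩
  have hB' : HP fun v => b ≤ v.2 := ⟨b, Or.inr (Or.inr (Or.inr fun _ => Iff.rfl))⟩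
  have q00 := quad True True
  have q10 := quad False True
  have q01 := quad True False
  have q11 := quad False False
  simp only [iff_true, iff_false, not_lt] at q00 q10 q01 q11
  rcases q00 with p00 | ⟨p00, v00, i00, j00, k00⟩ <;>
    rcases q10 with p10 | ⟨p10, v10, i10, j10, k10⟩ <;>
    rcases q01 with p01 | ⟨p01, v01, i01, j01, k01⟩ <;>
    rcases q11 with p11 | ⟨p11, v11, i11, j11, k11⟩
  -- 1111
  · refine shp_full fun v hv => ?_
    have hv := ann_box hv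
    rcases lt_or_ge v.1 a with g | g <;> rcases lt_or_ge v.2 b with g' | g'
    · exact p00 v hv g g'
    · exact p01 v hv g g'
    · exact p10 v hv g g'
    · exact p11 v hv g g'
  -- 1110
  · refine shp_or hA hB fun v hv => ?_
    have hv := ann_box hv
    rcases lt_or_ge v.1 a with g | g <;> rcases lt_or_ge v.2 b with g' | g'
    · exact ⟨fun _ => Or.inl g, fun _ => p00 v hv g g'⟩
    · exact ⟨fun _ => Or.inl g, fun _ => p01 v hv g g'⟩
    · exact ⟨fun _ => Or.inr g', fun _ => p10 v hv g g'⟩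
    · exact ⟨fun h => absurd h (p11 v hv g g'), fun h => by omega⟩
  -- 1101
  · refine shp_or hA' hB fun v hv => ?_
    have hv := ann_box hv
    rcases lt_or_ge v.1 a with g | g <;> rcases lt_or_ge v.2 b with g' | g'
    · exact ⟨fun _ => Or.inr g', fun _ => p00 v hv g g'⟩
    · exact ⟨fun h => absurd h (p01 v hv g g'), fun h => by omega⟩
    · exact ⟨fun _ => Or.inl g, fun _ => p10 v hv g g'⟩
    · exact ⟨fun _ => Or.inl g, fun _ => p11 v hv g g'⟩
  -- 1100
  · refine shp_half hB fun v hv => ?_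
    have hv := ann_box hv
    rcases lt_or_ge v.1 a with g | g <;> rcases lt_or_ge v.2 b with g' | g'
    · exact ⟨fun _ => g', fun _ => p00 v hv g g'⟩
    · exact ⟨fun h => absurd h (p01 v hv g g'), fun h => by omega⟩
    · exact ⟨fun _ => g', fun _ => p10 v hv g g'⟩
    · exact ⟨fun h => absurd h (p11 v hv g g'), fun h => by omega⟩
  -- 1011
  · refine shp_or hA hB' fun v hv => ?_
    have hv := ann_box hv
    rcases lt_or_ge v.1 a with g | g <;> rcases lt_or_ge v.2 b with g' | g'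
    · exact ⟨fun _ => Or.inl g, fun _ => p00 v hv g g'⟩
    · exact ⟨fun _ => Or.inl g, fun _ => p01 v hv g g'⟩
    · exact ⟨fun h => absurd h (p10 v hv g g'), fun h => by omega⟩
    · exact ⟨fun _ => Or.inr g', fun _ => p11 v hv g g'⟩
  -- 1010
  · refine shp_half hA fun v hv => ?_
    have hv := ann_box hv
    rcases lt_or_ge v.1 a with g | g <;> rcases lt_or_ge v.2 b with g' | g'
    · exact ⟨fun _ => g, fun _ => p00 v hv g g'⟩
    · exact ⟨fun _ => g, fun _ => p01 v hv g g'⟩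
    · exact ⟨fun h => absurd h (p10 v hv g g'), fun h => by omega⟩
    · exact ⟨fun h => absurd h (p11 v hv g g'), fun h => by omega⟩
  -- 1001
  · obtain ⟨m1, m2, m3, m4⟩ := mem i01 i10 j01 j10 (Or.inr ⟨k10, k01⟩)
    exact (h3 (p00 _ m1 (by dsimp only; omega) (by dsimp only; omega)) (p11 _ m2 le_rfl le_rfl)
      (p01 _ m3 (by dsimp only; omega) le_rfl) (p10 _ m4 le_rfl (by dsimp only; omega))).elim
  -- 1000
  · refine shp_and hA hB fun v hv => ?_
    have hv := ann_box hv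
    rcases lt_or_ge v.1 a with g | g <;> rcases lt_or_ge v.2 b with g' | g'
    · exact ⟨fun _ => ⟨g, g'⟩, fun _ => p00 v hv g g'⟩
    · exact ⟨fun h => absurd h (p01 v hv g g'), fun h => by omega⟩
    · exact ⟨fun h => absurd h (p10 v hv g g'), fun h => by omega⟩
    · exact ⟨fun h => absurd h (p11 v hv g g'), fun h => by omega⟩
  -- 0111
  · refine shp_or hA' hB' fun v hv => ?_
    have hv := ann_box hv
    rcases lt_or_ge v.1 a with g | g <;> rcases lt_or_ge v.2 b with g' | g'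
    · exact ⟨fun h => absurd h (p00 v hv g g'), fun h => by omega⟩
    · exact ⟨fun _ => Or.inr g', fun _ => p01 v hv g g'⟩
    · exact ⟨fun _ => Or.inl g, fun _ => p10 v hv g g'⟩
    · exact ⟨fun _ => Or.inl g, fun _ => p11 v hv g g'⟩
  -- 0110
  · obtain ⟨m1, m2, m3, m4⟩ := mem i00 i11 j00 j11 (Or.inl ⟨k00, k11⟩)
    exact (h4 (p00 _ m1 (by dsimp only; omega) (by dsimp only; omega)) (p11 _ m2 le_rfl le_rfl)
      (p01 _ m3 (by dsimp only; omega) le_rfl) (p10 _ m4 le_rfl (by dsimp only; omega))).elim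
  -- 0101
  · refine shp_half hA' fun v hv => ?_
    have hv := ann_box hv
    rcases lt_or_ge v.1 a with g | g <;> rcases lt_or_ge v.2 b with g' | g'
    · exact ⟨fun h => absurd h (p00 v hv g g'), fun h => by omega⟩
    · exact ⟨fun h => absurd h (p01 v hv g g'), fun h => by omega⟩
    · exact ⟨fun _ => g, fun _ => p10 v hv g g'⟩
    · exact ⟨fun _ => g, fun _ => p11 v hv g g'⟩
  -- 0100
  · refine shp_and hA' hB fun v hv => ?_
    have hv := ann_box hv
    rcases lt_or_ge v.1 a with g | g <;> rcases lt_or_ge v.2 b with g' | g'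
    · exact ⟨fun h => absurd h (p00 v hv g g'), fun h => by omega⟩
    · exact ⟨fun h => absurd h (p01 v hv g g'), fun h => by omega⟩
    · exact ⟨fun _ => ⟨g, g'⟩, fun _ => p10 v hv g g'⟩
    · exact ⟨fun h => absurd h (p11 v hv g g'), fun h => by omega⟩
  -- 0011
  · refine shp_half hB' fun v hv => ?_
    have hv := ann_box hv
    rcases lt_or_ge v.1 a with g | g <;> rcases lt_or_ge v.2 b with g' | g'
    · exact ⟨fun h => absurd h (p00 v hv g g'), fun h => by omega⟩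
    · exact ⟨fun _ => g', fun _ => p01 v hv g g'⟩
    · exact ⟨fun h => absurd h (p10 v hv g g'), fun h => by omega⟩
    · exact ⟨fun _ => g', fun _ => p11 v hv g g'⟩
  -- 0010
  · refine shp_and hA hB' fun v hv => ?_
    have hv := ann_box hv
    rcases lt_or_ge v.1 a with g | g <;> rcases lt_or_ge v.2 b with g' | g'
    · exact ⟨fun h => absurd h (p00 v hv g g'), fun h => by omega⟩
    · exact ⟨fun _ => ⟨g, g'⟩, fun _ => p01 v hv g g'⟩
    · exact ⟨fun h => absurd h (p10 v hv g g'), fun h => by omega⟩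
    · exact ⟨fun h => absurd h (p11 v hv g g'), fun h => by omega⟩
  -- 0001
  · refine shp_and hA' hB' fun v hv => ?_
    have hv := ann_box hv
    rcases lt_or_ge v.1 a with g | g <;> rcases lt_or_ge v.2 b with g' | g'
    · exact ⟨fun h => absurd h (p00 v hv g g'), fun h => by omega⟩
    · exact ⟨fun h => absurd h (p01 v hv g g'), fun h => by omega⟩
    · exact ⟨fun h => absurd h (p10 v hv g g'), fun h => by omega⟩
    · exact ⟨fun _ => ⟨g, g'⟩, fun _ => p11 v hv g g'⟩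
  -- 0000
  · refine shp_none fun v hv => ?_
    have hv := ann_box hv
    rcases lt_or_ge v.1 a with g | g <;> rcases lt_or_ge v.2 b with g' | g'
    · exact p00 v hv g g'
    · exact p01 v hv g g'
    · exact p10 v hv g g'
    · exact p11 v hv g g'

/-! ### Polygons -/

theorem face_0 (V : ℤ × ℤ) : face V 0 = (V.1, V.2) := by simp [face]

theorem face_1 (V : ℤ × ℤ) : face V 1 = (V.1 - 1, V.2) := by
  simp [face, Prod.ext_iff]
  omega

theorem face_2 (V : ℤ × ℤ) : face V 2 = (V.1 - 1, V.2 - 1) := by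
  simp [face, Prod.ext_iff]
  omega

theorem face_3 (V : ℤ × ℤ) : face V 3 = (V.1, V.2 - 1) := by
  simp [face, Prod.ext_iff]
  omega

section poly

variable {n N : ℕ} {q : ZMod N → ℤ × ℤ} {u : ℕ → ℤ}

/-- A vertical boundary edge. -/
theorem edge_v (hD : Encloses q D) {c y : ℤ} (h : ¬ ((c - 1, y) ∈ D ↔ (c, y) ∈ D)) :
    ∃ i : ZMod N, (q i).1 = c ∧ (q (i + 1)).1 = c ∧ y ≤ (q i).2 ∧ (q i).2 ≤ y + 1 := by
  by_cases h1 : (c, y) ∈ D
  · have h2 : (c - 1, y) ∉ D := fun h2 => h ⟨fun _ => h1, fun _ => h2⟩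
    obtain ⟨i, hi, hi'⟩ := (hD (c, y + 1) 3).2 (by
      rw [show (3 : Fin 4) - 1 = 2 from rfl, face_3, face_2]
      simp only [add_sub_cancel_right]
      exact ⟨h1, h2⟩)
    refine ⟨i, by rw [hi], by rw [hi']; simp [dir], by rw [hi]; dsimp only; omega, by rw [hi]⟩
  · have h2 : (c - 1, y) ∈ D := by
      by_contra h2
      exact h ⟨fun h3 => absurd h3 h2, fun h3 => absurd h3 h1⟩
    obtain ⟨i, hi, hi'⟩ := (hD (c, y) 1).2 (by
      rw [show (1 : Fin 4) - 1 = 0 from rfl, face_1, face_0]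
      exact ⟨h2, h1⟩)
    refine ⟨i, by rw [hi], by rw [hi']; simp [dir], by rw [hi], by rw [hi]; dsimp only; omega⟩

/-- A horizontal boundary edge. -/
theorem edge_h (hD : Encloses q D) {c y : ℤ} (h : ¬ ((y, c - 1) ∈ D ↔ (y, c) ∈ D)) :
    ∃ i : ZMod N, (q i).2 = c ∧ (q (i + 1)).2 = c ∧ y ≤ (q i).1 ∧ (q i).1 ≤ y + 1 := by
  by_cases h1 : (y, c) ∈ D
  · have h2 : (y, c - 1) ∉ D := fun h2 => h ⟨fun _ => h1, fun _ => h2⟩
    obtain ⟨i, hi, hi'⟩ := (hD (y, c) 0).2 (by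
      rw [show (0 : Fin 4) - 1 = 3 from rfl, face_0, face_3]
      exact ⟨h1, h2⟩)
    refine ⟨i, by rw [hi], by rw [hi']; simp [dir], by rw [hi], by rw [hi]; dsimp only; omega⟩
  · have h2 : (y, c - 1) ∈ D := by
      by_contra h2
      exact h ⟨fun h3 => absurd h3 h2, fun h3 => absurd h3 h1⟩
    obtain ⟨i, hi, hi'⟩ := (hD (y + 1, c) 2).2 (by
      rw [show (2 : Fin 4) - 1 = 1 from rfl, face_2, face_1]
      simp only [add_sub_cancel_right]
      exact ⟨h2, h1⟩)
    refine ⟨i, by rw [hi], by rw [hi']; simp [dir], by rw [hi]; dsimp only; omega, by rw [hi]⟩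

/-- At most one corner in a short interval. -/
theorem const_of_par (hG : GeoN n N q u) {k m : ℕ} (hm : m < n) (he : (u (k + m) - u k) % 2 = 0) :
    ∀ j ≤ m, u (k + j) = u k := by
  have aux : ∀ m < n, (∀ j ≤ m, u (k + j) = u k) ∨
      ((u (k + m) = u k + 1 ∨ u (k + m) = u k - 1) ∧ ∃ j < m, u (k + j + 1) ≠ u (k + j)) := by
    intro m
    induction m with
    | zero =>
      intro _
      refine Or.inl fun j hj => ?_
      rw [Nat.le_zero.1 hj, add_zero]
    | succ m ih =>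
      intro hm
      have ht := abs_le.1 (hG.turn (k + m))
      rcases ih (by omega) with h | ⟨h, j, hj, hj'⟩
      · by_cases h1 : u (k + m + 1) = u (k + m)
        · refine Or.inl fun j hj => ?_
          rcases Nat.lt_or_ge j (m + 1) with h2 | h2
          · exact h j (by omega)
          · have : j = m + 1 := by omega
            rw [this, ← add_assoc, h1, h m le_rfl]
        · refine Or.inr ⟨?_, m, by omega, h1⟩
          have h2 := h m le_rfl
          rw [← add_assoc]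
          omega
      · have h1 : u (k + m + 1) = u (k + m) := by
          by_contra h1
          have := hG.gap (i := k + j) (j := k + m) (by omega) hj' h1
          omega
        exact Or.inr ⟨by rw [← add_assoc, h1]; exact h, j, by omega, hj'⟩
  rcases aux m hm with h | ⟨h, -⟩
  · exact h
  · omega

theorem run (hst : ∀ k : ℕ, q ((k + 1 : ℕ) : ZMod N) = q (k : ZMod N) + vec (u k)) {k : ℕ} :
    ∀ m : ℕ, (∀ j < m, u (k + j) = u k) →
      q ((k + m : ℕ) : ZMod N) = q (k : ZMod N) + (m : ℤ) • vec (u k) := by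
  intro m
  induction m with
  | zero => intro _; simp
  | succ m ih =>
    intro h
    rw [← add_assoc, hst, ih fun j hj => h j (by omega), h m (by omega)]
    push_cast
    rw [add_smul, one_smul, add_assoc]

theorem vec_cases (d : ℤ) : (d % 2 = 0 ∧ (vec d).2 = 0 ∧ (vec d).1 ≠ 0) ∨
    (d % 2 = 1 ∧ (vec d).1 = 0 ∧ (vec d).2 ≠ 0) := by
  have h : d % 4 = 0 ∨ d % 4 = 1 ∨ d % 4 = 2 ∨ d % 4 = 3 := by omega
  unfold vec dx dy
  rcases h with h | h | h | h <;> rw [h] <;> simp <;> omega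

/-- Two near parallel edges of the polygon are on one line. -/
theorem line_eq (hG : GeoN n N q u)
    (hst : ∀ k : ℕ, q ((k + 1 : ℕ) : ZMod N) = q (k : ZMod N) + vec (u k)) {d : ℤ} (hd : 0 ≤ d)
    (hdn : 3 * d < n) {i j : ZMod N} (hij : nm (q i - q j) ≤ d) :
    ((q (i + 1)).1 = (q i).1 → (q (j + 1)).1 = (q j).1 → (q i).1 = (q j).1) ∧
      ((q (i + 1)).2 = (q i).2 → (q (j + 1)).2 = (q j).2 → (q i).2 = (q j).2) := by
  have hN : NeZero N := ⟨by have := hG.le; have := hG.pos; omega⟩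
  obtain ⟨a, ha, rfl⟩ : ∃ a : ℕ, a < N ∧ (a : ZMod N) = i := ⟨i.val, ZMod.val_lt i,
    ZMod.natCast_zmod_val i⟩
  obtain ⟨b, hb, rfl⟩ : ∃ b : ℕ, b < N ∧ (b : ZMod N) = j := ⟨j.val, ZMod.val_lt j,
    ZMod.natCast_zmod_val j⟩
  have hnear := hG.near ha.le hb.le hdn hij
  -- the ordered case
  have key : ∀ a m : ℕ, m < n →
      ((q (((a : ℕ) : ZMod N) + 1)).1 = (q (a : ZMod N)).1 →
        (q (((a + m : ℕ) : ZMod N) + 1)).1 = (q ((a + m : ℕ) : ZMod N)).1 →
        (q (a : ZMod N)).1 = (q ((a + m : ℕ) : ZMod N)).1) ∧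
      ((q (((a : ℕ) : ZMod N) + 1)).2 = (q (a : ZMod N)).2 →
        (q (((a + m : ℕ) : ZMod N) + 1)).2 = (q ((a + m : ℕ) : ZMod N)).2 →
        (q (a : ZMod N)).2 = (q ((a + m : ℕ) : ZMod N)).2) := by
    intro a m hm
    have e1 : (((a : ℕ) : ZMod N) + 1) = ((a + 1 : ℕ) : ZMod N) := by push_cast; ring
    have e2 : (((a + m : ℕ) : ZMod N) + 1) = ((a + m + 1 : ℕ) : ZMod N) := by push_cast; ring
    rw [e1, e2, hst a, hst (a + m)]
    have c1 := vec_cases (u a)
    have c2 := vec_cases (u (a + m))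
    constructor
    · intro h1 h2
      have h1' : (vec (u a)).1 = 0 := by
        have : (q (a : ZMod N)).1 + (vec (u a)).1 = (q (a : ZMod N)).1 := h1
        omega
      have h2' : (vec (u (a + m))).1 = 0 := by
        have : (q ((a + m : ℕ) : ZMod N)).1 + (vec (u (a + m))).1 = (q ((a + m : ℕ) : ZMod N)).1 := h2
        omega
      have h3 := const_of_par hG hm (k := a) (by omega)
      rw [run hst m fun j hj => h3 j hj.le]
      show _ = (q (a : ZMod N)).1 + (m : ℤ) • (vec (u a)).1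
      rw [h1', smul_zero, add_zero]
    · intro h1 h2
      have h1' : (vec (u a)).2 = 0 := by
        have : (q (a : ZMod N)).2 + (vec (u a)).2 = (q (a : ZMod N)).2 := h1
        omega
      have h2' : (vec (u (a + m))).2 = 0 := by
        have : (q ((a + m : ℕ) : ZMod N)).2 + (vec (u (a + m))).2 = (q ((a + m : ℕ) : ZMod N)).2 := h2
        omega
      have h3 := const_of_par hG hm (k := a) (by omega)
      rw [run hst m fun j hj => h3 j hj.le]
      show _ = (q (a : ZMod N)).2 + (m : ℤ) • (vec (u a)).2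
      rw [h1', smul_zero, add_zero]
  have key' : ∀ a b : ℕ, a < N → b < N → a ≤ b → (|(a : ℤ) - b| ≤ 2 * d ∨
      (N : ℤ) - |(a : ℤ) - b| ≤ 2 * d) →
      ((q (((a : ℕ) : ZMod N) + 1)).1 = (q (a : ZMod N)).1 →
        (q (((b : ℕ) : ZMod N) + 1)).1 = (q (b : ZMod N)).1 →
        (q (a : ZMod N)).1 = (q (b : ZMod N)).1) ∧
      ((q (((a : ℕ) : ZMod N) + 1)).2 = (q (a : ZMod N)).2 →
        (q (((b : ℕ) : ZMod N) + 1)).2 = (q (b : ZMod N)).2 →
        (q (a : ZMod N)).2 = (q (b : ZMod N)).2) := by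
    intro a b ha hb hab h
    have e : |(a : ℤ) - b| = b - a := by
      rw [abs_sub_comm, abs_of_nonneg (by omega)]
    rw [e] at h
    rcases h with h | h
    · have h1 := key a (b - a) (by omega)
      rwa [show a + (b - a) = b by omega] at h1
    · have h1 := key b (a + N - b) (by omega)
      rw [show b + (a + N - b) = a + N by omega] at h1
      have e3 : ((a + N : ℕ) : ZMod N) = (a : ZMod N) := by push_cast; simp
      rw [e3] at h1
      exact ⟨fun g1 g2 => (h1.1 g2 g1).symm, fun g1 g2 => (h1.2 g2 g1).symm⟩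
  rcases le_total a b with h | h
  · exact key' a b ha hb h hnear
  · have h1 := key' b a hb ha h (by rw [abs_sub_comm]; exact hnear)
    exact ⟨fun g1 g2 => (h1.1 g2 g1).symm, fun g1 g2 => (h1.2 g2 g1).symm⟩

/-- **The shape of a polygon domain in a small box.** -/
theorem shp_geo (hG : GeoN n N q u) (hq : IsPolygon q) (hD : Encloses q D)
    (hst : ∀ k : ℕ, q ((k + 1 : ℕ) : ZMod N) = q (k : ZMod N) + vec (u k)) (hR : 6 * R < n) :
    Shp D x 0 R := by
  rcases lt_or_ge R 0 with hR0 | hR0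
  · refine shp_none fun v hv => ?_
    have := mem_Bq.1 (ann_box hv)
    omega
  have chk := fun V r => Enl.no_checker hq hD V r
  -- the vertical line
  obtain ⟨a, ha⟩ : ∃ a : ℤ, ∀ c y, (c - 1, y) ∈ Bq x R → (c, y) ∈ Bq x R → c ≠ a →
      ((c - 1, y) ∈ D ↔ (c, y) ∈ D) := by
    by_cases h : ∃ c y, (c - 1, y) ∈ Bq x R ∧ (c, y) ∈ Bq x R ∧ ¬ ((c - 1, y) ∈ D ↔ (c, y) ∈ D)
    · obtain ⟨a, y, g1, g2, g3⟩ := h
      refine ⟨a, fun c y' g1' g2' hc => ?_⟩
      by_contra g3'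
      obtain ⟨i, i1, i2, i3, i4⟩ := edge_v hD g3
      obtain ⟨j, j1, j2, j3, j4⟩ := edge_v hD g3'
      refine hc ?_
      rw [mem_Bq] at g1 g2 g1' g2'
      dsimp only at g1 g2 g1' g2'
      have h1 := (line_eq hG hst (d := 2 * R) (by omega) (by omega) (i := i) (j := j) (by
        rw [FKA.nm_le_iff]
        simp only [Prod.fst_sub, Prod.snd_sub]
        omega)).1 (by omega) (by omega)
      omega
    · push Not at h
      refine ⟨0, fun c y g1 g2 _ => ?_⟩
      have := h c y g1 g2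
      tauto
  obtain ⟨b, hb⟩ : ∃ b : ℤ, ∀ y c, (y, c - 1) ∈ Bq x R → (y, c) ∈ Bq x R → c ≠ b →
      ((y, c - 1) ∈ D ↔ (y, c) ∈ D) := by
    by_cases h : ∃ y c, (y, c - 1) ∈ Bq x R ∧ (y, c) ∈ Bq x R ∧ ¬ ((y, c - 1) ∈ D ↔ (y, c) ∈ D)
    · obtain ⟨y, b, g1, g2, g3⟩ := h
      refine ⟨b, fun y' c g1' g2' hc => ?_⟩
      by_contra g3'
      obtain ⟨i, i1, i2, i3, i4⟩ := edge_h hD g3
      obtain ⟨j, j1, j2, j3, j4⟩ := edge_h hD g3'
      refine hc ?_
      rw [mem_Bq] at g1 g2 g1' g2'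
      dsimp only at g1 g2 g1' g2'
      have h1 := (line_eq hG hst (d := 2 * R) (by omega) (by omega) (i := i) (j := j) (by
        rw [FKA.nm_le_iff]
        simp only [Prod.fst_sub, Prod.snd_sub]
        omega)).2 (by omega) (by omega)
      omega
    · push Not at h
      refine ⟨0, fun y c g1 g2 _ => ?_⟩
      have := h y c g1 g2
      tauto
  refine shp_of_lines a b ha hb ?_ ?_
  · intro g1 g2 g3 g4
    refine chk (a, b) 0 ?_ ?_ ?_ ?_
    · rw [face_0]; exact g2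
    · rw [show (0 : Fin 4) - 1 = 3 from rfl, face_3]; exact g4
    · rw [show (0 : Fin 4) + 2 = 2 from rfl, face_2]; exact g1
    · rw [show (0 : Fin 4) + 2 - 1 = 1 from rfl, face_1]; exact g3
  · intro g1 g2 g3 g4
    refine chk (a, b) 1 ?_ ?_ ?_ ?_
    · rw [face_1]; exact g3
    · rw [show (1 : Fin 4) - 1 = 0 from rfl, face_0]; exact g2
    · rw [show (1 : Fin 4) + 2 = 3 from rfl, face_3]; exact g4
    · rw [show (1 : Fin 4) + 2 - 1 = 2 from rfl, face_2]; exact g1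

end poly

/-! ### Enlargements -/

section enl

open Vale.Agent.P167.H825 (enl)

variable {l n : ℕ} {p : ZMod l → ℤ × ℤ} {S₀ : Finset (ℤ × ℤ)}

theorem div_pred {n c : ℤ} (hn : 0 < n) (h : ¬ n ∣ c) : (c - 1) / n = c / n := by
  have h1 := Int.mul_ediv_add_emod c n
  have h2 := Int.emod_nonneg c hn.ne'
  have h3 := Int.emod_lt_of_pos c hn
  have h4 : c % n ≠ 0 := fun h4 => h (Int.dvd_of_emod_eq_zero h4)
  have e : c - 1 = (c % n - 1) + n * (c / n) := by omega
  rw [e, Int.add_mul_ediv_left _ _ hn.ne', Int.ediv_eq_zero_of_lt (by omega) (by omega), zero_add]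

/-- **The shape of an enlargement in a small box.** -/
theorem shp_enl (hp : IsPolygon p) (hS : Encloses p S₀) (hn : 0 < n) (hR : 2 * R ≤ n) :
    Shp (enl S₀ n) x 0 R := by
  have hn' : (0 : ℤ) < n := by exact_mod_cast hn
  rcases lt_or_ge R 1 with hR0 | hR0
  · refine shp_none fun v hv => ?_
    have := mem_Bq.1 (ann_box hv)
    omega
  -- the only multiple of `n` inside
  have mult : ∀ z : ℤ, ∃ a : ℤ, (n : ℤ) ∣ a ∧ ∀ c, z - R < c → c < z + R → c ≠ a → ¬ (n : ℤ) ∣ c := by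
    intro z
    have h1 := Int.mul_ediv_add_emod (z + R - 1) n
    have h2 := Int.emod_nonneg (z + R - 1) hn'.ne'
    have h3 := Int.emod_lt_of_pos (z + R - 1) hn'
    refine ⟨n * ((z + R - 1) / n), Dvd.intro _ rfl, ?_⟩
    rintro c g1 g2 g3 ⟨k, rfl⟩
    have h4 : k ≤ (z + R - 1) / n := by
      by_contra h4
      push Not at h4
      nlinarith
    have h5 : (z + R - 1) / n ≤ k := by
      by_contra h5
      push Not at h5
      nlinarith
    exact g3 (by rw [le_antisymm h4 h5])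
  obtain ⟨a, han, ha⟩ := mult x.1
  obtain ⟨b, hbn, hb⟩ := mult x.2
  have pred : ∀ c : ℤ, (n : ℤ) ∣ c → (c - 1) / n = c / n - 1 := by
    rintro c ⟨k, rfl⟩
    rw [Int.mul_ediv_cancel_left _ hn'.ne']
    have e : n * k - 1 = (n - 1) + (n : ℤ) * (k - 1) := by ring
    rw [e, Int.add_mul_ediv_left _ _ hn'.ne', Int.ediv_eq_zero_of_lt (by omega) (by omega), zero_add]
  refine shp_of_lines a b ?_ ?_ ?_ ?_
  · intro c y g1 g2 g3
    rw [mem_Bq] at g1 g2
    dsimp only at g1 g2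
    rw [Enl.mem_enl_div hn, Enl.mem_enl_div hn]
    dsimp only
    rw [div_pred hn' (ha c (by omega) (by omega) g3)]
  · intro y c g1 g2 g3
    rw [mem_Bq] at g1 g2
    dsimp only at g1 g2
    rw [Enl.mem_enl_div hn, Enl.mem_enl_div hn]
    dsimp only
    rw [div_pred hn' (hb c (by omega) (by omega) g3)]
  · intro g1 g2 g3 g4
    rw [Enl.mem_enl_div hn] at g1 g2 g3 g4
    dsimp only at g1 g2 g3 g4
    rw [pred a han] at g1 g3
    rw [pred b hbn] at g1 g4
    refine Enl.no_checker hp hS (a / n, b / n) 0 ?_ ?_ ?_ ?_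
    · rw [face_0]; exact g2
    · rw [show (0 : Fin 4) - 1 = 3 from rfl, face_3]; exact g4
    · rw [show (0 : Fin 4) + 2 = 2 from rfl, face_2]; exact g1
    · rw [show (0 : Fin 4) + 2 - 1 = 1 from rfl, face_1]; exact g3
  · intro g1 g2 g3 g4
    rw [Enl.mem_enl_div hn] at g1 g2 g3 g4
    dsimp only at g1 g2 g3 g4
    rw [pred a han] at g1 g3
    rw [pred b hbn] at g1 g4
    refine Enl.no_checker hp hS (a / n, b / n) 1 ?_ ?_ ?_ ?_
    · rw [face_1]; exact g3
    · rw [show (1 : Fin 4) - 1 = 0 from rfl, face_0]; exact g2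
    · rw [show (1 : Fin 4) + 2 = 3 from rfl, face_3]; exact g4
    · rw [show (1 : Fin 4) + 2 - 1 = 2 from rfl, face_2]; exact g1

/-- Translations. -/
theorem shp_image {D : Finset (ℤ × ℤ)} {x : ℤ × ℤ} {r R : ℤ} (h : Shp D x r R) (a : ℤ × ℤ) :
    Shp (D.image (· + a)) (x + a) r R := by
  have hD : ∀ v, v ∈ D.image (· + a) ↔ v - a ∈ D := fun v => H825.Reg.mem_tr
  have key : ∀ v, v ∈ Ann (x + a) r R → v - a ∈ Ann x r R := by
    intro v hv
    rw [H635.mem_Ann, mem_Bq, mem_Bq] at hv ⊢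
    simp only [Prod.fst_add, Prod.snd_add, Prod.fst_sub, Prod.snd_sub] at *
    omega
  have hH : ∀ {H : ℤ × ℤ → Prop}, HP H → HP fun v => H (v - a) := by
    rintro H ⟨c, h | h | h | h⟩
    · exact ⟨c + a.1, Or.inl fun v => (h _).trans (by rw [Prod.fst_sub]; omega)⟩
    · exact ⟨c + a.1, Or.inr (Or.inl fun v => (h _).trans (by rw [Prod.fst_sub]; omega))⟩
    · exact ⟨c + a.2, Or.inr (Or.inr (Or.inl fun v => (h _).trans (by rw [Prod.snd_sub]; omega)))⟩
    · exact ⟨c + a.2, Or.inr (Or.inr (Or.inr fun v => (h _).trans (by rw [Prod.snd_sub]; omega)))⟩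
  rcases h with ⟨H1, H2, h1, h2, h⟩ | ⟨lo, hi, h1, h⟩
  · refine Or.inl ⟨_, _, hH h1, hH h2, ?_⟩
    rcases h with h | h
    · exact Or.inl fun v hv => (hD v).trans (h _ (key v hv))
    · exact Or.inr fun v hv => (hD v).trans (h _ (key v hv))
  · refine Or.inr ⟨fun i => if i = 1 ∨ i = 3 then lo i + a.1 else lo i + a.2,
      fun i => if i = 1 ∨ i = 3 then hi i + a.1 else hi i + a.2, ?_, fun v hv => ?_⟩
    · obtain ⟨⟨a1, a2⟩, ⟨a3, a4⟩, ⟨a5, a6⟩, a7, a8⟩ := h1
      refine ⟨⟨?_, ?_⟩, ⟨?_, ?_⟩, ⟨?_, ?_⟩, ?_, ?_⟩ <;> simp <;> omega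
    · rw [hD, h _ (key v hv)]
      unfold H635.InRay
      simp only [Prod.fst_add, Prod.snd_add, Prod.fst_sub, Prod.snd_sub]
      simp
      omega

end enl

/-! ### Regularity -/

/-- Regularity at the smaller scale, polygons with `GeoN`. -/
theorem Reg.of_geo {n N : ℕ} {q : ZMod N → ℤ × ℤ} {u : ℕ → ℤ} {m m' : ℤ} {η : Cfg}
    (h : Vale.Agent.P167.H167.Q.Reg m D η) (hG : GeoN n N q u) (hq : IsPolygon q)
    (hD : Encloses q D)
    (hst : ∀ k : ℕ, q ((k + 1 : ℕ) : ZMod N) = q (k : ZMod N) + vec (u k)) (hm : m' ≤ m)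
    (hmn : 6 * m' < n) : Reg m' D η :=
  Reg.of (h.mono hm) fun _ _ _ _ hR => shp_geo hG hq hD hst (by omega)

/-- The same with the structure `Bd`. -/
theorem Reg.of_bd {n N : ℕ} {q : ZMod N → ℤ × ℤ} {u : ℕ → ℤ} {m m' σ : ℤ} {η : Cfg}
    (h : Vale.Agent.P167.H167.Q.Reg m D η) (hG : GeoN n N q u) (hq : IsPolygon q)
    (hD : Encloses q D) (hb : Bd (D : Set (ℤ × ℤ)) N (fun i => q (i : ZMod N)) u σ) (hm : m' ≤ m)
    (hmn : 6 * m' < n) : Reg m' D η :=
  Reg.of_geo h hG hq hD (fun k => hb.step k) hm hmn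

/-- The shape with the structure `Bd`. -/
theorem shp_bd {n N : ℕ} {q : ZMod N → ℤ × ℤ} {u : ℕ → ℤ} {σ : ℤ} (hG : GeoN n N q u)
    (hq : IsPolygon q) (hD : Encloses q D)
    (hb : Bd (D : Set (ℤ × ℤ)) N (fun i => q (i : ZMod N)) u σ) (hR : 6 * R < n) : Shp D x 0 R :=
  shp_geo hG hq hD (fun k => hb.step k) hR

theorem floor_quarter {c : ℝ} {n : ℕ} {R : ℤ} (hR : R ≤ ⌊min c (1 / 4) * (n : ℝ)⌋) :
    2 * R ≤ (n : ℤ) := by
  have h1 : (R : ℝ) ≤ min c (1 / 4) * n :=
    (show (R : ℝ) ≤ (⌊min c (1 / 4) * (n : ℝ)⌋ : ℝ) by exact_mod_cast hR).trans (Int.floor_le _)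
  have h2 : min c (1 / 4) * (n : ℝ) ≤ 1 / 4 * n :=
    mul_le_mul_of_nonneg_right (min_le_right _ _) (Nat.cast_nonneg n)
  have h3 : ((2 * R : ℤ) : ℝ) ≤ ((n : ℤ) : ℝ) := by
    push_cast
    have : (0 : ℝ) ≤ n := Nat.cast_nonneg n
    linarith
  exact_mod_cast h3

theorem floor_min {c : ℝ} {n : ℕ} : ⌊min c (1 / 4) * (n : ℝ)⌋ ≤ ⌊c * (n : ℝ)⌋ :=
  Int.floor_le_floor (mul_le_mul_of_nonneg_right (min_le_left _ _) (Nat.cast_nonneg n))

section enl2

open Vale.Agent.P167.H825 (enl)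

open Vale.Agent.P167.H825.Q (Bc)

open Vale.Agent.P167.H718 (Dob)

open Vale.Agent.P167.H167.Q (BcIn)

open Vale.Agent.P167.Enl (qN)

/-- **The enlargements are regular.** -/
theorem s_REG : S_REG := by
  intro l _ p S₀ hp hD tp h0 h1 bc hbc
  obtain ⟨c, hc, h⟩ := Vale.Agent.P167.H825.Reg.s_REG l p S₀ hp hD tp h0 h1 bc hbc
  refine ⟨min c (1 / 4), by positivity, ?_⟩
  filter_upwards [h, eventually_gt_atTop 0] with n ⟨η, hn1, hn2⟩ hn
  exact ⟨η, hn1, Reg.of (hn2.mono floor_min) fun x _ R _ hR => shp_enl hp hD hn (floor_quarter hR)⟩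

variable {l : ℕ} {p : ZMod l → ℤ × ℤ} {S₀ : Finset (ℤ × ℤ)}

theorem shp_enl_tr (hp : IsPolygon p) (hD : Encloses p S₀) {n : ℕ} (hn : 0 < n) (hR : 2 * R ≤ n)
    (a : ℤ × ℤ) : Shp ((enl S₀ n).image (· + a)) x 0 R := by
  have h := shp_image (shp_enl (x := x - a) hp hD hn hR) a
  rwa [sub_add_cancel] at h

/-- **Free and wired enlargements**, all base sites (also the corners), all translates. -/
theorem s_REG_fw (hp : IsPolygon p) (hD : Encloses p S₀) {bc : Bc}
    (hbc : bc = Bc.free ∨ bc = Bc.wired) : ∃ c : ℝ, 0 < c ∧ ∀ᶠ n : ℕ in atTop,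
      ∀ (t : ℕ) (a : ℤ × ℤ), ∃ η : Cfg,
        Dob η ((enl S₀ n).image (· + a)) (fun i => qN p n t i + a) (bc.ka l n t) ∧
          Reg ⌊c * (n : ℝ)⌋ ((enl S₀ n).image (· + a)) η := by
  obtain ⟨c, hc, h⟩ := Vale.Agent.P167.H825.Reg.s_REG_fw hp hD hbc
  refine ⟨min c (1 / 4), by positivity, ?_⟩
  filter_upwards [h, eventually_gt_atTop 0] with n h' hn t a
  obtain ⟨η, hn1, hn2⟩ := h' t a
  exact ⟨η, hn1, Reg.of (hn2.mono floor_min) fun x _ R _ hR =>
    shp_enl_tr hp hD hn (floor_quarter hR) a⟩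

/-- **The translates of the enlargements are regular**, uniformly in the translation. -/
theorem s_REG_tr (hp : IsPolygon p) (hD : Encloses p S₀) {tp : ℝ} (h0 : 0 < tp) (h1 : tp < 1)
    {bc : Bc} (hbc : BcIn l bc) : ∃ c : ℝ, 0 < c ∧ ∀ᶠ n : ℕ in atTop, ∀ a : ℤ × ℤ, ∃ η : Cfg,
      Dob η ((enl S₀ n).image (· + a)) (fun i => qN p n ⌊tp * (n : ℝ)⌋₊ i + a)
        (bc.ka l n ⌊tp * (n : ℝ)⌋₊) ∧ Reg ⌊c * (n : ℝ)⌋ ((enl S₀ n).image (· + a)) η := by
  obtain ⟨c, hc, h⟩ := Vale.Agent.P167.H825.Reg.s_REG_tr hp hD h0 h1 hbc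
  refine ⟨min c (1 / 4), by positivity, ?_⟩
  filter_upwards [h, eventually_gt_atTop 0] with n h' hn a
  obtain ⟨η, hn1, hn2⟩ := h' a
  exact ⟨η, hn1, Reg.of (hn2.mono floor_min) fun x _ R _ hR =>
    shp_enl_tr hp hD hn (floor_quarter hR) a⟩

end enl2

end Vale.Agent.P167.N.H167.Q
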