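import Vale.Agent.P167.N.Kit
import Vale.Agent.P167.N.H167.Q.EqF
import Vale.Agent.P167.N.H167.Q.Shp
import Vale.Agent.P167.N.H542.Q.FamB
import Vale.Agent.P167.N.KitQ
import Vale.Agent.P167.H167.Q.EqG

/-! generated from Vale.Agent.P167.H167.Q.EqG (q < 1 port) -/

set_option autoImplicit false

namespace Vale.Agent.P167.N.H167.Q

open Vale.Agent.P167.H167.Q Vale.Agent.P167.H167

open Finset Filter

open Vale.Agent.P167.H718 (Dob)

open Vale.Agent.P167.H825.Q (Bc qS kS tN bdG bdQ qS_zero dob_qS)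

open Vale.Agent.P167.H542.Q (BD)

/-- **Regularity** of the enlargements of the polygon of `S`, with the shapes. -/
theorem reg_dat (S : CA.Dat) {bc : Bc} (hbc : bc.In S.l) : ∃ c : ℝ, 0 < c ∧ ∀ᶠ n : ℕ in atTop,
    ∃ η : Cfg, Dob η (S.D n) (qS S n) (kS S bc n) ∧
      Vale.Agent.P167.N.H167.Q.Reg ⌊c * (n : ℝ)⌋ (S.D n) η := by
  have : NeZero S.l := ⟨by have := S.poly.1; omega⟩
  exact Vale.Agent.P167.N.H167.Q.s_REG S.l S.p S.Q S.poly S.enc S.tp S.tp0 S.tp1 bc (bcIn_of hbc)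

variable {θ β : ℝ}

/-- **Q-EQUI**: the field `EQ` for the Dobrushin data of the boundary conditions `bc`, any outside
configurations. -/
theorem bdG_EQ (h0 : 0 < θ) (h1 : Ang θ) (hβ : Real.cos (θ / 2 + β) = Real.sin θ)
    {S : CA.Dat} {bc : Bc} (hbc : bc.In S.l) {L : Filter ℕ} (hL : L ≤ atTop)
    (hc : L.IsCountablyGenerated) {η : ℕ → Cfg}
    (hη : ∀ᶠ n in L, Dob (η n) (S.D n) (qS S n) (kS S bc n)) :
    ((Vale.Agent.P167.N.H542.Q.BD.famB (bdG S θ β bc hbc L hL hc η hη)) h0 h1 hβ).EQ := by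
  have h1_lt := h1.lt
  obtain ⟨c, hc0, hreg⟩ := Vale.Agent.P167.N.H167.Q.reg_dat S hbc
  refine famB_EQ h0 h1 hβ h1.kit.rsw h1.kit.srsw
    (bdG S θ β bc hbc L hL hc η hη) ?_ ⟨c, hc0, hL hreg⟩
  filter_upwards [hL (eventually_gt_atTop 0)] with n hn
  exact qS_zero S hn

/-- **Q-EQUI**: the field `EQ` for the Dobrushin data of the boundary conditions `bc`. -/
theorem bdQ_EQ (h0 : 0 < θ) (h1 : Ang θ) (hβ : Real.cos (θ / 2 + β) = Real.sin θ)
    {S : CA.Dat} {bc : Bc} (hbc : bc.In S.l) {L : Filter ℕ} (hL : L ≤ atTop)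
    (hc : L.IsCountablyGenerated) : ((Vale.Agent.P167.N.H542.Q.BD.famB (bdQ S θ β bc hbc L hL hc)) h0 h1 hβ).EQ :=
  bdG_EQ h0 h1 hβ hbc hL hc (hL (dob_qS S bc))

end Vale.Agent.P167.N.H167.Q
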