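import Vale.Agent.P167.H167.Q.EDefs
import Vale.Agent.P167.H635.Shape

/-!
# P167, `q < 1`: regular domains

As in `Vale.Agent.P167.H167.Q.EDefs`; in the boxes in which the boundary has one colour the domain is
one of the simple shapes `Shp`.
-/

set_option autoImplicit false

namespace Vale.Agent.P167.N.H167.Q

open Vale.Agent.P167.H167.Q Vale.Agent.P167.H167

open Finset Filter Vale.Agent.P167.FK

open Vale.Agent.P167.E6 (IsPolygon Encloses)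

open Vale.Agent.P167.H718 (Dob)

open Vale.Agent.P167.H825 (enl)

open Vale.Agent.P167.H825.Q (Bc)

open Vale.Agent.P167.H562.QM (OneC)

open Vale.Agent.P167.H635 (Shp)

/-- The boundary near `x` has one colour and the domain is a simple shape there, or it is flat with
at most one junction. -/
def Bd3 (D : Finset (ℤ × ℤ)) (η : Cfg) (x : ℤ × ℤ) (R : ℤ) : Prop :=
  ((∀ v ∈ Bq x R, v ∉ D → η v = false) ∧ Shp D x 0 R) ∨
    ((∀ v ∈ Bq x R, v ∉ D → η v = true) ∧ Shp D x 0 R) ∨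
    ∃ (i : Fin 4) (z : ℤ × ℤ) (pl pr : Bool), FlR i D η x R z pl pr

theorem Bd3.mono {D : Finset (ℤ × ℤ)} {η : Cfg} {x : ℤ × ℤ} {R R' : ℤ} (h : Bd3 D η x R)
    (hR : R' ≤ R) : Bd3 D η x R' := by
  have hs : ∀ v, v ∈ Bq x R' → v ∈ Bq x R := fun v hv => H635.bq_mono hR hv
  rcases h with ⟨h, h'⟩ | ⟨h, h'⟩ | ⟨i, z, pl, pr, h⟩
  · exact Or.inl ⟨fun v hv => h v (hs v hv), h'.mono le_rfl hR⟩
  · exact Or.inr (Or.inl ⟨fun v hv => h v (hs v hv), h'.mono le_rfl hR⟩)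
  · exact Or.inr (Or.inr ⟨i, z, pl, pr, h.pos, fun v hv => h.dom v (hs v hv),
      fun v hv => h.out v (hs v hv)⟩)

/-- Without the shape. -/
theorem Bd3.old {D : Finset (ℤ × ℤ)} {η : Cfg} {x : ℤ × ℤ} {R : ℤ} (h : Bd3 D η x R) :
    Vale.Agent.P167.H167.Q.Bd3 D η x R := by
  rcases h with ⟨h, -⟩ | ⟨h, -⟩ | h
  · exact Or.inl h
  · exact Or.inr (Or.inl h)
  · exact Or.inr (Or.inr h)

theorem Bd3.of {D : Finset (ℤ × ℤ)} {η : Cfg} {x : ℤ × ℤ} {R : ℤ} (h : Vale.Agent.P167.H167.Q.Bd3 D η x R)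
    (hs : Shp D x 0 R) : Bd3 D η x R := by
  rcases h with h | h | h
  · exact Or.inl ⟨h, hs⟩
  · exact Or.inr (Or.inl ⟨h, hs⟩)
  · exact Or.inr (Or.inr h)

/-- Regular domains up to the scale `m`. -/
structure Reg (m : ℤ) (D : Finset (ℤ × ℤ)) (η : Cfg) : Prop where
  good : Good η
  bd : ∀ x ∈ BR.sites D, ∀ R : ℤ, 1 ≤ R → R ≤ m → Bd3 D η x R
  one : ∀ (x : ℤ × ℤ) (R : ℤ), 1 ≤ R → R ≤ m → (∃ v ∈ D, nm (x - v) ≤ m) → OneC x R D η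

theorem Reg.mono {m m' : ℤ} {D : Finset (ℤ × ℤ)} {η : Cfg} (h : Reg m D η) (hm : m' ≤ m) :
    Reg m' D η :=
  ⟨h.good, fun x hx R h1 h2 => h.bd x hx R h1 (h2.trans hm), fun x R h1 h2 h3 =>
    h.one x R h1 (h2.trans hm) (h3.imp fun _ hv => ⟨hv.1, hv.2.trans hm⟩)⟩

/-- Without the shapes. -/
theorem Reg.old {m : ℤ} {D : Finset (ℤ × ℤ)} {η : Cfg} (h : Reg m D η) : Vale.Agent.P167.H167.Q.Reg m D η :=
  ⟨h.good, fun x hx R h1 h2 => (h.bd x hx R h1 h2).old, h.one⟩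

theorem Reg.of {m : ℤ} {D : Finset (ℤ × ℤ)} {η : Cfg} (h : Vale.Agent.P167.H167.Q.Reg m D η)
    (hs : ∀ x ∈ BR.sites D, ∀ R : ℤ, 1 ≤ R → R ≤ m → Shp D x 0 R) : Reg m D η :=
  ⟨h.good, fun x hx R h1 h2 => .of (h.bd x hx R h1 h2) (hs x hx R h1 h2), h.one⟩

/-- **Regularity of the enlargements with Dobrushin (or free, or wired) boundary conditions.** -/
def S_REG : Prop :=
  ∀ (l : ℕ) [NeZero l] (p : ZMod l → ℤ × ℤ) (S₀ : Finset (ℤ × ℤ)), IsPolygon p → Encloses p S₀ →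
    ∀ tp : ℝ, 0 < tp → tp < 1 → ∀ bc : Bc, BcIn l bc → ∃ c : ℝ, 0 < c ∧ ∀ᶠ n : ℕ in atTop,
      ∃ η : Cfg, Dob η (enl S₀ n) (Enl.qN p n ⌊tp * (n : ℝ)⌋₊) (bc.ka l n ⌊tp * (n : ℝ)⌋₊) ∧
        Reg ⌊c * (n : ℝ)⌋ (enl S₀ n) η

end Vale.Agent.P167.N.H167.Q
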