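import Vale.Agent.P167.N.Kit
import Vale.Agent.P167.H635.Box

/-!
# P167, `q < 1`: mixing for local functions of any sign
-/

namespace Vale.Agent.P167.N.H167.Q

open Finset Vale.Agent.P167.FK Vale.Agent.P167.FKA Vale.Agent.P167.H635
open Vale.Agent.P167.H259 (f_markov Ex_out)

variable {Q : ℝ} {D : Finset (ℤ × ℤ)} {η η' : Cfg} {F : Cfg → ℝ}

theorem pr_arm (hQ : Kit Q) {α C : ℝ} (h : ArmDec Q α C) {x : ℤ × ℤ} {ρ R : ℤ} (hρ : 1 ≤ ρ)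
    (hρR : ρ ≤ R) (hη : Good η) :
    Pr Q (Bq x R) η {ω | ArmPx x ρ R ω} ≤ C * ((ρ : ℝ) / R) ^ α := by
  have h1 := h x ρ R (Bq x R) η (fun _ => 1) hρ hρR hη Finset.sdiff_subset
    (fun _ => zero_le_one) fun _ _ _ => rfl
  simp only [one_mul] at h1
  rw [Ex_const hQ.pos, mul_one] at h1
  exact h1

/-- Comparison with the wired boundary condition. -/
theorem mix_wired (hQ : Kit Q) {α C : ℝ} (h : ArmDec Q α C) {x : ℤ × ℤ} {ρ R : ℤ} (hρ : 1 ≤ ρ)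
    (hρR : ρ ≤ R) (hF : Loc (Bq x ρ) F) {M : ℝ}
    (hM : ∀ ξ, Good ξ → Ex Q (Bq x ρ) ξ (fun ω => |F ω|) ≤ M) (hη : Good η) :
    |Ex Q (Bq x R) η F - Ex Q (Bq x R) eta1 F| ≤ 2 * M * (C * ((ρ : ℝ) / R) ^ α) := by
  have hQ0 := hQ.pos
  have hsub : Bq x ρ ⊆ Bq x R := bq_mono hρR
  set p := C * ((ρ : ℝ) / R) ^ α with hp
  have hp0 : 0 ≤ p := (Pr_nonneg hQ0 _).trans (pr_arm hQ h (x := x) hρ hρR f_good.2.2)
  have e1 : ∀ G : Cfg → ℝ, Ex Q (Bq x R) eta1 G = Ex Q (Bq x R) (wir x R) G := fun G =>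
    Ex_out (fun v hv => by rw [wir_out hv]; rfl) _
  have key : ∀ G : Cfg → ℝ, (∀ ω, 0 ≤ G ω) → Loc (Bq x ρ) G →
      |Ex Q (Bq x R) η G - Ex Q (Bq x R) eta1 G| ≤
        p * (Ex Q (Bq x R) η G + Ex Q (Bq x R) eta1 G) := by
    intro G hG0 hG
    obtain ⟨h1, h2⟩ := dec_w hQ0 hQ.le h hρ hρR subset_rfl hG0 hG hη (x := x)
    rw [e1]
    have n1 : 0 ≤ Ex Q (Bq x R) η G := Ex_nonneg hQ0 fun _ _ => hG0 _
    have n2 : 0 ≤ Ex Q (Bq x R) (wir x R) G := Ex_nonneg hQ0 fun _ _ => hG0 _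
    rw [← hp] at h1 h2
    have n3 := mul_nonneg hp0 n1
    have n4 := mul_nonneg hp0 n2
    rw [abs_le]
    constructor <;> linarith
  have k1 := key (fun ω => max (F ω) 0) (fun _ => le_max_right _ _)
    fun ω ω' hw => by simp only [hF ω ω' hw]
  have k2 := key (fun ω => max (-F ω) 0) (fun _ => le_max_right _ _)
    fun ω ω' hw => by simp only [hF ω ω' hw]
  have e2 : ∀ ξ, Ex Q (Bq x R) ξ F = Ex Q (Bq x R) ξ (fun ω => max (F ω) 0) -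
      Ex Q (Bq x R) ξ (fun ω => max (-F ω) 0) := by
    intro ξ
    rw [← Ex_sub]
    refine Ex_congr fun S _ => ?_
    have := max_zero_sub_max_neg_zero_eq_self (F (cf (Bq x R) ξ S))
    linarith
  have e3 : ∀ ξ, Ex Q (Bq x R) ξ (fun ω => |F ω|) = Ex Q (Bq x R) ξ (fun ω => max (F ω) 0) +
      Ex Q (Bq x R) ξ (fun ω => max (-F ω) 0) := by
    intro ξ
    rw [← Ex_add]
    refine Ex_congr fun S _ => ?_
    have := max_zero_add_max_neg_zero_eq_abs_self (F (cf (Bq x R) ξ S))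
    linarith
  have hM' : ∀ ξ, Good ξ → Ex Q (Bq x R) ξ (fun ω => |F ω|) ≤ M := by
    intro ξ hξ
    rw [f_markov Q (Bq x ρ) (Bq x R) ξ _ hQ0 hsub hξ,
      ← Ex_const (Q := Q) (D := Bq x R) (η := ξ) hQ0 M]
    exact Ex_mono hQ0 fun S _ => hM _ (f_good.1 _ _ _ hξ)
  have m1 := hM' η hη
  have m2 := hM' eta1 f_good.2.2
  rw [e3] at m1 m2
  have m3 := mul_le_mul_of_nonneg_left (add_le_add m1 m2) hp0
  rw [e2, e2]
  rw [abs_le] at k1 k2 ⊢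
  constructor <;> nlinarith [k1.1, k1.2, k2.1, k2.2]

/-- A function off the box times a local function. -/
theorem mix_mul (hQ : Kit Q) {α C : ℝ} (h : ArmDec Q α C) {x : ℤ × ℤ} {ρ R : ℤ} (hρ : 1 ≤ ρ)
    (hρR : ρ ≤ R) (hF : Loc (Bq x ρ) F) {M : ℝ}
    (hM : ∀ ξ, Good ξ → Ex Q (Bq x ρ) ξ (fun ω => |F ω|) ≤ M) (hη : Good η) (hD : Bq x R ⊆ D)
    {G : Cfg → ℝ} (hG : Ind (Bq x R) G) :
    |Ex Q D η (fun ω => G ω * F ω) - Ex Q D η G * Ex Q (Bq x R) eta1 F| ≤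
      Ex Q D η (fun ω => |G ω|) * (2 * M * (C * ((ρ : ℝ) / R) ^ α)) := by
  have hQ0 : 0 < Q := hQ.pos
  set e := Ex Q (Bq x R) eta1 F with he
  set b := 2 * M * (C * ((ρ : ℝ) / R) ^ α) with hb
  rw [markov f_markov hQ0 hD hη hG]
  have e1 : Ex Q D η (fun ω => G ω * Ex Q (Bq x R) ω F) - Ex Q D η G * e =
      Ex Q D η (fun ω => G ω * (Ex Q (Bq x R) ω F - e)) := by
    rw [mul_comm (Ex Q D η G) e, ← Ex_mul_left, ← Ex_sub]
    exact Ex_congr fun S _ => by ring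
  rw [e1]
  refine (abs_Ex_le hQ0 _).trans ?_
  rw [mul_comm _ b, ← Ex_mul_left]
  refine Ex_mono hQ0 fun S _ => ?_
  rw [abs_mul, mul_comm b]
  exact mul_le_mul_of_nonneg_left (mix_wired hQ h hρ hρR hF hM (f_good.1 D η S hη)) (abs_nonneg _)

/-- **Mixing.** The expectations of a local function in two domains which contain the box `(x, R)`, for
two boundary conditions. -/
theorem mix (hQ : Kit Q) {α C : ℝ} (h : ArmDec Q α C) {x : ℤ × ℤ} {ρ R : ℤ} (hρ : 1 ≤ ρ)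
    (hρR : ρ ≤ R) (hF : Loc (Bq x ρ) F) {M : ℝ}
    (hM : ∀ ξ, Good ξ → Ex Q (Bq x ρ) ξ (fun ω => |F ω|) ≤ M) (hη : Good η) (hη' : Good η')
    {D D' : Finset (ℤ × ℤ)} (hD : Bq x R ⊆ D) (hD' : Bq x R ⊆ D') :
    |Ex Q D η F - Ex Q D' η' F| ≤ 4 * M * (C * ((ρ : ℝ) / R) ^ α) := by
  have hQ0 : 0 < Q := hQ.pos
  have key : ∀ (D : Finset (ℤ × ℤ)) (η : Cfg), Good η → Bq x R ⊆ D →
      |Ex Q D η F - Ex Q (Bq x R) eta1 F| ≤ 2 * M * (C * ((ρ : ℝ) / R) ^ α) := by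
    intro D η hη hD
    have h1 := mix_mul hQ h hρ hρR hF hM hη hD (G := fun _ => 1) fun _ _ _ => rfl
    simp only [one_mul, abs_one] at h1
    rwa [Ex_const hQ0, one_mul, one_mul] at h1
  have h1 := key D η hη hD
  have h2 := key D' η' hη' hD'
  rw [abs_le] at h1 h2 ⊢
  constructor <;> linarith

/-- **Covariances.** -/
theorem cov_le (hQ : Kit Q) {α C : ℝ} (h : ArmDec Q α C) {x : ℤ × ℤ} {ρ R : ℤ} (hρ : 1 ≤ ρ)
    (hρR : ρ ≤ R) (hF : Loc (Bq x ρ) F) {M : ℝ}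
    (hM : ∀ ξ, Good ξ → Ex Q (Bq x ρ) ξ (fun ω => |F ω|) ≤ M) (hη : Good η) (hD : Bq x R ⊆ D)
    {G : Cfg → ℝ} (hG : Ind (Bq x R) G) :
    |Ex Q D η (fun ω => G ω * F ω) - Ex Q D η G * Ex Q D η F| ≤
      Ex Q D η (fun ω => |G ω|) * (4 * M * (C * ((ρ : ℝ) / R) ^ α)) := by
  have hQ0 : 0 < Q := hQ.pos
  have h1 := mix_mul hQ h hρ hρR hF hM hη hD hG
  have h2 := mix_mul hQ h hρ hρR hF hM hη hD (G := fun _ => 1) fun _ _ _ => rfl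
  simp only [one_mul, abs_one] at h2
  rw [Ex_const hQ0, one_mul, one_mul] at h2
  have h3 : |Ex Q D η G| ≤ Ex Q D η (fun ω => |G ω|) := abs_Ex_le hQ0 G
  set e := Ex Q (Bq x R) eta1 F
  have e1 : Ex Q D η (fun ω => G ω * F ω) - Ex Q D η G * Ex Q D η F =
      (Ex Q D η (fun ω => G ω * F ω) - Ex Q D η G * e) - Ex Q D η G * (Ex Q D η F - e) := by ring
  rw [e1]
  refine (abs_sub _ _).trans ?_
  rw [abs_mul]
  have h4 : |Ex Q D η G| * |Ex Q D η F - e| ≤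
      Ex Q D η (fun ω => |G ω|) * (2 * M * (C * ((ρ : ℝ) / R) ^ α)) :=
    mul_le_mul h3 h2 (abs_nonneg _) ((abs_nonneg _).trans h3)
  linarith

end Vale.Agent.P167.N.H167.Q
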