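import Vale.Agent.P167.N.Kit
import Vale.Agent.P167.N.Base.Crs
import Vale.Agent.P167.H167.Q.RawA
import Vale.Agent.P167.H640.Nb

/-!
# P167, `q < 1`: raw arms next to a flat side

Port of `Vale.Agent.P167.H167.Q.RawA`. The one-scale bound comes from the crossings of rectangles by
the other colour (`crs_ge`), the configuration outside is arbitrary.
-/

set_option autoImplicit false

namespace Vale.Agent.P167.N.H167.Q

open Vale.Agent.P167.H167.Q Vale.Agent.P167.H167

open Finset Vale.Agent.P167.FK Vale.Agent.P167.FKA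

open Vale.Agent.P145.FB (PStep PConn)

open Vale.Agent.P153.Topo (Rect mem_rect)

open Vale.Agent.P167.H259 (f_markov Ex_out cf_cf PC_mono)

open Vale.Agent.P167.H519 (cf_in ind_le_of_imp loc_mono pc_of_cor pa_cor pa_even conn_symm)

open Vale.Agent.P167.H562.GL (near_of_corx far_of_corx)

open Vale.Agent.P167.H192.TA (dq sr Pw dF mem_dF Xc)

open Vale.Agent.P167.H632 (cs pr an bl crossing mem_bl)

open Vale.Agent.P167.H704 (Hc Vc cut2 col_inc row_inc)

open Vale.Agent.P167.H192.Q (etac pX SRSW)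

open Relation

variable {Q : ℝ}

/-- An arm of the half annulus excludes a half circuit (three crossings of rectangles) of the other
colour. -/
theorem no_xc {e : Bool} {b : ℤ × ℤ} {r R : ℤ} (hr : 0 ≤ r) (hrR : r < R) {ω : Cfg}
    (h1 : ω ∈ Vc (!e) (b.1 - R) (b.1 - r) b.2 (b.2 + R))
    (h2 : ω ∈ Hc (!e) (b.1 - R) (b.1 + R) (b.2 + r) (b.2 + R))
    (h3 : ω ∈ Vc (!e) (b.1 + r) (b.1 + R) b.2 (b.2 + R)) : ω ∉ Xc e b r R := by
  rintro ⟨y, y', hy, hpy, hyr, hyy', hy'⟩
  -- the path stays above the line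
  have hP : PConn (cs e ω) {w : ℤ × ℤ | b.2 ≤ w.2} y y' := by
    have hy2 : b.2 ≤ y.2 := hy.2.2.1
    refine ⟨hy2, ?_⟩
    clear hy'
    induction hyy' with
    | refl => exact ReflTransGen.refl
    | @tail u w _ huw ih =>
      refine ih.tail ⟨⟨huw.1, huw.2.1, huw.2.2.1⟩, ?_⟩
      have h4 := huw.2.2.2
      simp only [dq, Set.mem_ofPred_eq] at h4 ⊢
      omega
  obtain ⟨z, z', k1, k2, k0, k3, -⟩ := crossing hrR.le hP hyr hy'
  have hpar : (z.1 + z.2) % 2 = pr e := by rw [← k0.parity, hpy]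
  have hz := nm_le_iff.1 k1.le
  have hz' := nm_le_iff.1 k2.le
  have hz'' := le_nm_iff.1 k2.ge
  have hz2 : b.2 ≤ z.2 := k3.left_mem.1
  have hz2' : b.2 ≤ z'.2 := k3.right_mem.1
  simp only [Prod.fst_sub, Prod.snd_sub] at hz hz' hz''
  have hR0 : 0 ≤ R := by omega
  rcases (by omega : z'.1 = b.1 - R ∨ z'.1 = b.1 + R ∨ z'.2 = b.2 + R) with h | h | h
  · obtain ⟨w, w', g1, g2, g0, g3, -⟩ := cut2 (fun v : ℤ × ℤ => - v.1) (r := r - b.1) (R := R - b.1)
      (fun u v h => by have := h.symm.1; have := h.1; omega) (by omega) k3 (by omega) (by omega)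
    refine Vale.Agent.P167.H640.Nb.xcl (e := !e) (ω := ω) (a := b.1 - R) (b := b.1 - r) (p := b.2)
      (q := b.2 + R) ?_ h1
    rw [Bool.not_not]
    refine ⟨w', w, by omega, by omega, by rw [← g3.parity, ← g0.parity, hpar], ?_⟩
    refine g3.symm.mono subset_rfl ?_
    rintro v ⟨⟨v1, v2⟩, v3, v4⟩
    rw [mem_rect]
    have v5 := nm_le_iff.1 v2.2
    simp only [Set.mem_ofPred_eq, Prod.fst_sub, Prod.snd_sub] at v1 v3 v4 v5
    omega
  · obtain ⟨w, w', g1, g2, g0, g3, -⟩ := cut2 (fun v : ℤ × ℤ => v.1) (r := b.1 + r) (R := b.1 + R)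
      col_inc (by omega) k3 (by omega) (by omega)
    refine Vale.Agent.P167.H640.Nb.xcl (e := !e) (ω := ω) (a := b.1 + r) (b := b.1 + R) (p := b.2)
      (q := b.2 + R) ?_ h3
    rw [Bool.not_not]
    refine ⟨w, w', by omega, by omega, by rw [← g0.parity, hpar], ?_⟩
    refine g3.mono subset_rfl ?_
    rintro v ⟨⟨v1, v2⟩, v3, v4⟩
    rw [mem_rect]
    have v5 := nm_le_iff.1 v2.2
    simp only [Set.mem_ofPred_eq, Prod.fst_sub, Prod.snd_sub] at v1 v3 v4 v5
    omega
  · obtain ⟨w, w', g1, g2, g0, g3, -⟩ := cut2 (fun v : ℤ × ℤ => v.2) (r := b.2 + r) (R := b.2 + R)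
      row_inc (by omega) k3 (by omega) (by omega)
    refine Vale.Agent.P167.H640.Nb.xcl (e := e) (ω := ω) (a := b.1 - R) (b := b.1 + R)
      (p := b.2 + r) (q := b.2 + R) h2 ?_
    refine ⟨w, w', by omega, by omega, by rw [← g0.parity, hpar], ?_⟩
    refine g3.mono subset_rfl ?_
    rintro v ⟨⟨v1, v2⟩, v3, v4⟩
    rw [mem_rect]
    have v5 := nm_le_iff.1 v2.2
    simp only [Set.mem_ofPred_eq, Prod.fst_sub, Prod.snd_sub] at v1 v3 v4 v5
    omega

/-- **Half circuits in half annuli of any ratio**: with a probability bounded below, uniformly in the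
outside configuration, no arm of the colour `e` crosses the half annulus. -/
theorem xc_le (hQ : Kit Q) : ∃ (M : ℤ) (c : ℝ), 2 ≤ M ∧ 0 < c ∧ c ≤ 1 ∧
    ∀ (e : Bool) (b : ℤ × ℤ) (r : ℤ) (D : Finset (ℤ × ℤ)) (η : Cfg), 1 ≤ r →
      (∀ v ∈ dq b r (M * r), v ∈ D) → Good η → Pr Q D η (Xc e b r (M * r)) ≤ 1 - c := by
  have hQ0 : 0 < Q := hQ.pos
  obtain ⟨c, s0, hc, hc1, hs0, h⟩ := crs_ge hQ 3 4
  refine ⟨s0 + 1, c, by omega, hc, hc1, fun e b r D η hr hD hη => ?_⟩
  have hs : s0 * r ≥ s0 := by nlinarith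
  have hsr : r ≤ s0 * r := by nlinarith
  have e1 : (s0 + 1) * r = s0 * r + r := by ring
  set s : ℤ := s0 * r with hsd
  rw [e1] at hD ⊢
  obtain ⟨X1, hX1⟩ : ∃ X : Crs, X = ⟨false, b.1 - (s + r), b.1 - r, b.2, b.2 + (s + r)⟩ := ⟨_, rfl⟩
  obtain ⟨X2, hX2⟩ : ∃ X : Crs, X = ⟨true, b.1 - (s + r), b.1 + (s + r), b.2 + r, b.2 + (s + r)⟩ :=
    ⟨_, rfl⟩
  obtain ⟨X3, hX3⟩ : ∃ X : Crs, X = ⟨false, b.1 + r, b.1 + (s + r), b.2, b.2 + (s + r)⟩ := ⟨_, rfl⟩
  have h1 := h (!e) s [X1, X2, X3] D η hη (by omega) (by simp) (by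
      intro X hX
      simp only [List.mem_cons, List.not_mem_nil, or_false] at hX
      rcases hX with rfl | rfl | rfl
      · rw [hX1]
        refine Crs.ok_V (by omega) (by omega) (by omega) (by push_cast; omega) fun v g1 g2 g3 g4 =>
          hD v ?_
        simp only [dq, Set.mem_ofPred_eq]
        omega
      · rw [hX2]
        refine Crs.ok_H (by omega) (by omega) (by omega) (by push_cast; omega) fun v g1 g2 g3 g4 =>
          hD v ?_
        simp only [dq, Set.mem_ofPred_eq]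
        omega
      · rw [hX3]
        refine Crs.ok_V (by omega) (by omega) (by omega) (by push_cast; omega) fun v g1 g2 g3 g4 =>
          hD v ?_
        simp only [dq, Set.mem_ofPred_eq]
        omega)
  have h2 : Pr Q D η {ω | ∀ X ∈ [X1, X2, X3], ω ∈ X.Ev (!e)} ≤
      Pr Q D η (Xc e b r (s + r))ᶜ := by
    refine Pr_mono hQ0 ?_
    intro ω hω
    have i1 : ω ∈ X1.Ev (!e) := hω X1 (by simp)
    have i2 : ω ∈ X2.Ev (!e) := hω X2 (by simp)
    have i3 : ω ∈ X3.Ev (!e) := hω X3 (by simp)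
    rw [hX1] at i1
    rw [hX2] at i2
    rw [hX3] at i3
    exact no_xc (by omega) (by omega) i1 i2 i3
  have h3 := h1.trans h2
  rw [Pr_compl hQ0] at h3
  linarith

/-- One scale for the arms of the annuli. -/
theorem two_sided' (hQ : Kit Q) : ∃ (L : ℤ) (c : ℝ), 2 ≤ L ∧ 0 < c ∧ c < 1 ∧
    ∀ (x : ℤ × ℤ) (r : ℤ) (η : Cfg), 1 ≤ r → Good η →
      Ex Q (Bq x (L * r) \ Bq x r) η ({ω | ArmPx x r (L * r) ω}.indicator 1) ≤ 1 - c := by
  have hQ0 : 0 < Q := hQ.pos
  obtain ⟨α, C, hα, hC, hA, -⟩ := hQ.arm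
  have h1 : Filter.Tendsto (fun n : ℕ => C * ((n : ℝ) ^ α)⁻¹) Filter.atTop (nhds (C * 0)) :=
    (((tendsto_rpow_atTop hα).comp tendsto_natCast_atTop_atTop).inv_tendsto_atTop).const_mul C
  rw [mul_zero] at h1
  obtain ⟨n, hn, hn2⟩ := ((h1.eventually (ge_mem_nhds (show (0 : ℝ) < 1 / 2 by norm_num))).and
    (Filter.eventually_ge_atTop 2)).exists
  refine ⟨n, 1 / 2, by omega, by norm_num, by norm_num, fun x r η hr hη => ?_⟩
  have hr0 : (0 : ℝ) < r := by exact_mod_cast (by omega : 0 < r)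
  have hn0 : (0 : ℝ) < n := by exact_mod_cast (by omega : 0 < n)
  have h2 := hA x r (n * r) (Bq x (n * r) \ Bq x r) η (fun _ => 1) hr (by nlinarith) hη subset_rfl
    (fun _ => zero_le_one) (fun _ _ _ => rfl)
  simp only [one_mul] at h2
  rw [Ex_const hQ0, mul_one] at h2
  refine h2.trans ?_
  have e : (r : ℝ) / ((n * r : ℤ) : ℝ) = (n : ℝ)⁻¹ := by
    push_cast
    field_simp
  rw [e, Real.inv_rpow hn0.le]
  linarith

/-- **One scale**: raw arms at any position. -/
theorem ra_one (hQ : Kit Q) (_hR : RSW Q) (_hS : SRSW Q) :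
    ∃ (Λ : ℤ) (c : ℝ), 2 ≤ Λ ∧ 0 < c ∧ c < 1 ∧
    ∀ (h : ℤ) (x : ℤ × ℤ) (r : ℤ) (ω : Cfg), 1 ≤ r → h ≤ x.2 → Good ω →
      Ex Q (hann h x r (Λ * r)) ω ((RA h x r (Λ * r)).indicator 1) ≤ 1 - c := by
  have hQ0 : 0 < Q := hQ.pos
  obtain ⟨L, c1, hL, hc1, hc1', hb⟩ := two_sided' hQ
  obtain ⟨K, c2, hK, hc2, -, hx⟩ := xc_le hQ
  refine ⟨K * (L + 1) + L, min c1 c2, by nlinarith, lt_min hc1 hc2,
    lt_of_le_of_lt (min_le_left _ _) hc1', ?_⟩
  intro h x r ω hr hhx hω
  set R : ℤ := (K * (L + 1) + L) * r with hRdef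
  have hLr : L * r ≤ R := by
    have : 0 ≤ K * (L + 1) * r := by positivity
    rw [hRdef]
    linarith
  by_cases hd : h + L * r ≤ x.2
  · -- far from the side
    have hsub : Bq x (L * r) \ Bq x r ⊆ hann h x r R := by
      intro v hv
      rw [Finset.mem_sdiff] at hv
      rw [mem_hann]
      refine ⟨⟨?_, hv.2⟩, ?_⟩
      · have := hv.1
        simp only [Bq, Finset.mem_product, Finset.mem_Ico] at this ⊢
        omega
      · have := hv.1
        simp only [Bq, Finset.mem_product, Finset.mem_Ico] at this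
        omega
    rw [f_markov Q _ _ ω _ hQ0 hsub hω, ← Ex_const (Q := Q) (D := hann h x r R) (η := ω) hQ0
      (1 - min c1 c2)]
    refine Ex_mono hQ0 fun S _ => ?_
    refine le_trans ?_ ((hb x r (cf (hann h x r R) ω S) hr (f_good.1 _ _ _ hω)).trans
      (by linarith [min_le_left c1 c2]))
    refine Ex_mono hQ0 fun T _ => ind_le_of_imp ?_
    intro h1
    have h2 : ArmPx x r R (H167.Q.mk h _) := h1
    refine arm_sub (x := x) le_rfl (by nlinarith) hLr (inc_arm x r R _ _ (fun v hv => ?_) h2)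
    unfold H167.Q.mk at hv
    split_ifs at hv
    exact hv
  · -- near the side
    push Not at hd
    set b : ℤ × ℤ := (x.1, h) with hb'
    set r' : ℤ := (L + 1) * r with hr'
    have hr'1 : 1 ≤ r' := by nlinarith
    have e1 : r' = L * r + r := by rw [hr']; ring
    have e2 : R = K * r' + L * r := by rw [hRdef, hr']; ring
    have hKr : 0 ≤ L * r := by nlinarith
    have hKr' : r' < K * r' := by nlinarith
    have hsub : ∀ v ∈ dq b r' (K * r'), v ∈ hann h x r R := by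
      intro v hv
      rw [mem_hann]
      simp only [dq, Set.mem_ofPred_eq, hb'] at hv
      obtain ⟨g1, g2, g3, g4, g5⟩ := hv
      refine ⟨⟨?_, ?_⟩, g3⟩
      · simp only [Bq, Finset.mem_product, Finset.mem_Ico]
        omega
      · simp only [Bq, Finset.mem_product, Finset.mem_Ico]
        omega
    have h3 : Pr Q (hann h x r R) ω (Xc true b r' (K * r')) ≤ 1 - min c1 c2 :=
      (hx true b r' (hann h x r R) ω hr'1 hsub hω).trans (by linarith [min_le_right c1 c2])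
    refine le_trans ?_ h3
    refine Ex_mono hQ0 fun T _ => ind_le_of_imp ?_
    intro h1
    refine xc_of_ra hKr' ?_
    have h2 : ArmPx x r R (H167.Q.mk h _) := h1
    show ArmPx b r' (K * r') (H167.Q.mk h _)
    rw [armPx_iff (by nlinarith)] at h2 ⊢
    obtain ⟨u, s, k1, k2, k3, k4⟩ := h2
    refine ⟨u, s, k1, ?_, ?_, k4⟩
    · rw [nm_le_iff] at k2 ⊢
      simp only [Prod.fst_sub, Prod.snd_sub, hb'] at k2 ⊢
      omega
    · rw [le_nm_iff] at k3 ⊢
      simp only [Prod.fst_sub, Prod.snd_sub, hb'] at k3 ⊢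
      omega

/-- **Decay of the raw arms**, uniformly in the position and in everything outside of the half
annulus. -/
theorem ra_dec (hQ : Kit Q) (hR : RSW Q) (hS : SRSW Q) : ∃ α C : ℝ, 0 < α ∧ 0 < C ∧
    ∀ (h : ℤ) (x : ℤ × ℤ) (r R : ℤ) (D : Finset (ℤ × ℤ)) (η : Cfg) (G : Cfg → ℝ), h ≤ x.2 → 1 ≤ r →
      r ≤ R → Good η → hann h x r R ⊆ D → (∀ ω, 0 ≤ G ω) → Ind (hann h x r R) G →
      Ex Q D η (fun ω => G ω * (RA h x r R).indicator 1 ω) ≤
        C * ((r : ℝ) / R) ^ α * Ex Q D η G := by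
  have hQ_pos := hQ.pos
  have hQ0 : 0 < Q := by linarith
  obtain ⟨L, c, hL, hc0, hc1, hone⟩ := ra_one hQ hR hS
  obtain ⟨α, C, hα, hC, hpow⟩ := pow_decay (a := 1 - c) (by linarith) (by linarith) hL
  refine ⟨α, C, hα, hC, ?_⟩
  intro h x r R D η G hhx hr hrR hη hD hG0 hG
  have hsub : ∀ a b : ℤ, a ≤ b → Bq x a ⊆ Bq x b := by
    intro a b hab v hv
    simp only [Bq, Finset.mem_product, Finset.mem_Ico] at hv ⊢
    omega
  have key : ∀ n : ℕ, L ^ n * r ≤ R → ∃ P : Cfg → ℝ, (∀ ω, 0 ≤ P ω) ∧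
      (∀ ω, ω ∈ RA h x r R → 1 ≤ P ω) ∧ Loc (Bq x (L ^ n * r)) P ∧
      Ex Q D η (fun ω => G ω * P ω) ≤ (1 - c) ^ n * Ex Q D η G := by
    intro n
    induction n with
    | zero =>
      intro _
      exact ⟨fun _ => 1, fun _ => zero_le_one, fun _ _ => le_refl _, fun _ _ _ => rfl, by simp⟩
    | succ n ih =>
      intro hn
      have hLn : (1 : ℤ) ≤ L ^ n := one_le_pow₀ (by omega)
      have hrn : r ≤ L ^ n * r := by nlinarith
      have e : L ^ (n + 1) * r = L * (L ^ n * r) := by ring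
      have hrn' : L ^ n * r ≤ L ^ (n + 1) * r := by rw [e]; nlinarith
      obtain ⟨P, h0, h1, h2, h3⟩ := ih (hrn'.trans hn)
      refine ⟨fun ω => P ω * (RA h x (L ^ n * r) (L * (L ^ n * r))).indicator 1 ω,
        fun ω => mul_nonneg (h0 ω) (FKA.ind_nonneg _ _), ?_, ?_, ?_⟩
      · intro ω hω
        have h4 : ω ∈ RA h x (L ^ n * r) (L * (L ^ n * r)) :=
          ra_sub hrn (by rw [← e]; exact hrn') (by rw [← e]; exact hn) hω
        show 1 ≤ P ω * (RA h x (L ^ n * r) (L * (L ^ n * r))).indicator 1 ω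
        rw [Set.indicator_of_mem h4]
        simpa using h1 ω hω
      · intro ω ω' h4
        have h5 : P ω = P ω' := h2 ω ω' fun v hv => h4 v (hsub _ _ hrn' hv)
        have h6 := ra_loc h x (L ^ n * r) (L * (L ^ n * r)) ω ω' fun v hv =>
          h4 v (by rw [e]; exact hv)
        simp only [h5, h6]
      · have hAD : hann h x (L ^ n * r) (L * (L ^ n * r)) ⊆ hann h x r R := by
          intro v hv
          rw [mem_hann] at hv ⊢
          exact ⟨⟨hsub _ _ (by rw [← e]; exact hn) hv.1.1, fun h' => hv.1.2 (hsub _ _ hrn h')⟩,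
            hv.2⟩
        have h7 := markov_le f_markov f_good hQ0 (hAD.trans hD) hη
          (F := (RA h x (L ^ n * r) (L * (L ^ n * r))).indicator 1)
          (G := fun ω => G ω * P ω) (a := 1 - c) ?_ (fun ω => mul_nonneg (hG0 ω) (h0 ω))
          (fun ω hω => hone h x (L ^ n * r) ω (by omega) hhx hω)
        · simp only [mul_assoc] at h7 ⊢
          refine h7.trans ?_
          rw [pow_succ, mul_comm ((1 - c) ^ n), mul_assoc]
          exact mul_le_mul_of_nonneg_left h3 (by linarith)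
        · refine (hG.mono hAD).mul (h2.ind ?_)
          rw [Finset.disjoint_left]
          intro v hv hv'
          exact (mem_hann.1 hv').1.2 hv
  have hGE : 0 ≤ Ex Q D η G := Ex_nonneg hQ0 fun _ _ => hG0 _
  have h5 : ∀ n : ℕ, L ^ n * r ≤ R →
      Ex Q D η (fun ω => G ω * (RA h x r R).indicator 1 ω) ≤
        (1 - c) ^ n * Ex Q D η G := by
    intro n hn
    obtain ⟨P, h0, h1, -, h3⟩ := key n hn
    refine le_trans (Ex_mono hQ0 fun S _ => ?_) h3
    refine mul_le_mul_of_nonneg_left ?_ (hG0 _)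
    by_cases h4 : cf D η S ∈ RA h x r R
    · rw [Set.indicator_of_mem h4]
      exact h1 _ h4
    · rw [Set.indicator_of_notMem h4]
      exact h0 _
  rcases hGE.eq_or_lt with h6 | h6
  · have := h5 0 (by simpa using hrR)
    rw [← h6, mul_zero] at this ⊢
    exact this
  · have h7 := hpow (Ex Q D η (fun ω => G ω * (RA h x r R).indicator 1 ω) / Ex Q D η G)
      r R hr hrR fun n hn => by rw [div_le_iff₀ h6]; exact h5 n hn
    rwa [div_le_iff₀ h6] at h7

end Vale.Agent.P167.N.H167.Q
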