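import Vale.Agent.P167.N.H167.Q.Shp

/-!
# P167, `q < 1`: translates of free and wired enlargements are regular
-/

set_option autoImplicit false

namespace Vale.Agent.P167.N.H167.Q

open Finset Filter Vale.Agent.P167.FK

open Vale.Agent.P167.E6 (IsPolygon Encloses)

open Vale.Agent.P167.H718 (Dob)

open Vale.Agent.P167.H825 (enl)

open Vale.Agent.P167.Enl (qN)

variable {l n : ℕ} {p : ZMod l → ℤ × ℤ} {S₀ : Finset (ℤ × ℤ)}

theorem reg_free_tr (hp : IsPolygon p) (hD : Encloses p S₀) (hn : 0 < n) {m₀ : ℤ}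
    (hm : 2 * m₀ + 1 ≤ n) (t : ℕ) (a : ℤ × ℤ) :
    Dob eta0 ((enl S₀ n).image (· + a)) (fun i => qN p n t i + a) (l * n) ∧
      Reg m₀ ((enl S₀ n).image (· + a)) eta0 :=
  (Vale.Agent.P167.H825.Reg.reg_free_tr hp hD hn hm t a).imp_right fun h =>
    Reg.of h fun _ _ _ _ hR => shp_enl_tr hp hD hn (by omega) a

theorem reg_wired_tr (hp : IsPolygon p) (hD : Encloses p S₀) (hn : 0 < n) {m₀ : ℤ}
    (hm : 2 * m₀ + 1 ≤ n) (t : ℕ) (a : ℤ × ℤ) :
    Dob eta1 ((enl S₀ n).image (· + a)) (fun i => qN p n t i + a) 0 ∧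
      Reg m₀ ((enl S₀ n).image (· + a)) eta1 :=
  (Vale.Agent.P167.H825.Reg.reg_wired_tr hp hD hn hm t a).imp_right fun h =>
    Reg.of h fun _ _ _ _ hR => shp_enl_tr hp hD hn (by omega) a

end Vale.Agent.P167.N.H167.Q
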